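import Vale.Agent.P084.Smooth.Second

/-!
Short chords at small height: the bend of an image chord is governed by the second term of the
norm of the source.
-/

set_option linter.unusedSectionVars false

namespace Vale.Agent.P084.Smooth

variable {X Y : Type*} [NormedAddCommGroup X] [NormedSpace ℝ X]
  [NormedAddCommGroup Y] [NormedSpace ℝ Y] {c C : ℝ}

/-- The excess of the broken segment through `d - e` and `d + e`. -/
def bend (d e : X) : ℝ := ‖d + e‖ + ‖d - e‖ - 2 * ‖d‖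

lemma bend_nonneg (d e : X) : 0 ≤ bend d e := by
  have h := norm_add_le (d + e) (d - e)
  rw [show d + e + (d - e) = (2 : ℝ) • d by module, norm_smul] at h
  norm_num at h
  simp only [bend]; linarith

lemma excess_eq {x y z d e : X} {l : ℝ} (hl : 0 ≤ l) (hd : x - z = l • d)
    (hy : y - (2 : ℝ)⁻¹ • (x + z) = (l / 2) • e) :
    ‖x - y‖ + ‖y - z‖ - ‖x - z‖ = l / 2 * bend d e := by
  have hy' : y = (2 : ℝ)⁻¹ • (x + z) + (l / 2) • e := by rw [← hy]; abel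
  have hx' : x = z + l • d := by rw [← hd]; abel
  have e1 : x - y = (l / 2) • (d - e) := by
    rw [hy', hx']; module
  have e2 : y - z = (l / 2) • (d + e) := by
    rw [hy', hx']; module
  rw [e1, e2, hd, norm_smul, norm_smul, norm_smul, Real.norm_of_nonneg hl,
    Real.norm_of_nonneg (by linarith), bend]
  ring

lemma bend_lip (hX : Mod X c C) {d e e' : X} (hd : 1 ≤ ‖d‖) (he : ‖e‖ ≤ 1 / 2)
    (he' : ‖e'‖ ≤ 1 / 2) :
    |bend d e - bend d e'| ≤ 300 * C * (‖e‖ + ‖e'‖) * ‖e - e'‖ := by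
  suffices key : ∀ a b : X, ‖a‖ ≤ 1 / 2 → ‖b‖ ≤ 1 / 2 →
      bend d a - bend d b ≤ 300 * C * (‖a‖ + ‖b‖) * ‖a - b‖ by
    rw [abs_le]
    have h1 := key e e' he he'
    have h2 := key e' e he' he
    rw [norm_sub_rev e', add_comm ‖e'‖] at h2
    constructor <;> linarith
  intro a b ha hb
  have hC := hX.C_pos
  have hp : 1 / 2 ≤ ‖d + b‖ := by
    have := norm_sub_le (d + b) b; rw [add_sub_cancel_right] at this; linarith
  have hm : 1 / 2 ≤ ‖d - b‖ := by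
    have := norm_add_le (d - b) b; rw [sub_add_cancel] at this; linarith
  have np : d + b ≠ 0 := fun h => by rw [h, norm_zero] at hp; linarith
  have nm : d - b ≠ 0 := fun h => by rw [h, norm_zero] at hm; linarith
  have u1 := hX.norm_add_le np (a - b)
  have u2 := hX.norm_add_le nm (-(a - b))
  rw [show d + b + (a - b) = d + a by abel] at u1
  rw [show d - b + -(a - b) = d - a by abel, map_neg, norm_neg] at u2
  have hq : ∀ v : X, 1 / 2 ≤ ‖v‖ →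
      16 * C * ‖a - b‖ ^ 2 / ‖v‖ ≤ 32 * C * ‖a - b‖ ^ 2 := fun v hv => by
    rw [div_le_iff₀ (by linarith)]
    nlinarith [mul_le_mul_of_nonneg_left hv (by positivity : 0 ≤ 32 * C * ‖a - b‖ ^ 2)]
  have hL : |nf (d + b) (a - b) - nf (d - b) (a - b)| ≤ 136 * C * ‖b‖ * ‖a - b‖ := by
    rw [← hX.nf_nrm np, ← hX.nf_nrm nm, abs_sub_comm]
    refine (hX.abs_nf_sub_le (norm_nrm np) (norm_nrm nm) (a - b)).trans ?_
    have hdist : ‖nrm (d + b) - nrm (d - b)‖ ≤ 8 * ‖b‖ := by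
      have hi : nrm (d + b) - nrm (d - b) = ‖d + b‖⁻¹ •
          ((d + b - (d - b)) + (‖d - b‖ - ‖d + b‖) • nrm (d - b)) := by
        rw [sub_smul ‖d - b‖, smul_nrm, sub_add_sub_cancel, smul_sub, smul_smul,
          inv_mul_cancel₀ (norm_ne_zero_iff.2 np), one_smul]
        rfl
      have hbb : ‖d + b - (d - b)‖ ≤ 2 * ‖b‖ := by
        rw [show d + b - (d - b) = b + b by abel]
        linarith [norm_add_le b b]
      rw [hi, norm_smul, norm_inv, norm_norm, inv_mul_le_iff₀ (by linarith)]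
      refine (norm_add_le _ _).trans ?_
      rw [norm_smul, norm_nrm nm, mul_one, Real.norm_eq_abs]
      have h3 := abs_norm_sub_norm_le (d - b) (d + b)
      rw [norm_sub_rev (d - b)] at h3
      nlinarith [mul_le_mul_of_nonneg_right hp (by positivity : 0 ≤ 8 * ‖b‖)]
    calc 17 * C * ‖nrm (d + b) - nrm (d - b)‖ * ‖a - b‖
        ≤ 17 * C * (8 * ‖b‖) * ‖a - b‖ := by gcongr
      _ = _ := by ring
  have hab : ‖a - b‖ ^ 2 ≤ (‖a‖ + ‖b‖) * ‖a - b‖ := by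
    rw [sq]; exact mul_le_mul_of_nonneg_right (norm_sub_le _ _) (norm_nonneg _)
  have := mul_le_mul_of_nonneg_left hab hC.le
  have : C * ‖b‖ * ‖a - b‖ ≤ C * (‖a‖ + ‖b‖) * ‖a - b‖ := by
    gcongr; linarith [norm_nonneg a]
  have := abs_le.1 hL
  have := hq _ hp
  have := hq _ hm
  have : 0 ≤ C * (‖a‖ + ‖b‖) * ‖a - b‖ := by positivity
  simp only [bend]
  linarith

lemma bend_le (hX : Mod X c C) {d e : X} (hd : 1 ≤ ‖d‖) (he : ‖e‖ ≤ 1 / 2) :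
    bend d e ≤ 300 * C * ‖e‖ ^ 2 := by
  have h := (abs_le.1 (bend_lip hX hd he (show ‖(0 : X)‖ ≤ 1 / 2 by simp))).2
  have h0 : bend d (0 : X) = 0 := by simp [bend]; ring
  rw [h0, sub_zero, norm_zero, sub_zero, add_zero] at h
  linarith

lemma exists_mid_point {x z e : X} (hx : ‖x‖ = 1) (hz : ‖z‖ = 1) {b : ℝ} (hb : 0 ≤ b)
    (h : nf x (x - z) / 2 ≤ b * nf x e) :
    ∃ μ, 0 ≤ μ ∧ μ ≤ b ∧ ‖(2 : ℝ)⁻¹ • (x + z) + μ • e‖ = 1 := by
  have h0 : ‖(2 : ℝ)⁻¹ • (x + z) + (0 : ℝ) • e‖ ≤ 1 := by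
    rw [zero_smul, add_zero, norm_smul]
    norm_num
    linarith [norm_add_le x z]
  have h1 : 1 ≤ ‖(2 : ℝ)⁻¹ • (x + z) + b • e‖ := by
    refine le_trans ?_ (nf_le x _)
    rw [map_add, map_smul, map_smul, map_add, nf_self, hx, smul_eq_mul, smul_eq_mul]
    rw [map_sub, nf_self, hx] at h
    linarith
  have hc : Continuous fun μ : ℝ => ‖(2 : ℝ)⁻¹ • (x + z) + μ • e‖ := by fun_prop
  obtain ⟨μ, hμ, hμ'⟩ := intermediate_value_Icc hb hc.continuousOn ⟨h0, h1⟩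
  exact ⟨μ, hμ.1, hμ.2, hμ'⟩

variable {D : X → X → ℝ} {f : X → Y} {g : Y → X} (hX : Mod X c C) (hY : Mod Y c C)
  (hf : Iso f g)

include hX hY hf

lemma nf_nrm_bounds {x z : X} (hx : ‖x‖ = 1) (hz : ‖z‖ = 1) (hne : x ≠ z) :
    c * ‖x - z‖ ≤ nf x (nrm (x - z)) ∧ nf x (nrm (x - z)) ≤ C * ‖x - z‖ ∧
      c * ‖x - z‖ ≤ nf (f x) (nrm (f x - f z)) ∧ nf (f x) (nrm (f x - f z)) ≤ C * ‖x - z‖ := by
  have hr : 0 < ‖x - z‖ := norm_pos_iff.2 (sub_ne_zero.2 hne)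
  have h1 := hX.low x z hx hz
  have h2 := hX.high x z hx hz
  have h3 := hY.low (f x) (f z) (hf.norm x hx) (hf.norm z hz)
  have h4 := hY.high (f x) (f z) (hf.norm x hx) (hf.norm z hz)
  rw [hf.dist x z hx hz, ← smul_nrm (f x - f z), hf.dist x z hx hz, map_smul, smul_eq_mul]
    at h3 h4
  rw [← smul_nrm (x - z), map_smul, smul_eq_mul, norm_smul, norm_norm,
    norm_nrm (sub_ne_zero.2 hne), mul_one] at h1 h2
  refine ⟨?_, ?_, ?_, ?_⟩ <;> refine le_of_mul_le_mul_left ?_ hr <;> nlinarith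

lemma chord_bounds {x : X} {d : Y} (hx : ‖x‖ = 1) (hd1 : 1 ≤ ‖d‖) (hd2 : ‖d‖ ≤ 2)
    (hL : 0 < nf (f x) d) :
    ∃ (l : ℝ) (z₁ : X), 0 < l ∧ ‖z₁‖ = 1 ∧ x ≠ z₁ ∧ f x - f z₁ = l • d ∧
      ‖x - z₁‖ = l * ‖d‖ ∧ nf (f x) d ≤ 4 * C * l ∧ c * l ≤ nf (f x) d ∧
      l ≤ ‖x - z₁‖ ∧ ‖x - z₁‖ ≤ 2 * l := by
  have hfx := hf.norm x hx
  obtain ⟨l, hl, hl'⟩ := hY.exists_chord hfx hL
  have hd0 : d ≠ 0 := fun h => by rw [h, map_zero] at hL; exact lt_irrefl _ hL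
  set z₁ := g (f x - l • d) with hz₁def
  have hz₁ : ‖z₁‖ = 1 := hf.norm' _ hl'
  have hfz : f z₁ = f x - l • d := hf.right _ hl'
  have e : f x - f z₁ = l • d := by rw [hfz]; abel
  have hne : x ≠ z₁ := fun h => by
    rw [← h, sub_self] at e; exact smul_ne_zero hl.ne' hd0 e.symm
  have hR : ‖x - z₁‖ = l * ‖d‖ := by
    rw [← hf.dist x z₁ hx hz₁, e, norm_smul, Real.norm_of_nonneg hl.le]
  have h1 := hY.low (f x) (f z₁) hfx (hf.norm z₁ hz₁)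
  have h2 := hY.high (f x) (f z₁) hfx (hf.norm z₁ hz₁)
  rw [e, map_smul, smul_eq_mul, norm_smul, Real.norm_of_nonneg hl.le] at h1 h2
  have hlR : l * 1 ≤ l * ‖d‖ ∧ l * ‖d‖ ≤ l * 2 :=
    ⟨mul_le_mul_of_nonneg_left hd1 hl.le, mul_le_mul_of_nonneg_left hd2 hl.le⟩
  refine ⟨l, z₁, hl, hz₁, hne, e, hR, ?_, ?_, by linarith, by linarith⟩
  · refine le_of_mul_le_mul_left ?_ hl
    calc l * nf (f x) d ≤ C * (l * ‖d‖) ^ 2 := h2
      _ ≤ C * (l * 2) ^ 2 := by gcongr; exact hX.C_pos.le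
      _ = _ := by ring
  · refine le_of_mul_le_mul_left ?_ hl
    calc l * (c * l) = c * (l * 1) ^ 2 := by ring
      _ ≤ c * (l * ‖d‖) ^ 2 := by gcongr; exact hX.c_pos.le
      _ ≤ _ := h1

/-- The preimage chord direction is close to the base direction. -/
lemma dir_near {τ B : ℝ} (hτ : 0 < τ) (hB : 1 ≤ B) :
    ∃ δ : ℝ, 0 < δ ∧ ∀ (x z z₁ : X) (d : Y) (l L : ℝ), ‖x‖ = 1 → ‖z‖ = 1 → x ≠ z →
      ‖z₁‖ = 1 → x ≠ z₁ → 0 < l → f x - f z₁ = l • d → 1 ≤ ‖d‖ →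
      ‖x - z‖ ≤ δ → 0 ≤ L → L ≤ δ → ‖d - nrm (f x - f z)‖ ≤ B * L →
      ‖nrm (x - z₁) - nrm (x - z)‖ ≤ τ := by
  have hc := hX.c_pos
  have hC := hX.C_pos
  set u := c * τ ^ 2 / 4 with hu
  set δ := min (u / (B + 1 + 5 * C)) (min (1 / (2 * C)) (min (c * u ^ 2 / (64 * C)) 1))
  refine ⟨δ, lt_min (by positivity) (lt_min (by positivity) (lt_min (by positivity) one_pos)),
    fun x z z₁ d l L hx hz hne hz₁ hne₁ hl he hd hr hL hLδ hdp => ?_⟩
  have d1 : δ * (B + 1 + 5 * C) ≤ u := (le_div_iff₀ (by positivity)).1 (min_le_left _ _)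
  have d2 : δ * (2 * C) ≤ 1 :=
    (le_div_iff₀ (by positivity)).1 ((min_le_right _ _).trans (min_le_left _ _))
  have d3 : δ * (64 * C) ≤ c * u ^ 2 :=
    (le_div_iff₀ (by positivity)).1
      ((min_le_right _ _).trans ((min_le_right _ _).trans (min_le_left _ _)))
  have hBL : B * L ≤ B * δ := by gcongr
  obtain ⟨a1, a2, -, -⟩ := nf_nrm_bounds hX hY hf hx hz hne
  have hr0 : 0 < ‖x - z‖ := norm_pos_iff.2 (sub_ne_zero.2 hne)
  have hCr : C * ‖x - z‖ ≤ C * δ := by gcongr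
  have hR0 : 0 < ‖x - z₁‖ := norm_pos_iff.2 (sub_ne_zero.2 hne₁)
  have hα0 : 0 < nf x (nrm (x - z)) := lt_of_lt_of_le (by positivity) a1
  set p := nrm (x - z) with hp
  set α := nf x p
  have hpn : ‖p‖ = 1 := norm_nrm (sub_ne_zero.2 hne)
  set p' := nrm (f x - f z)
  have hfxz := sub_ne_zero.2 (hf.ne hx hz hne)
  have hp'n : ‖p'‖ = 1 := norm_nrm hfxz
  set η := min (α * ‖x - z‖) (‖x - z‖ * ‖x - z₁‖)
  have hq : ‖p - α • x‖ ≤ 1 + α := by
    refine (norm_sub_le _ _).trans ?_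
    rw [hpn, norm_smul, hx, mul_one, Real.norm_of_nonneg hα0.le]
  obtain ⟨w, hw⟩ := exists_tan hX hY hf hx (q := p - α • x)
    (by simp [nf_self, hx, α]) (hq.trans (by linarith))
    (show 0 < η from lt_min (by positivity) (by positivity))
  have hKp : nf (x - z) p = 1 := by rw [← hX.nf_nrm (sub_ne_zero.2 hne), ← hp, nf_self, hpn]
  have hKx := abs_le.1 (abs_nf_le (x - z) x)
  rw [hx] at hKx
  have k1 : |nf (f x - f z) w - (1 - α * nf (x - z) x)| ≤ α := by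
    have h := hw.eq z hz hne
    rw [map_sub, map_smul, smul_eq_mul, hKp] at h
    exact le_of_mul_le_mul_right (h.trans (min_le_left _ _)) hr0
  have k2 : |nf (f x - f z₁) w - (nf (x - z₁) p - α * nf (x - z₁) x)| ≤ ‖x - z‖ := by
    have h := hw.eq z₁ hz₁ hne₁
    rw [map_sub, map_smul, smul_eq_mul] at h
    exact le_of_mul_le_mul_right (h.trans (min_le_right _ _)) hR0
  have hηα : η ≤ α := (min_le_left _ _).trans (mul_le_of_le_one_right hα0.le (by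
    linarith [min_le_right (1 / (2 * C)) (min (c * u ^ 2 / (64 * C)) 1),
      min_le_right (u / (B + 1 + 5 * C)) (min (1 / (2 * C)) (min (c * u ^ 2 / (64 * C)) 1)),
      min_le_right (c * u ^ 2 / (64 * C)) 1]))
  have hwn : ‖w‖ ≤ 1 + 2 * α := by linarith [hw.len]
  have hαx : |α * nf (x - z) x| ≤ α := by
    rw [abs_mul, abs_of_pos hα0]
    exact mul_le_of_le_one_right hα0.le (abs_le.2 hKx)
  have hdev := hY.dev_le hp'n w
  rw [hY.nf_nrm hfxz] at hdev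
  set κ := nf (f x - f z) w
  have hκ1 : 1 - 2 * α ≤ κ := by linarith [abs_le.1 k1, abs_le.1 hαx]
  have hκ2 := nf_le (f x - f z) w
  have hα2 : 2 * α ≤ 1 := by linarith
  have hW : ‖w - κ • p'‖ ≤ u := by
    refine le_of_pow_le_pow_left₀ two_ne_zero (by positivity) (le_of_mul_le_mul_left ?_ hc)
    refine hdev.trans ?_
    calc 4 * ‖w‖ * (‖w‖ - κ) ≤ 4 * 2 * (4 * α) :=
          mul_le_mul (by linarith) (by linarith) (by linarith) (by norm_num)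
      _ ≤ _ := by linarith
  have hwp : ‖w - p'‖ ≤ u + 4 * α := by
    have e : w - p' = (w - κ • p') + (κ - 1) • p' := by module
    rw [e]
    refine (norm_add_le _ _).trans (add_le_add hW ?_)
    rw [norm_smul, hp'n, mul_one, Real.norm_eq_abs, abs_le]
    constructor <;> linarith
  have hd0 : d ≠ 0 := fun h => by rw [h, norm_zero] at hd; linarith
  have hK1 : 1 - B * L - (u + 4 * α) ≤ nf (f x - f z₁) w := by
    rw [he, hY.nf_smul hd0 hl]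
    have e1 := nf_le d (d - p')
    have e2 := nf_le d (p' - w)
    rw [map_sub, nf_self] at e1
    rw [map_sub, norm_sub_rev] at e2
    linarith
  have hPn : ‖nrm (x - z₁)‖ = 1 := norm_nrm (sub_ne_zero.2 hne₁)
  have hlow := hX.low (nrm (x - z₁)) p hPn hpn
  rw [map_sub, nf_self, hPn, hX.nf_nrm (sub_ne_zero.2 hne₁)] at hlow
  have hαx₁ : |α * nf (x - z₁) x| ≤ α := by
    rw [abs_mul, abs_of_pos hα0]
    refine mul_le_of_le_one_right hα0.le ?_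
    simpa [hx] using abs_nf_le (x - z₁) x
  refine le_of_pow_le_pow_left₀ two_ne_zero hτ.le (le_of_mul_le_mul_left ?_ hc)
  linarith [abs_le.1 k2, abs_le.1 hαx₁, mul_pos hc (pow_pos hτ 2)]

/-- Half chords have a quarter of the height also in the target. -/
lemma half_height_img (hD : Sec D) {ε : ℝ} (hε : 0 < ε) :
    ∃ δ : ℝ, 0 < δ ∧ ∀ x z : X, ‖x‖ = 1 → ‖z‖ = 1 → ‖x - z‖ ≤ δ →
      |2 - ‖x + z‖ - nf (f x) (f x - f z) / 2| ≤ ε * ‖x - z‖ ^ 2 ∧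
      |nf (f x) (f x - f z) - nf x (x - z)| ≤ ε * ‖x - z‖ ^ 2 := by
  obtain ⟨A, δ₁, hA, hδ₁, hH⟩ := height_invariant hX hY hf
  obtain ⟨δ₂, hδ₂, hh⟩ := hD.half_height hX (half_pos hε)
  refine ⟨min δ₁ (min δ₂ (ε / (A + 1))), lt_min hδ₁ (lt_min hδ₂ (by positivity)),
    fun x z hx hz hr => ?_⟩
  have h1 := abs_le.1 (hH x z hx hz (hr.trans (min_le_left _ _)))
  have h2 := abs_le.1 (hh x z hx hz (hr.trans ((min_le_right _ _).trans (min_le_left _ _))))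
  have h3 : (A + 1) * ‖x - z‖ ≤ ε := by
    have := (le_div_iff₀ (by positivity)).1 (hr.trans ((min_le_right _ _).trans (min_le_right _ _)))
    linarith
  have h4 : A * ‖x - z‖ ^ 3 ≤ ε * ‖x - z‖ ^ 2 := by
    calc A * ‖x - z‖ ^ 3 ≤ (A + 1) * ‖x - z‖ ^ 3 :=
          mul_le_mul_of_nonneg_right (by linarith) (pow_nonneg (norm_nonneg _) 3)
      _ = (A + 1) * ‖x - z‖ * ‖x - z‖ ^ 2 := by ring
      _ ≤ _ := mul_le_mul_of_nonneg_right h3 (sq_nonneg _)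
  simp only [abs_le]
  refine ⟨⟨?_, ?_⟩, ?_, ?_⟩ <;> linarith

/-- The chord in the direction of `d`, seen in both spaces. -/
lemma chord_frame (hD : Sec D) {ε τ ρ B : ℝ} (hε : 0 < ε) (hτ : 0 < τ) (hρ : 0 < ρ) (hB : 1 ≤ B) :
    ∃ δ : ℝ, 0 < δ ∧ ∀ (x z : X) (d : Y) (L : ℝ), ‖x‖ = 1 → ‖z‖ = 1 → x ≠ z →
      0 < L → L ≤ δ → ‖x - z‖ ≤ δ → nf (nrm (f x - f z)) d = 1 → nf (f x) d = L →
      ‖d - nrm (f x - f z)‖ ≤ B * L →
      B * L ≤ 1 / 32 ∧ 1 ≤ ‖d‖ ∧ ‖d‖ ≤ 1 + B * L ∧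
      ∃ (l : ℝ) (z₁ : X), 0 < l ∧ ‖z₁‖ = 1 ∧ x ≠ z₁ ∧ f x - f z₁ = l • d ∧
        ‖x - z₁‖ = l * ‖d‖ ∧ L ≤ 4 * C * l ∧ c * l ≤ L ∧
        l ≤ ‖x - z₁‖ ∧ ‖x - z₁‖ ≤ 2 * l ∧ ‖x - z₁‖ ≤ ρ ∧
        |2 - ‖x + z₁‖ - l * L / 2| ≤ ε * ‖x - z₁‖ ^ 2 ∧
        nf x (x - z₁) / 2 ≤ 2 * l * (L / 2) ∧
        ‖nrm (x - z₁) - nrm (x - z)‖ ≤ τ := by
  have hc := hX.c_pos
  obtain ⟨δh, hδh, hhalf⟩ := half_height_img hX hY hf hD (lt_min hε (show 0 < c / 4 by positivity))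
  obtain ⟨δn, hδn, hdir⟩ := dir_near hX hY hf hτ hB
  refine ⟨min (min δn (1 / (32 * B))) (min (c * δh / 2) (c * ρ / 2)),
    lt_min (lt_min hδn (by positivity)) (lt_min (by positivity) (by positivity)),
    fun x z d L hx hz hne hL hLδ hr hKd hφd hdp => ?_⟩
  have δ2 : L ≤ 1 / (32 * B) := hLδ.trans ((min_le_left _ _).trans (min_le_right _ _))
  have hBL : B * L ≤ 1 / 32 := by
    rw [le_div_iff₀ (by positivity)] at δ2; linarith
  have hp'n : ‖nrm (f x - f z)‖ = 1 := norm_nrm (sub_ne_zero.2 (hf.ne hx hz hne))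
  have hd1 : 1 ≤ ‖d‖ := hKd.symm.le.trans (nf_le _ _)
  have hd2 : ‖d‖ ≤ 1 + B * L := by
    have := norm_le_norm_add_norm_sub' d (nrm (f x - f z))
    linarith
  obtain ⟨l, z₁, hl, hz₁, hne₁, heq, hR, hl1, hl2, hlR, hRl⟩ :=
    chord_bounds hX hY hf (d := d) hx hd1 (by linarith) (by rw [hφd]; exact hL)
  rw [hφd] at hl1 hl2
  have hcR : c * ‖x - z₁‖ ≤ 2 * L := by
    calc c * ‖x - z₁‖ ≤ c * (2 * l) := by gcongr
      _ ≤ _ := by linarith
  have hδ3 : L ≤ c * δh / 2 := hLδ.trans ((min_le_right _ _).trans (min_le_left _ _))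
  have hδ4 : L ≤ c * ρ / 2 := hLδ.trans ((min_le_right _ _).trans (min_le_right _ _))
  obtain ⟨hh, ha⟩ := hhalf x z₁ hx hz₁ (le_of_mul_le_mul_left (by linarith) hc)
  rw [heq, map_smul, hφd, smul_eq_mul] at hh ha
  have hmin := mul_le_mul_of_nonneg_right (min_le_left ε (c / 4)) (sq_nonneg ‖x - z₁‖)
  have hmin' := mul_le_mul_of_nonneg_right (min_le_right ε (c / 4)) (sq_nonneg ‖x - z₁‖)
  have hcl : c / 4 * ‖x - z₁‖ ^ 2 ≤ l * L := by
    calc c / 4 * ‖x - z₁‖ ^ 2 ≤ c / 4 * (2 * l) ^ 2 := by gcongr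
      _ = l * (c * l) := by ring
      _ ≤ l * L := by gcongr
  refine ⟨hBL, hd1, hd2, l, z₁, hl, hz₁, hne₁, heq, hR, hl1, hl2, hlR, hRl,
    le_of_mul_le_mul_left (by linarith) hc, hh.trans hmin, by linarith [abs_le.1 ha],
    hdir x z z₁ d l L hx hz hne hz₁ hne₁ hl heq hd1 ?_ hL.le ?_ hdp⟩
  · exact hr.trans ((min_le_left _ _).trans (min_le_left _ _))
  · exact hLδ.trans ((min_le_left _ _).trans (min_le_left _ _))

omit hY hf in
/-- The point of the sphere over the middle of a chord in a given direction. -/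
lemma mid_param {x z₁ e : X} {l L ε B : ℝ} (hx : ‖x‖ = 1) (hz₁ : ‖z₁‖ = 1) (hne : x ≠ z₁)
    (hL : 0 < L) (hε : 0 ≤ ε) (hB : 0 ≤ B) (hl1 : L ≤ 4 * C * l) (hl2 : c * l ≤ L)
    (hlR : l ≤ ‖x - z₁‖) (hRl : ‖x - z₁‖ ≤ 2 * l) (hRC : C * ‖x - z₁‖ ≤ 1 / 4)
    (hRB : 8 * B * C * ‖x - z₁‖ ≤ 1) (hφe : nf x e = L / 2) (hen : ‖e‖ ≤ B * L)
    (ha : nf x (x - z₁) / 2 ≤ 2 * l * (L / 2))
    (hh : |2 - ‖x + z₁‖ - l * L / 2| ≤ ε * ‖x - z₁‖ ^ 2) :
    ∃ μ, 0 ≤ μ ∧ μ ≤ 2 * l ∧ ‖(2 : ℝ)⁻¹ • (x + z₁) + μ • e‖ = 1 ∧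
      ‖μ • e‖ ≤ 8 * B * C * ‖x - z₁‖ ^ 2 ∧
      |μ - l / 2| ≤ 8 / c * (20 * C ^ 2 * (8 * B * C + C + 1) ^ 2 * ‖x - z₁‖ + ε) * l := by
  have hc := hX.c_pos
  have hC := hX.C_pos
  set K := 20 * C ^ 2 * (8 * B * C + C + 1) ^ 2
  have hR0 : 0 < ‖x - z₁‖ := norm_pos_iff.2 (sub_ne_zero.2 hne)
  have hl : 0 < l := by linarith
  obtain ⟨μ, hμ0, hμ1, hy⟩ := exists_mid_point hx hz₁ (show 0 ≤ 2 * l by linarith) (e := e)
    (by rw [hφe]; exact ha)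
  have hLR : L ≤ 4 * C * ‖x - z₁‖ := hl1.trans (by gcongr)
  have hμe : ‖μ • e‖ ≤ 8 * B * C * ‖x - z₁‖ ^ 2 := by
    rw [norm_smul, Real.norm_of_nonneg hμ0]
    calc μ * ‖e‖ ≤ (2 * ‖x - z₁‖) * (B * (4 * C * ‖x - z₁‖)) :=
          mul_le_mul (by linarith) (hen.trans (by gcongr)) (norm_nonneg _) (by linarith)
      _ = _ := by ring
  have hrad := nf_mid hX hx hy hz₁ hne (L := 8 * B * C) (by positivity) hRC hRB
    (by rw [add_sub_cancel_left]; exact hμe)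
  rw [add_sub_cancel_left, map_smul, hφe, smul_eq_mul] at hrad
  refine ⟨μ, hμ0, hμ1, hy, hμe, le_of_mul_le_mul_right ?_ (half_pos hL)⟩
  rw [← abs_of_pos (half_pos hL), ← abs_mul]
  have hR2 : ‖x - z₁‖ ^ 2 ≤ 4 * l * (L / c) := by
    calc ‖x - z₁‖ ^ 2 ≤ (2 * l) ^ 2 := pow_le_pow_left₀ hR0.le hRl 2
      _ = 4 * l * l := by ring
      _ ≤ _ := by gcongr; rw [le_div_iff₀ hc]; linarith
  calc |(μ - l / 2) * (L / 2)| ≤ (K * ‖x - z₁‖ + ε / 2) * ‖x - z₁‖ ^ 2 := by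
        rw [abs_le]; constructor <;> linarith [abs_le.1 hrad, abs_le.1 hh]
    _ ≤ (K * ‖x - z₁‖ + ε) * (4 * l * (L / c)) := by gcongr; linarith
    _ = _ := by rw [abs_of_pos (half_pos hL)]; ring

/-- A point near the middle of a short chord has its image near the middle. -/
lemma mid_image {K : ℝ} (hK : 0 ≤ K) :
    ∃ K' δ : ℝ, 0 ≤ K' ∧ 0 < δ ∧ ∀ x z y : X, ‖x‖ = 1 → ‖z‖ = 1 → ‖y‖ = 1 → x ≠ z →
      ‖x - z‖ ≤ δ → ‖y - (2 : ℝ)⁻¹ • (x + z)‖ ≤ K * ‖x - z‖ ^ 2 →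
      ‖f y - (2 : ℝ)⁻¹ • (f x + f z)‖ ≤ K' * ‖x - z‖ ^ 2 ∧
      |nf (f x) (f y - (2 : ℝ)⁻¹ • (f x + f z)) - (2 - ‖x + z‖) / 2| ≤ K' * ‖x - z‖ ^ 3 := by
  have hc := hX.c_pos
  have hC := hX.C_pos
  set K₀ := K + 600 * C * K ^ 2
  set K₃ := K₀ + 4 * K₀ / c + 1
  set K₄ := 20 * C ^ 2 * (K₃ + C + 1) ^ 2
  have hK₀ : 0 ≤ K₀ := by positivity
  have hK₃ : 0 ≤ K₃ := by positivity
  refine ⟨K₃ + K₄, 1 / (4 * (C + K₀ + K₃ + 1)), by positivity, by positivity,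
    fun x z y hx hz hy hne hr hym => ?_⟩
  rw [le_div_iff₀ (by positivity)] at hr
  set r := ‖x - z‖ with hrdef
  have hr0 : 0 < r := norm_pos_iff.2 (sub_ne_zero.2 hne)
  have hsmall : ∀ k, k ≤ C + K₀ + K₃ + 1 → k * r ≤ 1 / 4 := fun k hk => by
    have := mul_le_mul_of_nonneg_right hk hr0.le; linarith
  set v := (2 / r) • (y - (2 : ℝ)⁻¹ • (x + z)) with hv
  have hyv : y - (2 : ℝ)⁻¹ • (x + z) = (r / 2) • v := by
    rw [hv, smul_smul, show r / 2 * (2 / r) = 1 by field_simp, one_smul]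
  have hvn : ‖v‖ ≤ 2 * K * r := by
    rw [hv, norm_smul, Real.norm_of_nonneg (by positivity)]
    calc 2 / r * ‖y - (2 : ℝ)⁻¹ • (x + z)‖ ≤ 2 / r * (K * r ^ 2) := by gcongr
      _ = _ := by field_simp
  have hPn : ‖nrm (x - z)‖ = 1 := norm_nrm (sub_ne_zero.2 hne)
  have hKr : K * r ≤ 1 / 4 := hsmall K (by linarith [show 0 ≤ 600 * C * K ^ 2 by positivity])
  have hex : ‖x - y‖ + ‖y - z‖ - r ≤ K₀ * r ^ 3 := by
    rw [hrdef, excess_eq hr0.le (smul_nrm (x - z)).symm hyv, ← hrdef]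
    calc r / 2 * bend (nrm (x - z)) v ≤ r / 2 * (300 * C * ‖v‖ ^ 2) := by
          gcongr; exact bend_le hX hPn.ge (by linarith)
      _ ≤ r / 2 * (300 * C * (2 * K * r) ^ 2) := by gcongr
      _ = 600 * C * K ^ 2 * r ^ 3 := by ring
      _ ≤ _ := mul_le_mul_of_nonneg_right (by linarith) (pow_nonneg hr0.le 3)
  have hKK : K * r ^ 2 ≤ K₀ * r ^ 2 :=
    mul_le_mul_of_nonneg_right (by linarith [show 0 ≤ 600 * C * K ^ 2 by positivity])
      (sq_nonneg r)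
  have hm1 : ‖x - (2 : ℝ)⁻¹ • (x + z)‖ = r / 2 := by
    rw [show x - (2 : ℝ)⁻¹ • (x + z) = (2 : ℝ)⁻¹ • (x - z) by module, norm_smul, ← hrdef]
    norm_num; ring
  have hm2 : ‖(2 : ℝ)⁻¹ • (x + z) - z‖ = r / 2 := by
    rw [show (2 : ℝ)⁻¹ • (x + z) - z = (2 : ℝ)⁻¹ • (x - z) by module, norm_smul, ← hrdef]
    norm_num; ring
  have t1 := norm_sub_le_norm_sub_add_norm_sub x ((2 : ℝ)⁻¹ • (x + z)) y
  rw [hm1, norm_sub_rev ((2 : ℝ)⁻¹ • (x + z)) y] at t1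
  have t2 := norm_sub_le_norm_sub_add_norm_sub y ((2 : ℝ)⁻¹ • (x + z)) z
  rw [hm2] at t2
  have hfx := hf.norm x hx
  have hfy := hf.norm y hy
  have hfz := hf.norm z hz
  have hR : ‖f x - f z‖ = r := hf.dist x z hx hz
  have hnear := near_mid hY (hf.ne hx hz hne) (y := f y) hK₀ (by
      rw [hR]; linarith [hsmall K₀ (by linarith)])
    (by rw [hR, hf.dist x y hx hy]; linarith) (by rw [hR, hf.dist y z hy hz]; linarith)
    (by rw [hR, hf.dist x y hx hy, hf.dist y z hy hz]; linarith)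
  rw [hR] at hnear
  have hrad := nf_mid hY hfx hfy hfz (hf.ne hx hz hne) (L := K₃) hK₃
    (by rw [hR]; exact hsmall C (by linarith))
    (by rw [hR]; linarith [hsmall K₃ (by linarith)]) (by rw [hR]; exact hnear)
  rw [hR, hf.sum hx hz] at hrad
  have hK₄ : 0 ≤ K₄ := by positivity
  exact ⟨hnear.trans (mul_le_mul_of_nonneg_right (by linarith) (sq_nonneg r)),
    hrad.trans (mul_le_mul_of_nonneg_right (by linarith) (pow_nonneg hr0.le 3))⟩

omit hY hf in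
/-- The bend near `p` in terms of the second term at `p`. -/
lemma bend_expand (hD : Sec D) {ε : ℝ} (hε : 0 < ε) :
    ∃ δ : ℝ, 0 < δ ∧ ∀ p P e : X, ‖p‖ = 1 → ‖P‖ = 1 → ‖P - p‖ ≤ δ → ‖e‖ ≤ δ →
      |bend P e - 2 * D p e| ≤ 4 * ε * ‖e‖ ^ 2 := by
  obtain ⟨τ, hτ, hnear⟩ := hD.near hX hε
  obtain ⟨δ, hδ, hexp⟩ := hD.exp ε hε
  refine ⟨min δ τ, lt_min hδ hτ, fun p P e hp hP hPp he => ?_⟩
  have a1 := abs_le.1 (hexp P e hP (he.trans (min_le_left _ _)))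
  have a2 := abs_le.1 (hexp P (-e) hP (by rw [norm_neg]; exact he.trans (min_le_left _ _)))
  have hneg : D P (-e) = D P e := by have := hD.homog P e (-1); simpa using this
  rw [map_neg, hneg, norm_neg, ← sub_eq_add_neg] at a2
  have a3 := abs_le.1 (hnear p P e hp hP (hPp.trans (min_le_right _ _)))
  rw [bend, hP, abs_le]
  constructor <;> linarith

omit hX hY hf in
lemma sigma_bound {K B L δ l R dn ε s h Ka n : ℝ} (hc : 0 < c) (hC : 0 < C) (hK : 0 ≤ K)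
    (hB : 1 ≤ B) (hL : 0 < L) (hLδ : L ≤ δ) (hl : 0 < l) (hR0 : 0 < R) (hR : R = l * dn)
    (hd1 : 1 ≤ dn) (hd2 : dn ≤ 1 + B * L) (hcR : c * R ≤ 2 * L)
    (hh : |2 - s - l * L / 2| ≤ ε * R ^ 2) (hi : |h - (2 - s) / 2| ≤ K * R ^ 3)
    (hKa : |Ka| ≤ C * (δ * L) * (2 * K * R)) (hn : n ≤ 2 * K * R) (hn0 : 0 ≤ n) (hε : 0 ≤ ε)
    (hδ1 : δ ≤ 1) :
    L / 2 - (B * δ + 2 / c * ε + 8 * K / c ^ 2 * δ + 4 * C * K / c * δ) * L ≤ 2 / R * h - Ka ∧
      n ^ 2 ≤ 16 * K ^ 2 / c ^ 2 * L ^ 2 := by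
  have hR1 : R ≤ 2 / c * L := by rw [div_mul_eq_mul_div, le_div_iff₀ hc]; linarith
  have h1 : 2 / R * (l * L / 4 - ε / 2 * R ^ 2 - K * R ^ 3) ≤ 2 / R * h := by
    refine mul_le_mul_of_nonneg_left ?_ (by positivity)
    linarith [abs_le.1 hh, abs_le.1 hi]
  have h2 : 2 / R * (l * L / 4 - ε / 2 * R ^ 2 - K * R ^ 3) =
      L / (2 * dn) - ε * R - 2 * K * R ^ 2 := by
    rw [hR]; field_simp; ring
  have h3 : L / 2 - B * δ * L ≤ L / (2 * dn) := by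
    rw [le_div_iff₀ (by positivity)]
    have a1 : L * dn ≤ L * (1 + B * L) := mul_le_mul_of_nonneg_left hd2 hL.le
    have a2 : B * L * L ≤ B * δ * L := by gcongr
    have a3 : 2 * (B * δ * L) ≤ B * δ * L * (2 * dn) := by
      have : 0 ≤ B * δ * L := mul_nonneg (mul_nonneg (by linarith) (hL.le.trans hLδ)) hL.le
      linarith [mul_le_mul_of_nonneg_left hd1 this]
    have a4 : 0 ≤ B * δ * L := mul_nonneg (mul_nonneg (by linarith) (hL.le.trans hLδ)) hL.le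
    linarith
  have h4 : ε * R ≤ 2 / c * ε * L :=
    (mul_le_mul_of_nonneg_left hR1 hε).trans (le_of_eq (by ring))
  have hLL : L * L ≤ δ * L := mul_le_mul_of_nonneg_right hLδ hL.le
  have h5 : 2 * K * R ^ 2 ≤ 8 * K / c ^ 2 * δ * L := by
    calc 2 * K * R ^ 2 ≤ 2 * K * (2 / c * L) ^ 2 := by gcongr
      _ = 8 * K / c ^ 2 * (L * L) := by ring
      _ ≤ 8 * K / c ^ 2 * (δ * L) := by gcongr
      _ = _ := by ring
  have h6 : |Ka| ≤ 4 * C * K / c * δ * L := by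
    have h0 : 0 ≤ C * (δ * L) := mul_nonneg hC.le (mul_nonneg (hL.le.trans hLδ) hL.le)
    calc |Ka| ≤ C * (δ * L) * (2 * K * (2 / c * L)) :=
          hKa.trans (mul_le_mul_of_nonneg_left
            (mul_le_mul_of_nonneg_left hR1 (by positivity)) h0)
      _ = 4 * C * K / c * δ * L * L := by ring
      _ ≤ 4 * C * K / c * δ * L * 1 := by
          refine mul_le_mul_of_nonneg_left (hLδ.trans hδ1) (mul_nonneg ?_ hL.le)
          exact mul_nonneg (by positivity) (hL.le.trans hLδ)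
      _ = _ := mul_one _
  refine ⟨by linarith [abs_le.1 h6], ?_⟩
  calc n ^ 2 ≤ (2 * K * (2 / c * L)) ^ 2 := by
        gcongr; exact hn.trans (mul_le_mul_of_nonneg_left hR1 (by positivity))
    _ = _ := by ring

omit hX hY hf in
lemma lower_arith {K K₁ B L δ R ε η Γ σ n De bP b₂ be θ₂ θ₁ : ℝ} (hc : 0 < c) (hC : 0 < C)
    (hB : 1 ≤ B) (hK : 0 ≤ K) (hK₁ : 0 ≤ K₁) (hε : 0 ≤ ε) (hLδ : L ≤ δ) (hδ : 0 ≤ δ)
    (hcR : c * R ≤ 2 * L) (hΓ : c / 4 ≤ Γ) (hΓ' : Γ ≤ 256 * C) (hL : 0 < L)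
    (hθ₂ : θ₂ = B * δ + 2 / c * ε + 8 * K / c ^ 2 * δ + 4 * C * K / c * δ)
    (hθ₁ : θ₁ = 8 / c * (K₁ * R + ε))
    (hσ : L / 2 - θ₂ * L ≤ σ) (hn : n ^ 2 ≤ 16 * K ^ 2 / c ^ 2 * L ^ 2)
    (hlow : Γ * σ ^ 2 ≤ De) (hexp : -(4 * ε * n ^ 2) ≤ bP - 2 * De) (hbend : bP ≤ b₂)
    (hlip : b₂ ≤ be + 3000 * C * B ^ 2 * θ₁ * L ^ 2)
    (htot : (1028 * C * (2 / c) + 64 * K ^ 2 / c ^ 2 + 3000 * C * B ^ 2 * (8 / c)) * ε +
      (1028 * C * (B + 8 * K / c ^ 2 + 4 * C * K / c) + 3000 * C * B ^ 2 * (16 * K₁ / c ^ 2)) * δ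
        ≤ η) :
    (Γ / 2 - η) * L ^ 2 ≤ be := by
  have hΓ0 : 0 ≤ Γ := by linarith
  have hθ₂0 : 0 ≤ θ₂ := by rw [hθ₂]; positivity
  have h1 : L ^ 2 / 4 - θ₂ * L ^ 2 ≤ σ ^ 2 := by
    nlinarith [sq_nonneg (σ - L / 2), mul_le_mul_of_nonneg_right hσ hL.le]
  have h2 : Γ * (L ^ 2 / 4) - 257 * C * θ₂ * L ^ 2 ≤ De := by
    have := mul_le_mul_of_nonneg_left h1 hΓ0
    have := mul_le_mul_of_nonneg_right (show Γ ≤ 257 * C by linarith)
      (mul_nonneg hθ₂0 (sq_nonneg L))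
    linarith
  have h3 : 4 * ε * n ^ 2 ≤ 4 * ε * (16 * K ^ 2 / c ^ 2 * L ^ 2) := by gcongr
  have hR1 : R ≤ 2 / c * δ := by rw [div_mul_eq_mul_div, le_div_iff₀ hc]; linarith
  have h4 : θ₁ ≤ 8 / c * ε + 16 * K₁ / c ^ 2 * δ := by
    rw [hθ₁]
    calc 8 / c * (K₁ * R + ε) ≤ 8 / c * (K₁ * (2 / c * δ) + ε) := by gcongr
      _ = _ := by ring
  have h5 := mul_le_mul_of_nonneg_right
    (mul_le_mul_of_nonneg_left h4 (show 0 ≤ 3000 * C * B ^ 2 by positivity)) (sq_nonneg L)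
  have h6 := mul_le_mul_of_nonneg_right htot (sq_nonneg L)
  have q : 514 * C * θ₂ * L ^ 2 + 4 * ε * (16 * K ^ 2 / c ^ 2 * L ^ 2) +
      3000 * C * B ^ 2 * (8 / c * ε + 16 * K₁ / c ^ 2 * δ) * L ^ 2 ≤ η * L ^ 2 := by
    refine le_trans ?_ h6
    rw [hθ₂]
    have : (0 : ℝ) ≤ 514 * C * (2 / c * ε + (B + 8 * K / c ^ 2 + 4 * C * K / c) * δ) * L ^ 2 := by
      positivity
    refine le_of_le_of_eq (le_add_of_nonneg_right this) ?_
    ring
  linarith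

/-- Every candidate bend in the target is at least the least second term. -/
lemma bend_lower (hD : Sec D) {η B : ℝ} (hη : 0 < η) (hB : 1 ≤ B) :
    ∃ δ : ℝ, 0 < δ ∧ ∀ (x z : X) (d e : Y) (L : ℝ), ‖x‖ = 1 → ‖z‖ = 1 → x ≠ z →
      0 < L → L ≤ δ → ‖x - z‖ ≤ δ * L → nf (nrm (f x - f z)) d = 1 → nf (f x) d = L →
      ‖d - nrm (f x - f z)‖ ≤ B * L → nf (f x) e = L / 2 → ‖e‖ ≤ B * L →
      (curv D x (nrm (x - z)) / 2 - η) * L ^ 2 ≤ bend d e := by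
  have hc := hX.c_pos
  have hC := hX.C_pos
  obtain ⟨K, δ₀, hK, hδ₀, himg⟩ :=
    mid_image hY hX hf.symm (K := 8 * B * C) (by positivity)
  set K₁ := 20 * C ^ 2 * (8 * B * C + C + 1) ^ 2
  set a := 1028 * C * (2 / c) + 64 * K ^ 2 / c ^ 2 + 3000 * C * B ^ 2 * (8 / c)
  set b := 1028 * C * (B + 8 * K / c ^ 2 + 4 * C * K / c) +
    3000 * C * B ^ 2 * (16 * K₁ / c ^ 2)
  have ha : 0 < a := by positivity
  have hb : 0 ≤ b := by positivity
  set ε := η / (2 * a) with hεdef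
  have hε : 0 < ε := by positivity
  obtain ⟨δe, hδe, hexp⟩ := bend_expand hX hD hε
  obtain ⟨δf, hδf, hframe⟩ := chord_frame hX hY hf hD hε hδe
    (lt_min hδ₀ (show 0 < min (1 / (4 * (C + 8 * B * C))) (δe / (2 * K + 1)) by positivity)) hB
  set δ := min (min 1 δf) (min (η / (2 * b + 1)) (1 / (2 * C)))
  refine ⟨δ, lt_min (lt_min one_pos hδf) (lt_min (by positivity) (by positivity)),
    fun x z d e L hx hz hne hL hLδ hr hKd hφd hdp hφe hen => ?_⟩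
  have δ1 : δ ≤ 1 := (min_le_left _ _).trans (min_le_left _ _)
  have δ3 : δ * (2 * b + 1) ≤ η :=
    (le_div_iff₀ (by positivity)).1 ((min_le_right _ _).trans (min_le_left _ _))
  have δ4 : δ * (2 * C) ≤ 1 :=
    (le_div_iff₀ (by positivity)).1 ((min_le_right _ _).trans (min_le_right _ _))
  have hrδ : ‖x - z‖ ≤ δ := hr.trans (mul_le_of_le_one_right (by positivity) (hLδ.trans δ1))
  obtain ⟨hBL, hd1, hd2, l, z₁, hl, hz₁, hne₁, heq, hR, hl1, hl2, hlR, hRl, hRρ, hh, -, hPp⟩ :=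
    hframe x z d L hx hz hne hL (hLδ.trans ((min_le_left _ _).trans (min_le_right _ _)))
      (hrδ.trans ((min_le_left _ _).trans (min_le_right _ _))) hKd hφd hdp
  set R := ‖x - z₁‖ with hRdef
  have hR0 : 0 < R := hl.trans_le hlR
  have hR₂ : R * (4 * (C + 8 * B * C)) ≤ 1 := (le_div_iff₀ (by positivity)).1
    (hRρ.trans ((min_le_right _ _).trans (min_le_left _ _)))
  have hR₃ : R * (2 * K + 1) ≤ δe := (le_div_iff₀ (by positivity)).1
    (hRρ.trans ((min_le_right _ _).trans (min_le_right _ _)))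
  have hfx := hf.norm x hx
  have hfz₁ := hf.norm z₁ hz₁
  have hR' : ‖f x - f z₁‖ = R := by rw [hf.dist x z₁ hx hz₁]
  have hBC : 0 ≤ B * C * R := by positivity
  have hCR : 0 ≤ C * R := by positivity
  have hlL : 0 ≤ l * L := by positivity
  obtain ⟨μ, hμ0, hμ1, hy', hμe, hμl⟩ := mid_param hY (e := e) hfx hfz₁ (hf.ne hx hz₁ hne₁) hL
    hε.le (by linarith : 0 ≤ B) hl1 hl2 (by rw [hR']; exact hlR) (by rw [hR']; exact hRl)
    (by rw [hR']; linarith) (by rw [hR']; linarith) hφe hen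
    (by rw [heq, map_smul, hφd, smul_eq_mul]; linarith)
    (by rw [hR', hf.sum hx hz₁]; exact hh)
  rw [hR'] at hμl hμe
  set θ₁ := 8 / c * (K₁ * R + ε) with hθ₁
  set y' := (2 : ℝ)⁻¹ • (f x + f z₁) + μ • e with hy'def
  obtain ⟨himg1, himg2⟩ := himg (f x) (f z₁) y' hfx hfz₁ hy' (hf.ne hx hz₁ hne₁)
    (by rw [hR']; exact hRρ.trans (min_le_left _ _))
    (by rw [hR', hy'def, add_sub_cancel_left]; exact hμe)
  rw [hf.left x hx, hf.left z₁ hz₁, hR'] at himg1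
  rw [hf.left x hx, hf.left z₁ hz₁, hR', hf.sum hx hz₁] at himg2
  set y := g y' with hydef
  set e₂ := (2 * μ / l) • e with he₂
  have hE₂ : y' - (2 : ℝ)⁻¹ • (f x + f z₁) = (l / 2) • e₂ := by
    rw [hy'def, add_sub_cancel_left, he₂, smul_smul]
    congr 1; field_simp
  have hexY := excess_eq hl.le heq hE₂
  set e₁ := (2 / R) • (y - (2 : ℝ)⁻¹ • (x + z₁)) with he₁
  have hexX := excess_eq hR0.le (smul_nrm (x - z₁)).symm (e := e₁) (y := y) (by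
    rw [he₁, smul_smul, show R / 2 * (2 / R) = 1 by field_simp, one_smul])
  have hlegs : ‖x - y‖ + ‖y - z₁‖ - R = ‖f x - y'‖ + ‖y' - f z₁‖ - ‖f x - f z₁‖ := by
    rw [hR', ← hf.dist x y hx (hf.norm' _ hy'), ← hf.dist y z₁ (hf.norm' _ hy') hz₁,
      hydef, hf.right _ hy']
  rw [← hlegs, hexX] at hexY
  have hbend : bend (nrm (x - z₁)) e₁ ≤ bend d e₂ := by
    have := bend_nonneg (nrm (x - z₁)) e₁
    refine le_of_mul_le_mul_left ?_ (half_pos hl)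
    rw [← hexY]
    gcongr
  have he₁n : ‖e₁‖ ≤ 2 * K * R := by
    rw [he₁, norm_smul, Real.norm_of_nonneg (by positivity)]
    calc 2 / R * ‖y - (2 : ℝ)⁻¹ • (x + z₁)‖ ≤ 2 / R * (K * R ^ 2) := by gcongr
      _ = _ := by field_simp
  have hpn : ‖nrm (x - z)‖ = 1 := norm_nrm (sub_ne_zero.2 hne)
  have hPn : ‖nrm (x - z₁)‖ = 1 := norm_nrm (sub_ne_zero.2 hne₁)
  have hexpand := (abs_le.1 (hexp _ _ e₁ hpn hPn hPp (he₁n.trans (by
    linarith [mul_nonneg hK hR0.le])))).1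
  obtain ⟨α1, α2, -, -⟩ := nf_nrm_bounds hX hY hf hx hz hne
  have hrC : C * ‖x - z‖ ≤ C * (δ * L) := by gcongr
  have hα : |nf x (nrm (x - z))| ≤ 1 / 2 := by
    rw [abs_of_nonneg (le_trans (by positivity) α1)]
    have : C * ‖x - z‖ ≤ C * δ := by gcongr
    linarith
  have hlow := curv_mul_sq_le hX hD hx hpn hα e₁
  have hcR : c * R ≤ 2 * L := by
    calc c * R ≤ c * (2 * l) := by gcongr
      _ ≤ _ := by linarith
  obtain ⟨hσ, hsq⟩ := sigma_bound hc hC hK hB (h := nf x (y - (2 : ℝ)⁻¹ • (x + z₁)))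
    (Ka := nf x (nrm (x - z)) * nf (nrm (x - z)) e₁) hL hLδ hl hR0 hR hd1 hd2 hcR hh himg2
    (by
      rw [abs_mul]
      calc |nf x (nrm (x - z))| * |nf (nrm (x - z)) e₁| ≤ C * (δ * L) * (2 * K * R) :=
            mul_le_mul (by rw [abs_of_nonneg (le_trans (by positivity) α1)]; exact α2.trans hrC)
              ((abs_nf_le _ _).trans he₁n) (abs_nonneg _) (by positivity)
        _ = _ := rfl) he₁n (norm_nonneg _) hε.le δ1
  have hφe₁ : nf x e₁ = 2 / R * nf x (y - (2 : ℝ)⁻¹ • (x + z₁)) := by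
    rw [he₁, map_smul, smul_eq_mul]
  rw [← hφe₁] at hσ
  have hν : 2 * μ / l ≤ 4 := by rw [div_le_iff₀ hl]; linarith
  have he₂n : ‖e₂‖ ≤ 4 * (B * L) := by
    rw [he₂, norm_smul, Real.norm_of_nonneg (by positivity)]
    exact mul_le_mul hν hen (norm_nonneg _) (by norm_num)
  have hdiff : ‖e₂ - e‖ ≤ 2 * θ₁ * (B * L) := by
    rw [he₂, show (2 * μ / l) • e - e = (2 * μ / l - 1) • e by module, norm_smul, Real.norm_eq_abs]
    refine mul_le_mul ?_ hen (norm_nonneg _) (by positivity)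
    rw [show 2 * μ / l - 1 = 2 * (μ - l / 2) / l by field_simp, abs_div,
      abs_mul, abs_of_pos hl, div_le_iff₀ hl, abs_two]
    linarith
  have hlip : bend d e₂ ≤ bend d e + 3000 * C * B ^ 2 * θ₁ * L ^ 2 := by
    have h := (abs_le.1 (bend_lip hY hd1 (show ‖e₂‖ ≤ 1 / 2 by linarith)
      (show ‖e‖ ≤ 1 / 2 by linarith))).2
    have : 300 * C * (‖e₂‖ + ‖e‖) * ‖e₂ - e‖ ≤ 300 * C * (5 * (B * L)) * (2 * θ₁ * (B * L)) := by
      gcongr; linarith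
    linarith
  refine lower_arith hc hC hB hK (show 0 ≤ K₁ by positivity) hε.le hLδ (hL.le.trans hLδ) hcR
    (le_curv hX hD hx hpn hα) (curv_le hX hD hx hpn hα) hL rfl hθ₁ hσ hsq hlow hexpand hbend
    hlip ?_
  have e1 : a * ε = η / 2 := by rw [hεdef]; field_simp
  show a * ε + b * δ ≤ η
  linarith [hL.le.trans hLδ]

omit hY hf in
lemma upper_arith {η B B₀ δ θ Γ Dd ε L s dn bP n : ℝ} (hη : 0 < η) (hB : 0 ≤ B) (hC : 0 < C)
    (hη1 : η ≤ C) (hθ0 : 0 ≤ θ) (hθ : θ * (4000 * C) ≤ η) (hε : 512 * B₀ ^ 2 * ε ≤ η)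
    (hε0 : 0 ≤ ε) (hδ : 260 * C * B * δ ≤ η) (hΓ : Γ ≤ 256 * C) (hDd : Dd ≤ Γ + η / 4)
    (hDd0 : 0 ≤ Dd) (hL : 0 ≤ L) (hLδ : L ≤ δ) (hs0 : 0 ≤ s) (hs : s ≤ 1 + 2 * θ)
    (hdn0 : 0 ≤ dn) (hdn : dn ≤ 1 + B * L) (hn : n ≤ 4 * B₀ * L) (hn0 : 0 ≤ n)
    (hbP : bP ≤ 2 * ((s * (L / 2)) ^ 2 * Dd) + 4 * ε * n ^ 2) :
    dn * bP ≤ (Γ / 2 + η) * L ^ 2 := by
  have hθ1 : θ ≤ 1 / 2 := by
    refine le_of_mul_le_mul_right ?_ (show (0 : ℝ) < 4000 * C by positivity)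
    linarith
  have hs2 : s ^ 2 ≤ 1 + 6 * θ := by
    calc s ^ 2 ≤ (1 + 2 * θ) ^ 2 := pow_le_pow_left₀ hs0 hs 2
      _ ≤ _ := by nlinarith
  have hn2 : n ^ 2 ≤ 16 * B₀ ^ 2 * L ^ 2 :=
    (pow_le_pow_left₀ hn0 hn 2).trans (le_of_eq (by ring))
  have h1 : bP ≤ (Γ / 2 + η / 2) * L ^ 2 := by
    have a1 : s ^ 2 * Dd ≤ (1 + 6 * θ) * (Γ + η / 4) :=
      mul_le_mul hs2 hDd hDd0 (by linarith)
    have a2 := mul_le_mul_of_nonneg_left (show Γ + η / 4 ≤ 257 * C by linarith)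
      (show 0 ≤ 6 * θ by linarith)
    have a3 := mul_le_mul_of_nonneg_left hn2 (show 0 ≤ 4 * ε by linarith)
    have a4 := mul_le_mul_of_nonneg_right hε (sq_nonneg L)
    have a5 : s ^ 2 * Dd ≤ Γ + η := by linarith
    have a6 := mul_le_mul_of_nonneg_right
      (show s ^ 2 * Dd / 2 ≤ Γ / 2 + η * (21 / 64) by linarith) (sq_nonneg L)
    linarith [mul_nonneg hη.le (sq_nonneg L)]
  have hΓη : 0 ≤ Γ / 2 + η / 2 := by linarith
  refine (mul_le_mul_of_nonneg_left h1 hdn0).trans ?_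
  rw [← mul_assoc]
  refine mul_le_mul_of_nonneg_right ?_ (sq_nonneg L)
  calc dn * (Γ / 2 + η / 2) ≤ (1 + B * δ) * (Γ / 2 + η / 2) :=
        mul_le_mul_of_nonneg_right (hdn.trans (by gcongr)) hΓη
    _ ≤ _ := by
        have := mul_le_mul_of_nonneg_left (show Γ / 2 + η / 2 ≤ 130 * C by linarith)
          (mul_nonneg hB (hL.trans hLδ))
        linarith

/-- Some candidate bend in the target is at most the least second term. -/
lemma bend_upper (hD : Sec D) {η B : ℝ} (hη : 0 < η) (hB : 1 ≤ B) :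
    ∃ B' δ : ℝ, 0 ≤ B' ∧ 0 < δ ∧ ∀ (x z : X) (d : Y) (L : ℝ), ‖x‖ = 1 → ‖z‖ = 1 → x ≠ z →
      0 < L → L ≤ δ → ‖x - z‖ ≤ δ → nf (nrm (f x - f z)) d = 1 → nf (f x) d = L →
      ‖d - nrm (f x - f z)‖ ≤ B * L →
      ∃ e, |nf (f x) e - L / 2| ≤ η * L ∧ ‖e‖ ≤ B' * L ∧
        bend d e ≤ (curv D x (nrm (x - z)) / 2 + η) * L ^ 2 := by
  have hc := hX.c_pos
  have hC := hX.C_pos
  wlog hη1 : η ≤ 1 generalizing η
  · obtain ⟨B', δ, hB', hδ, h⟩ := this one_pos le_rfl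
    refine ⟨B', δ, hB', hδ, fun x z d L hx hz hne hL hLδ hr hK hφ hd => ?_⟩
    obtain ⟨e, e1, e2, e3⟩ := h x z d L hx hz hne hL hLδ hr hK hφ hd
    exact ⟨e, e1.trans (by gcongr; linarith), e2, e3.trans (by gcongr; linarith)⟩
  set B₀ := 4 * (256 * C + 1) / c + 1
  have hB₀ : 0 < B₀ := by positivity
  obtain ⟨K, δ₀, hK, hδ₀, himg⟩ := mid_image hX hY hf (K := 8 * B₀ * C) (by positivity)
  set K₁ := 20 * C ^ 2 * (8 * B₀ * C + C + 1) ^ 2
  set ε := min (η * c / 8) (min (η * c / (64000 * C)) (η / (512 * B₀ ^ 2)))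
  have hε : 0 < ε := lt_min (by positivity) (lt_min (by positivity) (by positivity))
  have ε1 : 4 / c * ε ≤ η / 2 := by
    calc 4 / c * ε ≤ 4 / c * (η * c / 8) := by gcongr; exact min_le_left _ _
      _ = η / 2 := by field_simp; ring
  have ε2 : 8 / c * ε * (4000 * C) ≤ η / 2 := by
    calc 8 / c * ε * (4000 * C) ≤ 8 / c * (η * c / (64000 * C)) * (4000 * C) := by
          gcongr; exact (min_le_right _ _).trans (min_le_left _ _)
      _ = η / 2 := by field_simp; ring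
  have ε3 : 512 * B₀ ^ 2 * ε ≤ η := by
    rw [mul_comm, ← le_div_iff₀ (by positivity)]
    exact (min_le_right _ _).trans (min_le_right _ _)
  obtain ⟨δe, hδe, hexp⟩ := bend_expand hX hD hε
  obtain ⟨δf, hδf, hframe⟩ := chord_frame hX hY hf hD hε hδe
    (lt_min hδ₀ (show 0 < 1 / (4 * (C + 8 * B₀ * C)) by positivity)) hB
  set a := 32 * K / c ^ 2 + 16 * K₁ / c ^ 2 * 8000 * C + 260 * C * B + 4 * B₀ / δe + 2 * C
  have ha : 0 < a := by positivity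
  refine ⟨8 * K / c, min δf (η / a), by positivity, lt_min hδf (by positivity),
    fun x z d L hx hz hne hL hLδ hr hKd hφd hdp => ?_⟩
  set δ := η / a
  have hδ : 0 < δ := by positivity
  have haδ : a * δ = η := mul_div_cancel₀ η ha.ne'
  have hsplit : ∀ t, t ≤ a → t * δ ≤ η := fun t ht =>
    (mul_le_mul_of_nonneg_right ht hδ.le).trans haδ.le
  have n1 : 0 ≤ 32 * K / c ^ 2 := by positivity
  have n2 : 0 ≤ 16 * K₁ / c ^ 2 * 8000 * C := by positivity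
  have n3 : 0 ≤ 260 * C * B := by positivity
  have n4 : 0 ≤ 4 * B₀ / δe := by positivity
  have δ1 : 32 * K / c ^ 2 * δ ≤ η := hsplit _ (by simp only [a]; linarith)
  have δ2 : 16 * K₁ / c ^ 2 * 8000 * C * δ ≤ η := hsplit _ (by simp only [a]; linarith)
  have δ3 : 260 * C * B * δ ≤ η := hsplit _ (by simp only [a]; linarith)
  have δ4 : 4 * B₀ / δe * δ ≤ 1 := (hsplit _ (by simp only [a]; linarith)).trans hη1
  have δ5 : 2 * C * δ ≤ 1 := (hsplit _ (by simp only [a]; linarith)).trans hη1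
  have hLd : L ≤ δ := hLδ.trans (min_le_right _ _)
  obtain ⟨-, hd1, hd2, l, z₁, hl, hz₁, hne₁, heq, hR, hl1, hl2, hlR, hRl, hRρ, hh, ha', hPp⟩ :=
    hframe x z d L hx hz hne hL (hLδ.trans (min_le_left _ _)) (hr.trans (min_le_left _ _))
      hKd hφd hdp
  set R := ‖x - z₁‖ with hRdef
  have hR0 : 0 < R := hl.trans_le hlR
  have hR₂ : R * (4 * (C + 8 * B₀ * C)) ≤ 1 :=
    (le_div_iff₀ (by positivity)).1 (hRρ.trans (min_le_right _ _))
  have hCR : 0 ≤ C * R := by positivity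
  have hBCR : 0 ≤ B₀ * C * R := by positivity
  have hpn : ‖nrm (x - z)‖ = 1 := norm_nrm (sub_ne_zero.2 hne)
  obtain ⟨α1, α2, -, -⟩ := nf_nrm_bounds hX hY hf hx hz hne
  have hα : |nf x (nrm (x - z))| ≤ 1 / 2 := by
    rw [abs_of_nonneg (le_trans (by positivity) α1)]
    have : C * ‖x - z‖ ≤ C * δ := by gcongr; exact hr.trans (min_le_right _ _)
    linarith
  obtain ⟨v, hv1, -, hvD, hvn⟩ := exists_curv hX hD hx hpn hα
    (show 0 < η / 4 by positivity) (by linarith)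
  set e₀ := (L / 2) • v
  have he₀ : nf x e₀ = L / 2 := by simp [e₀, hv1]
  have he₀n : ‖e₀‖ ≤ B₀ * L := by
    rw [norm_smul, Real.norm_of_nonneg (by positivity)]
    calc L / 2 * ‖v‖ ≤ L * B₀ := mul_le_mul (by linarith) hvn (norm_nonneg _) hL.le
      _ = _ := mul_comm _ _
  obtain ⟨μ, hμ0, hμ1, hy, hμe, hμl⟩ := mid_param hX hx hz₁ hne₁ hL hε.le hB₀.le hl1 hl2 hlR
    hRl (by linarith) (by linarith) he₀ he₀n ha' hh
  rw [← hRdef] at hμe hμl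
  set θ := 8 / c * (K₁ * R + ε) with hθdef
  set y := (2 : ℝ)⁻¹ • (x + z₁) + μ • e₀ with hydef
  obtain ⟨himg1, himg2⟩ := himg x z₁ y hx hz₁ hy hne₁ (hRρ.trans (min_le_left _ _))
    (by rw [hydef, add_sub_cancel_left]; exact hμe)
  rw [← hRdef] at himg1 himg2
  set e := (2 / l) • (f y - (2 : ℝ)⁻¹ • (f x + f z₁)) with hedef
  have hE : f y - (2 : ℝ)⁻¹ • (f x + f z₁) = (l / 2) • e := by
    rw [hedef, smul_smul, show l / 2 * (2 / l) = 1 by field_simp, one_smul]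
  set e₁ := (2 * μ / R) • e₀ with he₁
  have hE₁ : y - (2 : ℝ)⁻¹ • (x + z₁) = (R / 2) • e₁ := by
    rw [he₁, hydef, add_sub_cancel_left, smul_smul (R / 2) (2 * μ / R) e₀]
    congr 1; field_simp
  have hexY := excess_eq hl.le heq hE
  have hexX := excess_eq hR0.le (smul_nrm (x - z₁)).symm hE₁
  rw [hf.dist x y hx hy, hf.dist y z₁ hy hz₁, hf.dist x z₁ hx hz₁, hexX] at hexY
  have hbend : bend d e = ‖d‖ * bend (nrm (x - z₁)) e₁ := by
    refine mul_left_cancel₀ (half_pos hl).ne' ?_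
    rw [← hexY, hR]; ring
  refine ⟨e, ?_, ?_, ?_⟩
  · rw [hedef, map_smul, smul_eq_mul]
    have h1 : |nf (f x) (f y - (2 : ℝ)⁻¹ • (f x + f z₁)) - l * L / 4| ≤
        ε * (4 * l * (L / c)) / 2 + K * (8 * l * (L / c) * (δ / c)) := by
      have r1 : R ≤ 2 * l := hRl
      have r2 : l ≤ L / c := by rw [le_div_iff₀ hc]; linarith
      have r3 : l ≤ δ / c := r2.trans (by gcongr)
      have b1 : R ^ 2 ≤ 4 * l * (L / c) := by
        calc R ^ 2 ≤ (2 * l) ^ 2 := pow_le_pow_left₀ hR0.le r1 2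
          _ = 4 * l * l := by ring
          _ ≤ _ := by gcongr
      have b2 : R ^ 3 ≤ 8 * l * (L / c) * (δ / c) := by
        calc R ^ 3 ≤ (2 * l) ^ 3 := pow_le_pow_left₀ hR0.le r1 3
          _ = 8 * l * l * l := by ring
          _ ≤ _ := by gcongr
      have c1 := mul_le_mul_of_nonneg_left b1 hε.le
      have c2 := mul_le_mul_of_nonneg_left b2 hK
      rw [abs_le]
      constructor <;> linarith [abs_le.1 hh, abs_le.1 himg2]
    rw [show 2 / l * nf (f x) (f y - (2 : ℝ)⁻¹ • (f x + f z₁)) - L / 2 =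
      2 / l * (nf (f x) (f y - (2 : ℝ)⁻¹ • (f x + f z₁)) - l * L / 4) by field_simp; ring,
      abs_mul, abs_of_pos (by positivity : 0 < 2 / l)]
    refine (mul_le_mul_of_nonneg_left h1 (by positivity)).trans ?_
    rw [show 2 / l * (ε * (4 * l * (L / c)) / 2 + K * (8 * l * (L / c) * (δ / c))) =
      (4 / c * ε + 32 * K / c ^ 2 * δ / 2) * L by field_simp; ring]
    gcongr
    linarith
  · rw [hedef, norm_smul, Real.norm_of_nonneg (by positivity)]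
    calc 2 / l * ‖f y - (2 : ℝ)⁻¹ • (f x + f z₁)‖ ≤ 2 / l * (K * (2 * l) ^ 2) := by
          gcongr
          exact himg1.trans (by gcongr)
      _ = 8 * K * l := by field_simp; ring
      _ ≤ 8 * K * (L / c) := by gcongr; rw [le_div_iff₀ hc]; linarith
      _ = _ := by ring
  · have hPn : ‖nrm (x - z₁)‖ = 1 := norm_nrm (sub_ne_zero.2 hne₁)
    have hs : 2 * μ / R ≤ 1 + 2 * θ := by
      calc 2 * μ / R ≤ 2 * μ / l := by gcongr
        _ ≤ _ := by rw [div_le_iff₀ hl]; linarith [abs_le.1 hμl]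
    have hs4 : 2 * μ / R ≤ 4 := by rw [div_le_iff₀ hR0]; linarith
    have he₁n : ‖e₁‖ ≤ 4 * B₀ * L := by
      rw [he₁, norm_smul, Real.norm_of_nonneg (by positivity), mul_assoc]
      exact mul_le_mul hs4 he₀n (norm_nonneg _) (by norm_num)
    have hsmall : ‖e₁‖ ≤ δe := by
      refine he₁n.trans ?_
      rw [div_mul_eq_mul_div, div_le_one hδe] at δ4
      exact le_trans (by gcongr) δ4
    have hexpand := (abs_le.1 (hexp _ _ e₁ hpn hPn hPp hsmall)).2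
    have hθ : θ * (4000 * C) ≤ η := by
      have : K₁ * R ≤ K₁ * (2 * δ / c) := by
        refine mul_le_mul_of_nonneg_left ?_ (by positivity)
        rw [le_div_iff₀ hc]
        calc R * c ≤ 2 * l * c := by gcongr
          _ ≤ _ := by linarith
      have := mul_le_mul_of_nonneg_right (mul_le_mul_of_nonneg_left this
        (show 0 ≤ 8 / c by positivity)) (show 0 ≤ 4000 * C by positivity)
      rw [hθdef]
      have h2 : 8 / c * (K₁ * (2 * δ / c)) * (4000 * C) =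
          16 * K₁ / c ^ 2 * 8000 * C * δ / 2 := by ring
      have h3 : 8 / c * (K₁ * R + ε) * (4000 * C) =
          8 / c * (K₁ * R) * (4000 * C) + 8 / c * ε * (4000 * C) := by ring
      linarith
    have hDe : D (nrm (x - z)) e₁ = (2 * μ / R * (L / 2)) ^ 2 * D (nrm (x - z)) v := by
      rw [he₁, smul_smul, hD.homog]
    rw [hbend]
    exact upper_arith hX hη (by linarith) hC (by linarith [hX.one_le]) (by positivity) hθ ε3 hε.le δ3
      (curv_le hX hD hx hpn hα) hvD (hD.nonneg hX hpn v) hL.le hLd (by positivity) hs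
      (norm_nonneg d) hd2 he₁n (norm_nonneg _) (by rw [← hDe]; linarith)

end Vale.Agent.P084.Smooth
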