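import Vale.Agent.P084.Smooth.Core

/-!
A pair close to the diagonal cannot nearly attain the largest radial defect: the excess of the
directions of small height over the unit ball would drift away from the second term of the norm.
-/

set_option linter.unusedSectionVars false

namespace Vale.Agent.P084.Smooth

variable {X Y : Type*} [NormedAddCommGroup X] [NormedSpace ℝ X]
  [NormedAddCommGroup Y] [NormedSpace ℝ Y] {c C : ℝ}

/-- Some direction of each height in the window has small excess. -/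
def Up (f : X → Y) (x z : X) (c₀ lo hi : ℝ) : Prop :=
  ∀ T, lo ≤ T → T ≤ hi →
    ∃ d, nf (nrm (f x - f z)) d = 1 ∧ nf (f x) d = T ∧ ‖d‖ - 1 ≤ c₀ * T ^ 2

/-- Every direction of height in the window has large excess. -/
def Low (f : X → Y) (x z : X) (c₀ lo hi : ℝ) : Prop :=
  ∀ d T, lo ≤ T → T ≤ hi → nf (nrm (f x - f z)) d = 1 → nf (f x) d = T →
    c₀ * T ^ 2 ≤ ‖d‖ - 1

lemma dev_bound (hX : Mod X c C) {p d : X} (hp : ‖p‖ = 1) (hd : nf p d = 1) {k T : ℝ}
    (hk : 0 ≤ k) (hT : 0 ≤ T) (hG : ‖d‖ - 1 ≤ k * T ^ 2) (hkT : k * T ^ 2 ≤ 1) :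
    ‖d - p‖ ≤ (8 * k / c + 1) * T := by
  have hc := hX.c_pos
  have h := hX.dev_le hp d
  rw [hd, one_smul] at h
  have h1 : 1 ≤ ‖d‖ := hd.symm.le.trans (nf_le p d)
  have h2 : c * ‖d - p‖ ^ 2 ≤ 8 * (k * T ^ 2) :=
    h.trans (mul_le_mul (by linarith) hG (by linarith) (by norm_num))
  refine le_of_pow_le_pow_left₀ two_ne_zero (by positivity) ?_
  calc ‖d - p‖ ^ 2 ≤ 8 * k / c * T ^ 2 := by
        rw [div_mul_eq_mul_div, le_div_iff₀ hc]; linarith
    _ ≤ (8 * k / c + 1) * T ^ 2 := by gcongr; linarith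
    _ ≤ (8 * k / c + 1) ^ 2 * T ^ 2 := by
        gcongr
        exact le_self_pow₀ (le_add_of_nonneg_left (by positivity)) two_ne_zero
    _ = _ := by ring

/-- Normalisation of a direction to a prescribed height. -/
lemma rescale {φ : StrongDual ℝ X} {p d₁ : X} (hp : ‖p‖ = 1) {κ T k : ℝ} (hκ : 1 ≤ κ)
    (hK : nf p d₁ = κ) (hφ : κ * T ≤ φ d₁) (ha : φ p < T) (hk : ‖d₁‖ - κ ≤ k) :
    ∃ d, nf p d = 1 ∧ φ d = T ∧ ‖d‖ - 1 ≤ k := by
  have hκ0 : 0 < κ := by linarith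
  set d₂ := κ⁻¹ • d₁ with hd₂
  have hk2 : nf p d₂ = 1 := by
    rw [hd₂, map_smul, hK, smul_eq_mul, inv_mul_cancel₀ hκ0.ne']
  have hφ2 : T ≤ φ d₂ := by
    rwa [hd₂, map_smul, smul_eq_mul, le_inv_mul_iff₀ hκ0]
  set l := (T - φ p) / (φ d₂ - φ p)
  have hl0 : 0 ≤ l := div_nonneg (by linarith) (by linarith)
  have hl1 : l ≤ 1 := (div_le_one (by linarith)).2 (by linarith)
  have hl : l * (φ d₂ - φ p) = T - φ p := div_mul_cancel₀ _ (by linarith)
  refine ⟨(1 - l) • p + l • d₂, by simp [nf_self, hp, hk2], ?_, ?_⟩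
  · rw [map_add, map_smul, map_smul, smul_eq_mul, smul_eq_mul]
    linear_combination hl
  · have i1 := norm_add_le ((1 - l) • p) (l • d₂)
    rw [norm_smul, norm_smul, hp, mul_one, Real.norm_of_nonneg (by linarith : 0 ≤ 1 - l),
      Real.norm_of_nonneg hl0] at i1
    have i2 : 0 ≤ ‖d₂‖ - 1 := by linarith [nf_le p d₂]
    have i3 : l * (‖d₂‖ - 1) ≤ ‖d₂‖ - 1 := mul_le_of_le_one_left i2 hl1
    have i4 : κ * ‖d₂‖ = ‖d₁‖ := by
      rw [hd₂, norm_smul, Real.norm_of_nonneg (inv_nonneg.2 hκ0.le), ← mul_assoc,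
        mul_inv_cancel₀ hκ0.ne', one_mul]
    linarith [mul_le_mul_of_nonneg_right hκ i2]

lemma up_arith {M c T B₀ μ Γ Dv S n G : ℝ} (hM : 0 < M) (hM1 : M ≤ 1) (hT : 0 ≤ T)
    (hB₀ : 0 < B₀) (hc : 0 ≤ c) (hΓ : c / 4 ≤ Γ) (hS : S = (1 + M / 4) * T)
    (hμ : μ ≤ M * c / 256) (hn0 : 0 ≤ n) (hn : n ≤ 2 * T * B₀) (hD0 : 0 ≤ Dv)
    (hD : Dv ≤ Γ + M * c / 32)
    (hG : G ≤ ((1 - M) * S) ^ 2 * Dv + M * c / (128 * B₀ ^ 2) * n ^ 2 + 12 * (μ * T ^ 2)) :
    G ≤ Γ * (1 - M / 4) * T ^ 2 := by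
  have i2 : M * c / (128 * B₀ ^ 2) * n ^ 2 ≤ M * c / 32 * T ^ 2 := by
    calc M * c / (128 * B₀ ^ 2) * n ^ 2
        ≤ M * c / (128 * B₀ ^ 2) * (2 * T * B₀) ^ 2 := by gcongr
      _ = _ := by field_simp; ring
  have i3 : ((1 - M) * S) ^ 2 ≤ (1 - 3 * M / 4) * T ^ 2 := by
    rw [hS, ← mul_assoc, mul_pow]
    refine mul_le_mul_of_nonneg_right ?_ (sq_nonneg T)
    have j1 : (1 - M) * (1 + M / 4) ≤ 1 - 3 * M / 4 := by linarith [mul_self_nonneg M]
    have j2 : 0 ≤ (1 - M) * (1 + M / 4) := mul_nonneg (by linarith) (by linarith)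
    calc ((1 - M) * (1 + M / 4)) ^ 2 ≤ (1 - 3 * M / 4) ^ 2 := pow_le_pow_left₀ j2 j1 2
      _ ≤ _ := pow_le_of_le_one (by linarith) (by linarith) two_ne_zero
  have i4 := mul_le_mul i3 hD hD0 (mul_nonneg (by linarith) (sq_nonneg T))
  have i5 := mul_le_mul_of_nonneg_right (mul_le_mul_of_nonneg_left hΓ hM.le) (sq_nonneg T)
  have i6 := mul_le_mul_of_nonneg_right hμ (sq_nonneg T)
  have i7 : 0 ≤ M * (M * c) * T ^ 2 := by positivity
  have i8 : 0 ≤ M * c * T ^ 2 := by positivity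
  linarith

lemma low_arith {M c C T B μ Γ G σ n g : ℝ} (hM : 0 < M) (hM1 : M ≤ 1) (hc : 0 < c)
    (hT : 0 < T) (hB : 0 < B) (hΓ : c / 4 ≤ Γ) (hΓ' : Γ ≤ 256 * C)
    (hTC : T * (131072 * C) ≤ M * c) (hμ : μ ≤ M * c / 256) (hn0 : 0 ≤ n) (hn : n ≤ B * T)
    (hG : G < Γ * (1 + M / 2) * T ^ 2) (hσ : T ^ 2 * (1 - 8 * T) ≤ σ)
    (hlow : Γ * σ - M * c / (64 * B ^ 2) * n ^ 2 ≤ g) (hg : g ≤ (1 - M) * G + 6 * (μ * T ^ 2)) :
    False := by
  have hdev2 : M * c / (64 * B ^ 2) * n ^ 2 ≤ M * c / 64 * T ^ 2 := by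
    calc M * c / (64 * B ^ 2) * n ^ 2 ≤ M * c / (64 * B ^ 2) * (B * T) ^ 2 := by gcongr
      _ = _ := by field_simp
  have i1 := mul_le_mul_of_nonneg_left hσ (show 0 ≤ Γ by linarith)
  have i2 := mul_le_mul_of_nonneg_left hG.le (show 0 ≤ 1 - M by linarith)
  have i3 := mul_le_mul_of_nonneg_right hΓ' (show 0 ≤ T * T ^ 2 by positivity)
  have i4 := mul_le_mul_of_nonneg_right hTC (sq_nonneg T)
  have i5 := mul_le_mul_of_nonneg_right hμ (sq_nonneg T)
  have i6 := mul_le_mul_of_nonneg_right (mul_le_mul_of_nonneg_left hΓ hM.le) (sq_nonneg T)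
  have i7 : 0 ≤ Γ * M ^ 2 * T ^ 2 := by
    have : 0 ≤ Γ := by linarith
    positivity
  have i8 : 0 < M * c * T ^ 2 := by positivity
  linarith

variable {D : X → X → ℝ} {f : X → Y} {g : Y → X} (hX : Mod X c C) (hY : Mod Y c C)
  (hf : Iso f g) (hD : Sec D)

include hX hY hf hD

lemma pair_facts {x z : X} (hx : ‖x‖ = 1) (hz : ‖z‖ = 1) (hne : x ≠ z) :
    ‖nrm (x - z)‖ = 1 ∧ ‖nrm (f x - f z)‖ = 1 ∧ 0 ≤ nf x (nrm (x - z)) ∧
      nf x (nrm (x - z)) ≤ C * ‖x - z‖ ∧ 0 ≤ nf (f x) (nrm (f x - f z)) ∧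
      nf (f x) (nrm (f x - f z)) ≤ C * ‖x - z‖ := by
  obtain ⟨a1, a2, a3, a4⟩ := nf_nrm_bounds hX hY hf hx hz hne
  have := hX.c_pos
  exact ⟨norm_nrm (sub_ne_zero.2 hne), norm_nrm (sub_ne_zero.2 (hf.ne hx hz hne)),
    le_trans (by positivity) a1, a2, le_trans (by positivity) a3, a4⟩

lemma curv_bounds {x z : X} (hx : ‖x‖ = 1) (hz : ‖z‖ = 1) (hne : x ≠ z)
    (hr : C * ‖x - z‖ ≤ 1 / 2) :
    c / 4 ≤ curv D x (nrm (x - z)) ∧ curv D x (nrm (x - z)) ≤ 256 * C := by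
  obtain ⟨hp, -, a0, a1, -, -⟩ := pair_facts hX hY hf hD hx hz hne
  have hα : |nf x (nrm (x - z))| ≤ 1 / 2 := by rw [abs_of_nonneg a0]; linarith
  exact ⟨le_curv hX hD hx hp hα, curv_le hX hD hx hp hα⟩

/-- One step of the drift, downwards. -/
lemma step_up {η : ℝ} (hη : 0 < η) :
    ∃ δ : ℝ, 0 < δ ∧ ∀ x z : X, ∀ c₀ lo hi : ℝ, ‖x‖ = 1 → ‖z‖ = 1 → x ≠ z → 0 < lo → hi ≤ δ →
      ‖x - z‖ ≤ δ * lo → c₀ ≤ curv D x (nrm (x - z)) - η → Up f x z c₀ lo hi →
      Up f x z (curv D x (nrm (x - z)) - 9 / 8 * (curv D x (nrm (x - z)) - c₀))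
        (4 * lo) (hi / 2) := by
  have hc := hX.c_pos
  have hC := hX.one_le
  set B := 8 * (256 * C) / c + 1
  have hB : 1 ≤ B := le_add_of_nonneg_left (by positivity)
  obtain ⟨δ, hδ, hlow⟩ := bend_lower hX hY hf hD (show 0 < η / 4 by positivity) hB
  refine ⟨min δ (1 / (256 * C)), lt_min hδ (by positivity),
    fun x z c₀ lo hi hx hz hne hlo hhi hr hc₀ hUp T hT1 hT2 => ?_⟩
  have hδ1 : min δ (1 / (256 * C)) ≤ δ := min_le_left _ _
  have hhi1 : hi * (256 * C) ≤ 1 := (le_div_iff₀ (by positivity)).1 (hhi.trans (min_le_right _ _))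
  have hT0 : 0 < T := by linarith
  have hhiC : 256 * hi ≤ hi * (256 * C) := by
    linarith [mul_le_mul_of_nonneg_left hC (show 0 ≤ 256 * hi by linarith)]
  have hrC : C * ‖x - z‖ ≤ 1 / 2 := by
    calc C * ‖x - z‖ ≤ C * (1 / (256 * C) * hi) := by
          gcongr
          refine hr.trans (mul_le_mul (min_le_right _ _) (by linarith) hlo.le (by positivity))
      _ = hi / 256 := by field_simp
      _ ≤ _ := by linarith
  obtain ⟨hΓ0, hΓ⟩ := curv_bounds hX hY hf hD hx hz hne hrC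
  set Γ := curv D x (nrm (x - z))
  obtain ⟨hp, hp', -, -, -, -⟩ := pair_facts hX hY hf hD hx hz hne
  have hdev : ∀ (d : Y) (S : ℝ), nf (nrm (f x - f z)) d = 1 → 0 ≤ S → S ≤ hi →
      ‖d‖ - 1 ≤ c₀ * S ^ 2 → ‖d - nrm (f x - f z)‖ ≤ B * S := by
    intro d S hd hS hS' hG
    refine dev_bound hY hp' hd (by positivity) hS
      (hG.trans (mul_le_mul_of_nonneg_right (by linarith) (sq_nonneg S))) ?_
    calc 256 * C * S ^ 2 ≤ 256 * C * (hi * 1) := by
          rw [sq]; gcongr <;> linarith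
      _ ≤ 1 := by linarith
  obtain ⟨d₁, k1, p1, g1⟩ := hUp (T / 2) (by linarith) (by linarith)
  obtain ⟨d₂, k2, p2, g2⟩ := hUp (3 * T / 2) (by linarith) (by linarith)
  have n1 := hdev d₁ _ k1 (by linarith) (by linarith) g1
  have n2 := hdev d₂ _ k2 (by linarith) (by linarith) g2
  set d := (2 : ℝ)⁻¹ • (d₁ + d₂) with hd
  set e := (2 : ℝ)⁻¹ • (d₂ - d₁) with he
  have kd : nf (nrm (f x - f z)) d = 1 := by
    rw [hd, map_smul, map_add, k1, k2, smul_eq_mul]; norm_num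
  have pd : nf (f x) d = T := by rw [hd, map_smul, map_add, p1, p2, smul_eq_mul]; ring
  have pe : nf (f x) e = T / 2 := by rw [he, map_smul, map_sub, p1, p2, smul_eq_mul]; ring
  have nd : ‖d - nrm (f x - f z)‖ ≤ B * T := by
    rw [show d - nrm (f x - f z) =
      (2 : ℝ)⁻¹ • ((d₁ - nrm (f x - f z)) + (d₂ - nrm (f x - f z))) by rw [hd]; module,
      norm_smul, Real.norm_of_nonneg (by norm_num)]
    linarith [norm_add_le (d₁ - nrm (f x - f z)) (d₂ - nrm (f x - f z))]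
  have ne' : ‖e‖ ≤ B * T := by
    rw [he, norm_smul, Real.norm_of_nonneg (by norm_num)]
    have := norm_sub_le_norm_sub_add_norm_sub d₂ (nrm (f x - f z)) d₁
    rw [norm_sub_rev (nrm (f x - f z)) d₁] at this
    linarith
  have hb := hlow x z d e T hx hz hne hT0 (by linarith) (hr.trans (by gcongr; linarith))
    kd pd nd pe ne'
  refine ⟨d, kd, pd, ?_⟩
  have e1 : d + e = d₂ := by rw [hd, he]; module
  have e2 : d - e = d₁ := by rw [hd, he]; module
  rw [bend, e1, e2] at hb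
  linarith [mul_le_mul_of_nonneg_right hc₀ (sq_nonneg T), mul_nonneg hη.le (sq_nonneg T)]

/-- The excess cannot stay below the second term. -/
lemma not_up {θ : ℝ} (hθ : 0 < θ) :
    ∃ n : ℕ, ∃ δ : ℝ, 0 < δ ∧ ∀ x z : X, ∀ T : ℝ, ‖x‖ = 1 → ‖z‖ = 1 → x ≠ z → 0 < T → T ≤ δ →
      ‖x - z‖ ≤ δ * (T / 8 ^ n) →
      ¬ Up f x z (curv D x (nrm (x - z)) * (1 - θ)) (T / 8 ^ n) T := by
  have hc := hX.c_pos
  have hC := hX.one_le
  obtain ⟨n, hn⟩ := pow_unbounded_of_one_lt (1 / θ) (show (1 : ℝ) < 9 / 8 by norm_num)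
  rw [div_lt_iff₀ hθ] at hn
  obtain ⟨δ, hδ, hstep⟩ := step_up hX hY hf hD (show 0 < θ * (c / 4) by positivity)
  refine ⟨n, min δ (min 1 (1 / (2 * C))), lt_min hδ (lt_min one_pos (by positivity)),
    fun x z T hx hz hne hT hTδ hr hUp => ?_⟩
  have hlo : 0 < T / 8 ^ n := by positivity
  have h8 : T / 8 ^ n ≤ T := div_le_self hT.le (one_le_pow₀ (by norm_num))
  have hrC : C * ‖x - z‖ ≤ 1 / 2 := by
    calc C * ‖x - z‖ ≤ C * (1 / (2 * C) * 1) := by
          gcongr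
          refine hr.trans (mul_le_mul ((min_le_right _ _).trans (min_le_right _ _))
            ((h8.trans hTδ).trans ((min_le_right _ _).trans (min_le_left _ _))) hlo.le
            (by positivity))
      _ = _ := by field_simp
  obtain ⟨hΓ0, -⟩ := curv_bounds hX hY hf hD hx hz hne hrC
  set Γ := curv D x (nrm (x - z)) with hΓ
  have key : ∀ k : ℕ, Up f x z (Γ - (9 / 8 : ℝ) ^ k * (Γ * θ))
      (4 ^ k * (T / 8 ^ n)) (T / 2 ^ k) := by
    intro k
    induction k with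
    | zero =>
      simp only [pow_zero, one_mul, div_one]
      rwa [show Γ - Γ * θ = Γ * (1 - θ) by ring]
    | succ k ih =>
      have h := hstep x z _ _ _ hx hz hne (by positivity)
        ((div_le_self hT.le (one_le_pow₀ (by norm_num))).trans (hTδ.trans (min_le_left _ _)))
        (hr.trans (mul_le_mul (min_le_left _ _)
          (le_mul_of_one_le_left hlo.le (one_le_pow₀ (by norm_num))) hlo.le hδ.le))
        (by
          rw [← hΓ]
          have h1 : (1 : ℝ) ≤ (9 / 8) ^ k := one_le_pow₀ (by norm_num)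
          have h2 := mul_le_mul h1 (mul_le_mul_of_nonneg_right hΓ0 hθ.le)
            (by positivity) (by positivity)
          linarith) ih
      convert h using 1 <;> ring
  have e : (4 : ℝ) ^ n * (T / 8 ^ n) = T / 2 ^ n := by
    rw [show (8 : ℝ) ^ n = 4 ^ n * 2 ^ n by rw [← mul_pow]; norm_num]
    field_simp
  obtain ⟨d, hd, -, hG⟩ := key n (T / 2 ^ n) e.le le_rfl
  have h1 := nf_le (nrm (f x - f z)) d
  rw [hd] at h1
  have h2 : Γ - (9 / 8 : ℝ) ^ n * (Γ * θ) < 0 := by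
    have := mul_lt_mul_of_pos_left hn (show 0 < Γ by linarith)
    linarith
  have := mul_neg_of_neg_of_pos h2 (show 0 < (T / 2 ^ n) ^ 2 by positivity)
  linarith

/-- The trivial upper bound on the least excess. -/
lemma low_le {x z : X} {c₀ lo hi T : ℝ} (hx : ‖x‖ = 1) (hz : ‖z‖ = 1) (hne : x ≠ z)
    (hlo : lo ≤ T) (hhi : T ≤ hi) (hT : 0 < T) (hrT : C * ‖x - z‖ ≤ T) (hrC : C * ‖x - z‖ ≤ 1 / 2)
    (h : Low f x z c₀ lo hi) : c₀ ≤ 256 * C := by
  obtain ⟨-, hp', -, -, a0, a1⟩ := pair_facts hX hY hf hD hx hz hne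
  have hfx := hf.norm x hx
  set p' := nrm (f x - f z)
  set a := nf (f x) p'
  set v := f x - nf p' (f x) • p' with hv
  have hh := abs_le.1 (abs_nf_le p' (f x))
  rw [hfx] at hh
  have hvn : ‖v‖ ≤ 2 := by
    refine (norm_sub_le _ _).trans ?_
    rw [hfx, norm_smul, hp', mul_one, Real.norm_eq_abs]
    linarith [abs_le.2 hh]
  have hKv : nf p' v = 0 := by simp [hv, nf_self, hp']
  have hφv : 1 / 2 ≤ nf (f x) v := by
    rw [hv, map_sub, map_smul, nf_self, hfx, smul_eq_mul]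
    have := mul_le_mul_of_nonneg_right hh.2 a0
    linarith
  set s := (T - a) / nf (f x) v
  have hs0 : 0 ≤ s := div_nonneg (by linarith) (by linarith)
  have hs : s ≤ 2 * T := by
    rw [div_le_iff₀ (by linarith)]
    linarith [mul_le_mul_of_nonneg_left hφv (show 0 ≤ 2 * T by linarith)]
  have h1 := h (p' + s • v) T hlo hhi (by rw [map_add, map_smul, hKv, smul_zero, add_zero, nf_self, hp']) (by
    rw [map_add, map_smul, smul_eq_mul, div_mul_cancel₀ _ (by linarith)]; ring)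
  have h2 := hY.norm_add_le_unit hp' (s • v)
  rw [map_smul, hKv, smul_zero, add_zero, norm_smul, Real.norm_of_nonneg hs0] at h2
  have h3 : 16 * C * (s * ‖v‖) ^ 2 ≤ 256 * C * T ^ 2 := by
    calc 16 * C * (s * ‖v‖) ^ 2 ≤ 16 * C * (2 * T * 2) ^ 2 := by
          have := hX.C_pos
          gcongr
      _ = _ := by ring
  exact le_of_mul_le_mul_right (by linarith) (show 0 < T ^ 2 by positivity)

omit hD in
lemma leg {x z : X} {c₀ lo hi S κ : ℝ} {v : Y} (h : Low f x z c₀ lo hi) (hc₀ : 0 ≤ c₀)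
    (hK : nf (nrm (f x - f z)) v = 1 + κ) (hφ : nf (f x) v = S) (hκ : |κ| ≤ 1 / 8)
    (h1 : lo * (1 + κ) ≤ S) (h2 : S ≤ hi * (1 + κ)) :
    c₀ * (1 - |κ|) * S ^ 2 ≤ ‖v‖ - (1 + κ) := by
  obtain ⟨hκ1, hκ2⟩ := abs_le.1 hκ
  have hm : 0 < 1 + κ := by linarith
  have h0 := h ((1 + κ)⁻¹ • v) (S / (1 + κ)) ((le_div_iff₀ hm).2 h1) ((div_le_iff₀ hm).2 h2)
    (by rw [map_smul, hK, smul_eq_mul, inv_mul_cancel₀ hm.ne'])
    (by rw [map_smul, hφ, smul_eq_mul]; ring)
  rw [norm_smul, Real.norm_of_nonneg (inv_nonneg.2 hm.le)] at h0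
  have e : (1 + κ) * (c₀ * (S / (1 + κ)) ^ 2) = c₀ * S ^ 2 * (1 / (1 + κ)) := by field_simp
  have h3 := mul_le_mul_of_nonneg_left h0 hm.le
  rw [e, mul_sub, ← mul_assoc, mul_inv_cancel₀ hm.ne', one_mul, mul_one] at h3
  refine le_trans ?_ h3
  rw [show c₀ * (1 - |κ|) * S ^ 2 = c₀ * S ^ 2 * (1 - |κ|) by ring]
  refine mul_le_mul_of_nonneg_left ?_ (by positivity)
  rw [le_div_iff₀ hm]
  have := mul_le_mul_of_nonneg_left (le_abs_self κ) (show 0 ≤ 1 - |κ| by linarith)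
  linarith [mul_self_nonneg |κ|]

/-- One step of the drift, upwards. -/
lemma step_low {η : ℝ} (hη : 0 < η) :
    ∃ δ : ℝ, 0 < δ ∧ ∀ x z : X, ∀ c₀ lo hi : ℝ, ‖x‖ = 1 → ‖z‖ = 1 → x ≠ z → 0 < lo → hi ≤ δ →
      ‖x - z‖ ≤ δ * lo → curv D x (nrm (x - z)) + η ≤ c₀ → Low f x z c₀ lo hi →
      Low f x z (curv D x (nrm (x - z)) + 9 / 8 * (c₀ - curv D x (nrm (x - z))))
        (4 * lo) (hi / 2) := by
  have hc := hX.c_pos
  have hC := hX.one_le
  set B := 8 * (400 * C) / c + 1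
  have hB : 1 ≤ B := le_add_of_nonneg_left (by positivity)
  set ξ := min (η / (16384 * C)) (1 / 16)
  have hξ : 0 < ξ := lt_min (by positivity) (by norm_num)
  have hξ1 : ξ * (16384 * C) ≤ η := (le_div_iff₀ (by positivity)).1 (min_le_left _ _)
  have hξ2 : ξ ≤ 1 / 16 := min_le_right _ _
  obtain ⟨B', δ, hB', hδ, hupp⟩ := bend_upper hX hY hf hD hξ hB
  set δ' := min δ (min (1 / (400 * C)) (ξ / (B' + 1)))
  refine ⟨δ', lt_min hδ (lt_min (by positivity) (by positivity)),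
    fun x z c₀ lo hi hx hz hne hlo hhi hr hc₀ hLow d T hT1 hT2 hK hφ => ?_⟩
  have d1 : δ' * (400 * C) ≤ 1 :=
    (le_div_iff₀ (by positivity)).1 ((min_le_right _ _).trans (min_le_left _ _))
  have d2 : δ' * (B' + 1) ≤ ξ :=
    (le_div_iff₀ (by positivity)).1 ((min_le_right _ _).trans (min_le_right _ _))
  have hT0 : 0 < T := by linarith
  have hTδ : T ≤ δ' := by linarith
  have hδ'0 : 0 ≤ δ' := hT0.le.trans hTδ
  have hδ'1 : δ' ≤ 1 / 400 := by
    linarith [mul_le_mul_of_nonneg_left hC (show 0 ≤ 400 * δ' by linarith)]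
  have hrT : C * ‖x - z‖ ≤ T := by
    calc C * ‖x - z‖ ≤ C * (δ' * T) := by
          gcongr
          exact hr.trans (mul_le_mul_of_nonneg_left (by linarith) hδ'0)
      _ = C * δ' * T := by ring
      _ ≤ 1 * T := mul_le_mul_of_nonneg_right (by linarith) hT0.le
      _ = T := one_mul T
  obtain ⟨hΓ0, hΓ⟩ := curv_bounds hX hY hf hD hx hz hne (by linarith)
  obtain ⟨-, hp', -, -, -, -⟩ := pair_facts hX hY hf hD hx hz hne
  have hc₀C := low_le hX hY hf hD hx hz hne (by linarith) (by linarith) hT0 hrT (by linarith) hLow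
  set Γ := curv D x (nrm (x - z))
  set p' := nrm (f x - f z)
  have hc1 : (Γ + 9 / 8 * (c₀ - Γ)) * T ^ 2 ≤ 400 * C * T ^ 2 :=
    mul_le_mul_of_nonneg_right (by linarith) (sq_nonneg T)
  rcases le_or_gt (400 * C * T ^ 2) (‖d‖ - 1) with hG | hG
  · linarith
  have hk1 : 400 * C * T ^ 2 ≤ 1 := by
    calc 400 * C * T ^ 2 ≤ 400 * C * (δ' * 1) := by rw [sq]; gcongr; linarith
      _ ≤ 1 := by linarith
  have hdp := dev_bound hY hp' hK (by positivity) hT0.le hG.le hk1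
  obtain ⟨e, ha, hen, hb⟩ := hupp x z d T hx hz hne hT0 (hTδ.trans (min_le_left _ _))
    ((hr.trans (mul_le_of_le_one_right hδ'0 (by linarith))).trans (min_le_left _ _)) hK hφ hdp
  set a := nf (f x) e with hadef
  set κ := nf p' e with hκdef
  obtain ⟨ha1, ha2⟩ := abs_le.1 ha
  have hκ : |κ| ≤ ξ := by
    refine (abs_nf_le _ _).trans (hen.trans ?_)
    calc B' * T ≤ (B' + 1) * δ' := mul_le_mul (by linarith) hTδ hT0.le (by linarith)
      _ ≤ ξ := by linarith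
  obtain ⟨hκ1, hκ2⟩ := abs_le.1 hκ
  have hξT : ξ * T ≤ 1 / 16 * T := mul_le_mul_of_nonneg_right hξ2 hT0.le
  have hc₀0 : 0 ≤ c₀ := by linarith
  have b1 : lo * (1 + κ) ≤ lo * (17 / 16) := by gcongr; linarith
  have b2 : hi * (15 / 16) ≤ hi * (1 + κ) := by gcongr <;> linarith
  have b3 : lo * (1 + -κ) ≤ lo * (17 / 16) := by gcongr; linarith
  have b4 : hi * (15 / 16) ≤ hi * (1 + -κ) := by gcongr <;> linarith
  have l1 := leg hX hY hf (v := d + e) (κ := κ) (S := T + a) hLow hc₀0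
    (by rw [map_add, hK]) (by rw [map_add, hφ]) (by linarith) (by linarith) (by linarith)
  have l2 := leg hX hY hf (v := d - e) (κ := -κ) (S := T - a) hLow hc₀0
    (by rw [map_sub, hK]; ring) (by rw [map_sub, hφ]) (by rw [abs_neg]; linarith)
    (by linarith) (by linarith)
  rw [abs_neg] at l2
  have hsq : (5 / 2 - 2 * ξ) * T ^ 2 ≤ (T + a) ^ 2 + (T - a) ^ 2 := by
    have h0 : ((1 / 2 - ξ) * T) ^ 2 ≤ a ^ 2 :=
      pow_le_pow_left₀ (mul_nonneg (by linarith) hT0.le) (by linarith) 2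
    linarith [mul_nonneg (sq_nonneg ξ) (sq_nonneg T)]
  have h5 : c₀ * (5 / 2 - 2 * ξ - 3 * ξ) * T ^ 2 ≤
      c₀ * (1 - |κ|) * ((T + a) ^ 2 + (T - a) ^ 2) := by
    refine le_trans ?_ (mul_le_mul_of_nonneg_left hsq (mul_nonneg hc₀0 (by linarith)))
    rw [mul_assoc, mul_assoc c₀]
    refine mul_le_mul_of_nonneg_left ?_ hc₀0
    rw [← mul_assoc]
    refine mul_le_mul_of_nonneg_right ?_ (sq_nonneg T)
    have := mul_le_mul hκ (show 5 / 2 - 2 * ξ ≤ 3 by linarith) (by linarith) hξ.le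
    linarith
  have hcξ : (c₀ * ξ) * T ^ 2 ≤ (256 * C * ξ) * T ^ 2 := by gcongr
  have hξC : 16384 * C * ξ * T ^ 2 ≤ (c₀ - Γ) * T ^ 2 :=
    mul_le_mul_of_nonneg_right (by linarith) (sq_nonneg T)
  have hξ1' : ξ * T ^ 2 ≤ C * ξ * T ^ 2 :=
    mul_le_mul_of_nonneg_right (le_mul_of_one_le_left hξ.le hC) (sq_nonneg T)
  rw [bend] at hb
  linarith [mul_nonneg hξ.le (sq_nonneg T)]

/-- The excess cannot stay above the second term. -/
lemma not_low {θ : ℝ} (hθ : 0 < θ) :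
    ∃ n : ℕ, ∃ δ : ℝ, 0 < δ ∧ ∀ x z : X, ∀ T : ℝ, ‖x‖ = 1 → ‖z‖ = 1 → x ≠ z → 0 < T → T ≤ δ →
      ‖x - z‖ ≤ δ * (T / 8 ^ n) →
      ¬ Low f x z (curv D x (nrm (x - z)) * (1 + θ)) (T / 8 ^ n) T := by
  have hc := hX.c_pos
  have hC := hX.one_le
  obtain ⟨n, hn⟩ := pow_unbounded_of_one_lt (1024 * C / (c * θ))
    (show (1 : ℝ) < 9 / 8 by norm_num)
  rw [div_lt_iff₀ (by positivity)] at hn
  obtain ⟨δ, hδ, hstep⟩ := step_low hX hY hf hD (show 0 < θ * (c / 4) by positivity)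
  refine ⟨n, min δ (min 1 (1 / (2 * C))), lt_min hδ (lt_min one_pos (by positivity)),
    fun x z T hx hz hne hT hTδ hr hUp => ?_⟩
  have hlo : 0 < T / 8 ^ n := by positivity
  have h8 : T / 8 ^ n ≤ T := div_le_self hT.le (one_le_pow₀ (by norm_num))
  have hT1 : T ≤ 1 := hTδ.trans ((min_le_right _ _).trans (min_le_left _ _))
  have hrC' : C * ‖x - z‖ ≤ T / 8 ^ n / 2 := by
    calc C * ‖x - z‖ ≤ C * (1 / (2 * C) * (T / 8 ^ n)) := by
          gcongr
          exact hr.trans (mul_le_mul_of_nonneg_right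
            ((min_le_right _ _).trans (min_le_right _ _)) hlo.le)
      _ = _ := by field_simp
  obtain ⟨hΓ0, -⟩ := curv_bounds hX hY hf hD hx hz hne (by linarith)
  set Γ := curv D x (nrm (x - z)) with hΓ
  have key : ∀ k : ℕ, Low f x z (Γ + (9 / 8 : ℝ) ^ k * (Γ * θ))
      (4 ^ k * (T / 8 ^ n)) (T / 2 ^ k) := by
    intro k
    induction k with
    | zero =>
      simp only [pow_zero, one_mul, div_one]
      rwa [show Γ + Γ * θ = Γ * (1 + θ) by ring]
    | succ k ih =>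
      have h := hstep x z _ _ _ hx hz hne (by positivity)
        ((div_le_self hT.le (one_le_pow₀ (by norm_num))).trans (hTδ.trans (min_le_left _ _)))
        (hr.trans (mul_le_mul (min_le_left _ _)
          (le_mul_of_one_le_left hlo.le (one_le_pow₀ (by norm_num))) hlo.le hδ.le))
        (by
          rw [← hΓ]
          have h1 : (1 : ℝ) ≤ (9 / 8) ^ k := one_le_pow₀ (by norm_num)
          have h2 := mul_le_mul h1 (mul_le_mul_of_nonneg_right hΓ0 hθ.le)
            (by positivity) (by positivity)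
          linarith) ih
      convert h using 1 <;> ring
  have e : (4 : ℝ) ^ n * (T / 8 ^ n) = T / 2 ^ n := by
    rw [show (8 : ℝ) ^ n = 4 ^ n * 2 ^ n by rw [← mul_pow]; norm_num]
    field_simp
  have hle : T / 8 ^ n ≤ T / 2 ^ n :=
    e ▸ le_mul_of_one_le_left hlo.le (one_le_pow₀ (by norm_num))
  have h1 := low_le hX hY hf hD hx hz hne e.le le_rfl (by positivity) (by linarith) (by linarith)
    (key n)
  have h2 := mul_le_mul_of_nonneg_left (mul_le_mul_of_nonneg_right hΓ0 hθ.le)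
    (show (0 : ℝ) ≤ (9 / 8) ^ n by positivity)
  linarith

/-- A nearly extremal pair gives small excess. -/
lemma base_up {M : ℝ} (hM : 0 < M) (hM1 : M ≤ 1) (hB : Bd f M) :
    ∃ δ : ℝ, 0 < δ ∧ ∀ lo hi : ℝ, 0 < lo → hi ≤ δ → ∃ r₀ ε : ℝ, 0 < r₀ ∧ 0 < ε ∧
      ∀ x z : X, ‖x‖ = 1 → ‖z‖ = 1 → x ≠ z → ‖x - z‖ ≤ r₀ →
      (M - ε) * (1 - nf (x - z) x) ≤ nf (f x - f z) (f x) - nf (x - z) x →
      Up f x z (curv D x (nrm (x - z)) * (1 - M / 4)) lo hi := by
  have hc := hX.c_pos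
  have hC := hX.one_le
  set B₀ := 4 * (256 * C + 1) / c + 1
  have hB₀ : 0 < B₀ := by positivity
  set μ := min (M * c / 256) (M / 16)
  have hμ : 0 < μ := lt_min (by positivity) (by positivity)
  have hμ1 : μ ≤ M * c / 256 := min_le_left _ _
  have hμ2 : μ ≤ M / 16 := min_le_right _ _
  set η₂ := min (M * c / 32) 1
  obtain ⟨δe, hδe, hexp⟩ := hD.exp (M * c / (128 * B₀ ^ 2)) (by positivity)
  refine ⟨min (δe / (2 * B₀)) (M / (4 * (2 * B₀ + 5))),
    lt_min (by positivity) (by positivity), fun lo hi hlo hhi => ?_⟩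
  refine ⟨min (lo / (20 * C)) (min (μ * lo ^ 2 / C) (1 / (2 * C))), min (μ * lo) (M / 4),
    lt_min (by positivity) (lt_min (by positivity) (by positivity)),
    lt_min (by positivity) (by positivity),
    fun x z hx hz hne hr hu T hT1 hT2 => ?_⟩
  set ε := min (μ * lo) (M / 4)
  set r := ‖x - z‖ with hrdef
  have r1 : r * (20 * C) ≤ lo := (le_div_iff₀ (by positivity)).1 (hr.trans (min_le_left _ _))
  have r2 : C * r ≤ μ * lo ^ 2 := by
    rw [mul_comm]
    exact (le_div_iff₀ (by positivity)).1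
      (hr.trans ((min_le_right _ _).trans (min_le_left _ _)))
  have r3 : r * (2 * C) ≤ 1 :=
    (le_div_iff₀ (by positivity)).1 (hr.trans ((min_le_right _ _).trans (min_le_right _ _)))
  have t1 : T * (2 * B₀) ≤ δe :=
    (le_div_iff₀ (by positivity)).1 (hT2.trans (hhi.trans (min_le_left _ _)))
  have t2 : T * (4 * (2 * B₀ + 5)) ≤ M :=
    (le_div_iff₀ (by positivity)).1 (hT2.trans (hhi.trans (min_le_right _ _)))
  have hT0 : 0 < T := hlo.trans_le hT1
  have hr0 : 0 < r := norm_pos_iff.2 (sub_ne_zero.2 hne)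
  have hTB : 0 ≤ T * B₀ := mul_nonneg hT0.le hB₀.le
  have hT4 : T ≤ 1 / 20 := by linarith
  obtain ⟨hp, hp', a0, a1, b0, b1⟩ := pair_facts hX hY hf hD hx hz hne
  rw [← hrdef] at a1 b1
  have hμT : μ * lo ^ 2 ≤ μ * T ^ 2 :=
    mul_le_mul_of_nonneg_left (pow_le_pow_left₀ hlo.le hT1 2) hμ.le
  have hμT1 : μ * T ^ 2 ≤ M * T / 256 := by
    calc μ * T ^ 2 = μ * T * T := by ring
      _ ≤ M / 16 * T * (1 / 20) := by gcongr
      _ ≤ _ := by linarith [mul_pos hM hT0]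
  have hμT2 : μ * T ^ 2 < T := by linarith [mul_le_mul_of_nonneg_right hM1 hT0.le]
  obtain ⟨v, hv1, hv2, hvD, hvn⟩ := exists_curv hX hD hx hp
    (show |nf x (nrm (x - z))| ≤ 1 / 2 by rw [abs_of_nonneg a0]; linarith)
    (show 0 < η₂ from lt_min (by positivity) one_pos) (min_le_right _ _)
  obtain ⟨hΓ0, -⟩ := curv_bounds hX hY hf hD hx hz hne (by rw [← hrdef]; linarith)
  set p := nrm (x - z) with hpdef
  set α := nf x p with hαdef
  set S := (1 + M / 4) * T with hS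
  have hS1 : T ≤ S := by linarith [mul_pos hM hT0]
  have hS2 : S ≤ 5 / 4 * T := by linarith [mul_le_mul_of_nonneg_right hM1 hT0.le]
  set h₀ := ((1 - M) * S) • v with hh₀
  have hm : 0 ≤ (1 - M) * S := mul_nonneg (by linarith) (by linarith)
  have hmS : (1 - M) * S ≤ 2 * T := by
    linarith [mul_nonneg hM.le (hT0.le.trans hS1)]
  have hh₀n : ‖h₀‖ ≤ 2 * T * B₀ := by
    rw [hh₀, norm_smul, Real.norm_of_nonneg hm]
    exact mul_le_mul hmS hvn (norm_nonneg _) (by positivity)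
  have hexp' := (abs_le.1 (hexp p h₀ hp (hh₀n.trans (by linarith)))).2
  rw [hh₀, map_smul, hv2, smul_zero, ← hh₀, hh₀, hD.homog, ← hh₀] at hexp'
  set q := (p - α • x) + ((1 - M) * S) • (v - x) with hqdef
  have hq : nf x q = 0 := by simp [hqdef, nf_self, hx, hv1, hαdef]
  have hq5 : ‖q‖ ≤ 5 := by
    refine (norm_add_le _ _).trans ?_
    have i1 := norm_sub_le p (α • x)
    rw [hp, norm_smul, hx, Real.norm_of_nonneg a0, mul_one] at i1
    rw [norm_smul, Real.norm_of_nonneg hm]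
    have i2 : (1 - M) * S * ‖v - x‖ ≤ 2 * T * (B₀ + 1) :=
      mul_le_mul hmS ((norm_sub_le _ _).trans (by rw [hx]; linarith)) (norm_nonneg _)
        (by positivity)
    linarith
  obtain ⟨w, hw⟩ := exists_tan hX hY hf hx hq hq5 (show 0 < μ * r * T ^ 2 by positivity)
  have hη : μ * r * T ^ 2 ≤ T / 4 := by
    have := mul_le_mul_of_nonneg_right (show r ≤ 1 by
      linarith [mul_le_mul_of_nonneg_left hC (show 0 ≤ 2 * r by positivity)])
      (show 0 ≤ μ * T ^ 2 by positivity)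
    linarith
  set d₁ := w + S • f x with hd₁
  have hn1 := norm_tan_le hX hY hf hB hx hw hq5 (show 0 < S by linarith) (by linarith)
    (by linarith)
  have e20 : 20 * C / S * (μ * r * T ^ 2) ≤ μ * T ^ 2 := by
    rw [div_mul_eq_mul_div, div_le_iff₀ (by linarith)]
    have := mul_le_mul_of_nonneg_right (show r * (20 * C) ≤ S by linarith)
      (show 0 ≤ μ * T ^ 2 by positivity)
    linarith
  have hqx : ‖q + ((1 - M) * S) • x‖ ≤ ‖p + h₀‖ + α := by
    rw [show q + ((1 - M) * S) • x = (p + h₀) - α • x by rw [hqdef, hh₀]; module]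
    refine (norm_sub_le _ _).trans ?_
    rw [norm_smul, hx, mul_one, Real.norm_of_nonneg a0]
  have hKw := hw.eq z hz hne
  rw [← hrdef, mul_right_comm μ r] at hKw
  have hKw' : |nf (f x - f z) w - nf (x - z) q| ≤ μ * T ^ 2 := le_of_mul_le_mul_right hKw hr0
  have hxz := sub_ne_zero.2 hne
  have hKp : nf (x - z) p = 1 := by rw [← hX.nf_nrm hxz, ← hpdef, nf_self, hp]
  have hKv : nf (x - z) v = 0 := by rw [← hX.nf_nrm hxz, ← hpdef, hv2]
  have hKq : nf (x - z) q = 1 - α * nf (x - z) x + (1 - M) * S * (0 - nf (x - z) x) := by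
    simp [hqdef, hKp, hKv]
  set h := nf (x - z) x
  set h' := nf (f x - f z) (f x)
  have hh := abs_le.1 (abs_nf_le (x - z) x)
  rw [hx] at hh
  have hαh : α * h ≤ α := mul_le_of_le_one_right a0 hh.2
  set κ := nf (nrm (f x - f z)) d₁
  have hκeq : κ = nf (f x - f z) w + S * h' := by
    simp only [κ]
    rw [hY.nf_nrm (sub_ne_zero.2 (hf.ne hx hz hne)), hd₁, map_add, map_smul, smul_eq_mul]
  have hε1 : S * ε ≤ 2 * μ * T ^ 2 := by
    calc S * ε ≤ 5 / 4 * T * (μ * T) := by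
          refine mul_le_mul hS2 ((min_le_left _ _).trans (by gcongr))
            (le_min (by positivity) (by positivity)) (by positivity)
      _ ≤ _ := by linarith [show 0 ≤ μ * T ^ 2 by positivity]
  have hκ : 1 + S * M - 6 * (μ * T ^ 2) ≤ κ := by
    have i1 : S * (M - 2 * ε) ≤ S * (h' - (1 - M) * h) := by
      refine mul_le_mul_of_nonneg_left ?_ (by linarith)
      have : ε * (1 - h) ≤ ε * 2 :=
        mul_le_mul_of_nonneg_left (by linarith) (le_min (by positivity) (by positivity))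
      linarith
    linarith [abs_le.1 hKw']
  have hκ1 : 1 ≤ κ := by linarith [mul_le_mul_of_nonneg_left hS1 hM.le, mul_pos hM hT0]
  have hκ2 : κ ≤ 1 + (2 * B₀ + 4) * T := by
    have i1 : κ ≤ ‖d₁‖ := nf_le _ _
    have i2 := norm_add_le p h₀
    rw [hp] at i2
    have i3 : M * S ≤ S := mul_le_of_le_one_left (by linarith) hM1
    linarith
  have hG : ‖d₁‖ - κ ≤ curv D x p * (1 - M / 4) * T ^ 2 :=
    up_arith hM hM1 hT0.le hB₀ (by linarith [hX.c_pos]) hΓ0 hS hμ1 (norm_nonneg h₀) hh₀n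
      (hD.nonneg hX hp v) (hvD.trans (by linarith [min_le_left (M * c / 32) 1])) (by linarith)
  refine rescale hp' (d₁ := d₁) hκ1 rfl ?_ (show nf (f x) (nrm (f x - f z)) < T by linarith) hG
  have hφ1 : S - μ * T ^ 2 ≤ nf (f x) d₁ := by
    rw [hd₁, map_add, map_smul, nf_self, hf.norm x hx, smul_eq_mul, mul_one]
    have : μ * r * T ^ 2 ≤ μ * T ^ 2 := by
      rw [mul_right_comm]
      refine mul_le_of_le_one_right (by positivity) ?_
      linarith [mul_le_mul_of_nonneg_left hC (show 0 ≤ 2 * r by positivity)]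
    linarith [abs_le.1 hw.flat]
  have i1 := mul_le_mul_of_nonneg_right hκ2 hT0.le
  have i2 := mul_le_mul_of_nonneg_right t2 hT0.le
  have i3 := mul_le_mul_of_nonneg_right (show μ ≤ 1 by linarith) (sq_nonneg T)
  linarith

/-- A nearly extremal pair of the inverse gives large excess. -/
lemma base_low {M : ℝ} (hM : 0 < M) (hM1 : M ≤ 1) (hB' : Bd g M) :
    ∃ δ : ℝ, 0 < δ ∧ ∀ lo hi : ℝ, 0 < lo → hi ≤ δ → ∃ r₀ ε : ℝ, 0 < r₀ ∧ 0 < ε ∧
      ∀ x z : X, ‖x‖ = 1 → ‖z‖ = 1 → x ≠ z → ‖x - z‖ ≤ r₀ →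
      (M - ε) * (1 - nf (f x - f z) (f x)) ≤ nf (x - z) x - nf (f x - f z) (f x) →
      Low f x z (curv D x (nrm (x - z)) * (1 + M / 2)) lo hi := by
  have hc := hX.c_pos
  have hC := hX.one_le
  set B := 8 * (390 * C) / c + 1
  have hB : 0 < B := by positivity
  set μ := min (M * c / 256) (M / 16)
  have hμ : 0 < μ := lt_min (by positivity) (by positivity)
  have hμ1 : μ ≤ M * c / 256 := min_le_left _ _
  have hμ2 : μ ≤ M / 16 := min_le_right _ _
  obtain ⟨δe, hδe, hexp⟩ := hD.exp (M * c / (64 * B ^ 2)) (by positivity)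
  refine ⟨min (δe / B) (min (M * c / (131072 * C)) (1 / (1000 * C))),
    lt_min (by positivity) (lt_min (by positivity) (by positivity)), fun lo hi hlo hhi => ?_⟩
  refine ⟨min (lo / (20 * C)) (min (μ * lo ^ 2 / C) (1 / (2 * C))), min (μ * lo) (M / 4),
    lt_min (by positivity) (lt_min (by positivity) (by positivity)),
    lt_min (by positivity) (by positivity),
    fun x z hx hz hne hr hu d T hT1 hT2 hK hφ => ?_⟩
  by_contra hG
  push Not at hG
  set ε := min (μ * lo) (M / 4)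
  set r := ‖x - z‖ with hrdef
  have r1 : r * (20 * C) ≤ lo := (le_div_iff₀ (by positivity)).1 (hr.trans (min_le_left _ _))
  have r2 : C * r ≤ μ * lo ^ 2 := by
    rw [mul_comm]
    exact (le_div_iff₀ (by positivity)).1
      (hr.trans ((min_le_right _ _).trans (min_le_left _ _)))
  have r3 : r * (2 * C) ≤ 1 :=
    (le_div_iff₀ (by positivity)).1 (hr.trans ((min_le_right _ _).trans (min_le_right _ _)))
  have t1 : T * B ≤ δe := (le_div_iff₀ hB).1 (hT2.trans (hhi.trans (min_le_left _ _)))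
  have t2 : T * (131072 * C) ≤ M * c :=
    (le_div_iff₀ (by positivity)).1
      (hT2.trans (hhi.trans ((min_le_right _ _).trans (min_le_left _ _))))
  have t3 : T * (1000 * C) ≤ 1 :=
    (le_div_iff₀ (by positivity)).1
      (hT2.trans (hhi.trans ((min_le_right _ _).trans (min_le_right _ _))))
  have hT0 : 0 < T := hlo.trans_le hT1
  have hT4 : T ≤ 1 / 1000 := by
    linarith [mul_le_mul_of_nonneg_left hC (show 0 ≤ 1000 * T by linarith)]
  have hr0 : 0 < r := norm_pos_iff.2 (sub_ne_zero.2 hne)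
  have hr1 : r ≤ 1 := by
    linarith [mul_le_mul_of_nonneg_left hC (show 0 ≤ 2 * r by positivity)]
  obtain ⟨hp, hp', a0, a1, b0, b1⟩ := pair_facts hX hY hf hD hx hz hne
  rw [← hrdef] at a1 b1
  have hμT : μ * lo ^ 2 ≤ μ * T ^ 2 :=
    mul_le_mul_of_nonneg_left (pow_le_pow_left₀ hlo.le hT1 2) hμ.le
  have hμT1 : μ * T ^ 2 ≤ M * T / 256 := by
    calc μ * T ^ 2 = μ * T * T := by ring
      _ ≤ M / 16 * T * (1 / 1000) := by gcongr
      _ ≤ _ := by linarith [mul_pos hM hT0]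
  have hMT : M * T ≤ T := mul_le_of_le_one_left hT0.le hM1
  have hα : |nf x (nrm (x - z))| ≤ 1 / 2 := by rw [abs_of_nonneg a0]; linarith
  obtain ⟨hΓ0, hΓ⟩ := curv_bounds hX hY hf hD hx hz hne (by rw [← hrdef]; linarith)
  set Γ := curv D x (nrm (x - z))
  set p := nrm (x - z) with hpdef
  set p' := nrm (f x - f z) with hp'def
  set a' := nf (f x) p'
  set α := nf x p with hαdef
  set G := ‖d‖ - 1
  have hGC : G ≤ 384 * C * T ^ 2 := hG.le.trans (mul_le_mul_of_nonneg_right (by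
    calc Γ * (1 + M / 2) ≤ 256 * C * (3 / 2) := by gcongr; linarith
      _ = _ := by ring) (sq_nonneg T))
  have hG0 : 0 ≤ G := by simp only [G]; linarith [hK.symm.le.trans (nf_le p' d)]
  have hCT : C * T ^ 2 ≤ T / 1000 := by
    calc C * T ^ 2 = T * (1000 * C) * T / 1000 := by ring
      _ ≤ 1 * T / 1000 := by gcongr
      _ = _ := by ring
  set v := M • p' + (1 - M) • d with hv
  have hvn : ‖v‖ ≤ 1 + (1 - M) * G := by
    refine (norm_add_le _ _).trans ?_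
    rw [norm_smul, norm_smul, hp', Real.norm_of_nonneg hM.le,
      Real.norm_of_nonneg (by linarith), mul_one]
    simp only [G]; linarith
  have hvn2 : (1 - M) * G ≤ G := mul_le_of_le_one_left hG0 (by linarith)
  have hKv : nf p' v = 1 := by simp [hv, nf_self, hp', hK]
  have hφv : nf (f x) v = M * a' + (1 - M) * T := by simp [hv, hφ, a']
  have hφv0 : 0 ≤ nf (f x) v := by
    rw [hφv]; exact add_nonneg (mul_nonneg hM.le b0) (mul_nonneg (by linarith) hT0.le)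
  have hfx := hf.norm x hx
  set q := v - nf (f x) v • f x with hqdef
  have hq : nf (f x) q = 0 := by simp [hqdef, nf_self, hfx]
  have hq5 : ‖q‖ ≤ 5 := by
    refine (norm_sub_le _ _).trans ?_
    rw [norm_smul, hfx, mul_one, Real.norm_of_nonneg hφv0]
    linarith [nf_le (f x) v]
  obtain ⟨w, hw⟩ := exists_tan hY hX hf.symm hfx hq hq5 (show 0 < μ * r * T ^ 2 by positivity)
  have hηr : μ * r * T ^ 2 ≤ μ * T ^ 2 := by
    rw [mul_right_comm]
    exact mul_le_of_le_one_right (by positivity) hr1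
  set dX := w + T • x with hdX
  have hn1 := norm_tan_le hY hX hf.symm hB' hfx hw hq5 hT0 (by linarith) (by linarith)
  rw [hf.left x hx, ← hdX] at hn1
  have e20 : 20 * C / T * (μ * r * T ^ 2) ≤ μ * T ^ 2 := by
    rw [div_mul_eq_mul_div, div_le_iff₀ hT0]
    have := mul_le_mul_of_nonneg_right (show r * (20 * C) ≤ T by linarith)
      (show 0 ≤ μ * T ^ 2 by positivity)
    linarith
  have hMa : M * a' ≤ a' := mul_le_of_le_one_left b0 hM1
  have hqx : ‖q + ((1 - M) * T) • f x‖ ≤ ‖v‖ + a' := by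
    rw [show q + ((1 - M) * T) • f x = v - (M * a') • f x by rw [hqdef, hφv]; module]
    refine (norm_sub_le _ _).trans ?_
    rw [norm_smul, hfx, mul_one, Real.norm_of_nonneg (mul_nonneg hM.le b0)]
    linarith
  have hfz := hf.norm z hz
  have hKw := hw.eq (f z) hfz (hf.ne hx hz hne)
  rw [hf.left x hx, hf.left z hz, hf.dist x z hx hz, ← hrdef, mul_right_comm μ r] at hKw
  have hKw' : |nf (x - z) w - nf (f x - f z) q| ≤ μ * T ^ 2 := le_of_mul_le_mul_right hKw hr0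
  have hflat := hw.flat
  rw [hf.left x hx] at hflat
  set h := nf (x - z) x
  set h' := nf (f x - f z) (f x)
  have hKq : nf (f x - f z) q = 1 - (M * a' + (1 - M) * T) * h' := by
    rw [hqdef, map_sub, map_smul, smul_eq_mul, hφv,
      ← hY.nf_nrm (sub_ne_zero.2 (hf.ne hx hz hne)) v, ← hp'def, hKv]
  have hh := abs_le.1 (abs_nf_le (f x - f z) (f x))
  rw [hfx] at hh
  set κ := nf p dX
  have hκeq : κ = nf (x - z) w + T * h := by
    simp only [κ]
    rw [hX.nf_nrm (sub_ne_zero.2 hne), hdX, map_add, map_smul, smul_eq_mul]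
  have hε1 : T * ε ≤ μ * T ^ 2 := by
    calc T * ε ≤ T * (μ * T) :=
          mul_le_mul_of_nonneg_left ((min_le_left _ _).trans (by gcongr)) hT0.le
      _ = _ := by ring
  have hκ : 1 + T * M - a' - 3 * (μ * T ^ 2) ≤ κ := by
    have i1 : T * (M - 2 * ε) ≤ T * (h - (1 - M) * h') := by
      refine mul_le_mul_of_nonneg_left ?_ hT0.le
      have : ε * (1 - h') ≤ ε * 2 :=
        mul_le_mul_of_nonneg_left (by linarith) (le_min (by positivity) (by positivity))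
      linarith
    have i2 : M * a' * h' ≤ a' := le_trans (mul_le_of_le_one_right (mul_nonneg hM.le b0) hh.2) hMa
    linarith [abs_le.1 hKw']
  have hκ1 : 1 ≤ κ := by linarith [mul_pos hM hT0]
  have hgap : ‖dX‖ - κ ≤ (1 - M) * G + 6 * (μ * T ^ 2) := by linarith
  have hdXn : ‖dX‖ ≤ 1 + 2 * T := by linarith
  have hκ0 : 0 < κ := by linarith
  set u := κ⁻¹ • dX with hu'
  have hKu : nf p u = 1 := by rw [hu', map_smul, smul_eq_mul]; exact inv_mul_cancel₀ hκ0.ne'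
  have hun : ‖u‖ - 1 ≤ ‖dX‖ - κ := by
    have i2 : 0 ≤ ‖u‖ - 1 := by linarith [nf_le p u]
    have : κ * ‖u‖ = ‖dX‖ := by
      rw [hu', norm_smul, Real.norm_of_nonneg (inv_nonneg.2 hκ0.le), ← mul_assoc,
        mul_inv_cancel₀ hκ0.ne', one_mul]
    linarith [mul_le_mul_of_nonneg_right hκ1 i2]
  have hμC : μ * T ^ 2 ≤ C * T ^ 2 :=
    mul_le_mul_of_nonneg_right (by linarith) (sq_nonneg T)
  have hdev := dev_bound hX hp hKu (show 0 ≤ 390 * C by positivity) hT0.le (by linarith)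
    (by linarith)
  have hexp' := (abs_le.1 (hexp p (u - p) hp (hdev.trans (by linarith)))).1
  rw [add_sub_cancel, map_sub, hKu, nf_self, hp] at hexp'
  have hlow := curv_mul_sq_le hX hD hx hp hα (u - p)
  rw [map_sub (nf p), hKu, nf_self, hp, sub_self, mul_zero, sub_zero, map_sub, ← hαdef] at hlow
  have hσ : T * (1 - 4 * T) ≤ nf x u - α := by
    rw [hu', map_smul, smul_eq_mul, hdX, map_add, map_smul, nf_self, hx, smul_eq_mul, mul_one]
    have i1 : T * (1 - 3 * T) ≤ κ⁻¹ * (nf x w + T) := by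
      rw [le_inv_mul_iff₀ hκ0]
      have i2 : κ * (T * (1 - 3 * T)) ≤ (1 + 2 * T) * (T * (1 - 3 * T)) :=
        mul_le_mul_of_nonneg_right ((nf_le p dX).trans hdXn)
          (mul_nonneg hT0.le (by linarith))
      have i3 := mul_le_mul_of_nonneg_right (show μ ≤ 1 by linarith) (sq_nonneg T)
      have i4 : 0 ≤ T ^ 2 * T := by positivity
      linarith [abs_le.1 hflat]
    have i3 := mul_le_mul_of_nonneg_right (show μ ≤ 1 by linarith) (sq_nonneg T)
    linarith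
  have hσ2 : T ^ 2 * (1 - 8 * T) ≤ (nf x u - α) ^ 2 := by
    refine le_trans ?_ (pow_le_pow_left₀ (mul_nonneg hT0.le (by linarith)) hσ 2)
    linarith [show 0 ≤ T ^ 2 * T ^ 2 by positivity]
  exact low_arith hM hM1 hc hT0 hB hΓ0 hΓ t2 hμ1 (norm_nonneg (u - p)) hdev hG hσ2
    (g := ‖dX‖ - κ) (by linarith) hgap

/-- Short chords are not nearly extremal, for the isometry or for its inverse. -/
theorem tangent_excluded {M : ℝ} (hM : 0 < M) (hM1 : M ≤ 1) (hB : Bd f M) (hB' : Bd g M) :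
    ∃ r₀ ε : ℝ, 0 < r₀ ∧ 0 < ε ∧ ∀ x z : X, ‖x‖ = 1 → ‖z‖ = 1 → x ≠ z → ‖x - z‖ ≤ r₀ →
      nf (f x - f z) (f x) - nf (x - z) x < (M - ε) * (1 - nf (x - z) x) ∧
      nf (x - z) x - nf (f x - f z) (f x) < (M - ε) * (1 - nf (f x - f z) (f x)) := by
  obtain ⟨n₁, δ₁, hδ₁, h₁⟩ := not_up hX hY hf hD (show 0 < M / 4 by positivity)
  obtain ⟨n₂, δ₂, hδ₂, h₂⟩ := not_low hX hY hf hD (show 0 < M / 2 by positivity)
  obtain ⟨δ₃, hδ₃, b₁⟩ := base_up hX hY hf hD hM hM1 hB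
  obtain ⟨δ₄, hδ₄, b₂⟩ := base_low hX hY hf hD hM hM1 hB'
  set T₁ := min δ₁ δ₃
  set T₂ := min δ₂ δ₄
  have hT₁ : 0 < T₁ := lt_min hδ₁ hδ₃
  have hT₂ : 0 < T₂ := lt_min hδ₂ hδ₄
  obtain ⟨r₁, ε₁, hr₁, hε₁, c₁⟩ := b₁ (T₁ / 8 ^ n₁) T₁ (by positivity) (min_le_right _ _)
  obtain ⟨r₂, ε₂, hr₂, hε₂, c₂⟩ := b₂ (T₂ / 8 ^ n₂) T₂ (by positivity) (min_le_right _ _)
  refine ⟨min (min r₁ r₂) (min (δ₁ * (T₁ / 8 ^ n₁)) (δ₂ * (T₂ / 8 ^ n₂))), min ε₁ ε₂,
    lt_min (lt_min hr₁ hr₂) (lt_min (by positivity) (by positivity)), lt_min hε₁ hε₂,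
    fun x z hx hz hne hr => ⟨?_, ?_⟩⟩
  · by_contra hcon
    push Not at hcon
    refine h₁ x z T₁ hx hz hne hT₁ (min_le_left _ _)
      (hr.trans ((min_le_right _ _).trans (min_le_left _ _)))
      (c₁ x z hx hz hne (hr.trans ((min_le_left _ _).trans (min_le_left _ _))) ?_)
    have hh := abs_le.1 (abs_nf_le (x - z) x)
    rw [hx] at hh
    exact le_trans (mul_le_mul_of_nonneg_right (by linarith [min_le_left ε₁ ε₂])
      (by linarith)) hcon
  · by_contra hcon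
    push Not at hcon
    refine h₂ x z T₂ hx hz hne hT₂ (min_le_left _ _)
      (hr.trans ((min_le_right _ _).trans (min_le_right _ _)))
      (c₂ x z hx hz hne (hr.trans ((min_le_left _ _).trans (min_le_right _ _))) ?_)
    have hh := abs_le.1 (abs_nf_le (f x - f z) (f x))
    rw [hf.norm x hx] at hh
    exact le_trans (mul_le_mul_of_nonneg_right (by linarith [min_le_right ε₁ ε₂])
      (by linarith)) hcon

end Vale.Agent.P084.Smooth
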