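import Vale.Agent.P084.Smooth.Interior
import Vale.Agent.P084.Smooth.Tangent

/-!
Vanishing of the radial defect, the homogeneous extension, and the Mazur-Ulam property of spaces
whose squared norm has a uniform second-order expansion with uniformly positive second term.
-/

open Set Metric

set_option linter.unusedSectionVars false

namespace Vale.Agent.P084.Smooth

variable {X Y : Type*} [NormedAddCommGroup X] [NormedSpace ℝ X]
  [NormedAddCommGroup Y] [NormedSpace ℝ Y] {c C : ℝ}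

lemma norm_nrm_sub_le {a b : X} (ha : a ≠ 0) (hb : b ≠ 0) :
    ‖nrm a - nrm b‖ * ‖a‖ ≤ 2 * ‖a - b‖ := by
  have e : ‖a‖ • (nrm a - nrm b) = (a - b) + (‖b‖ - ‖a‖) • nrm b := by
    rw [smul_sub, sub_smul, smul_nrm, smul_nrm]; abel
  have h := congrArg (fun v : X => ‖v‖) e
  simp only [norm_smul, norm_norm] at h
  rw [mul_comm, h]
  refine (norm_add_le _ _).trans ?_
  rw [norm_smul, norm_nrm hb, mul_one, Real.norm_eq_abs]
  have := abs_norm_sub_norm_le b a
  rw [norm_sub_rev b a] at this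
  linarith

lemma nrm_smul {t : ℝ} (ht : 0 < t) (v : X) : nrm (t • v) = nrm v := by
  rw [nrm, nrm, norm_smul, Real.norm_of_nonneg ht.le, smul_smul]
  congr 1
  field_simp

/-- The homogeneous extension. -/
noncomputable def ext (f : X → Y) (v : X) : Y := ‖v‖ • f (nrm v)

lemma ext_smul (f : X → Y) {t : ℝ} (ht : 0 ≤ t) (v : X) : ext f (t • v) = t • ext f v := by
  rcases ht.eq_or_lt with rfl | ht
  · simp [ext]
  · rw [ext, ext, nrm_smul ht, norm_smul, Real.norm_of_nonneg ht.le, smul_smul]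

lemma ext_unit (f : X → Y) {x : X} (hx : ‖x‖ = 1) : ext f x = f x := by simp [ext, nrm, hx]

variable {D : X → X → ℝ} {f : X → Y} {g : Y → X} (hX : Mod X c C) (hY : Mod Y c C)
  (hf : Iso f g)

include hX hY hf

lemma norm_ext (v : X) : ‖ext f v‖ = ‖v‖ := by
  rcases eq_or_ne v 0 with rfl | hv
  · simp [ext]
  · rw [ext, norm_smul, hf.norm _ (norm_nrm hv), norm_norm, mul_one]

lemma ext_left (v : X) : ext g (ext f v) = v := by
  rcases eq_or_ne v 0 with rfl | hv
  · simp [ext]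
  · have hn := norm_pos_iff.2 hv
    rw [show ext f v = ‖v‖ • f (nrm v) from rfl, ext_smul g hn.le, ext_unit g (hf.norm _ (norm_nrm hv)),
      hf.left _ (norm_nrm hv), smul_nrm]

lemma improve (hD : Sec D) {M : ℝ} (hM : 0 < M) (hM1 : M ≤ 1) (hB : Bd f M) (hB' : Bd g M) :
    ∃ ε : ℝ, 0 < ε ∧ ε ≤ M ∧ Bd f (M - ε) ∧ Bd g (M - ε) := by
  have hc := hX.c_pos
  obtain ⟨A, δ, hA, hδ, hanti⟩ := antipodal hX hY hf
  obtain ⟨r₀, ε₀, hr₀, hε₀, htan⟩ := tangent_excluded hX hY hf hD hM hM1 hB hB'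
  set s₀ := min δ (M * c / (64 * (A + 1)))
  have hs₀ : 0 < s₀ := lt_min hδ (by positivity)
  set ρ := min r₀ s₀
  have hρ : 0 < ρ := lt_min hr₀ hs₀
  obtain ⟨ε₁, hε₁, hint⟩ := interior_excluded hX hY hf hM hM1 hB hB' hρ
  obtain ⟨ε₂, hε₂, hint'⟩ := interior_excluded hY hX hf.symm hM hM1 hB' hB hρ
  set ε := min (min ε₀ (M / 2)) (min ε₁ ε₂)
  have e0 : ε ≤ ε₀ := (min_le_left _ _).trans (min_le_left _ _)
  have eM : ε ≤ M / 2 := (min_le_left _ _).trans (min_le_right _ _)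
  have e1 : ε ≤ ε₁ := (min_le_right _ _).trans (min_le_left _ _)
  have e2 : ε ≤ ε₂ := (min_le_right _ _).trans (min_le_right _ _)
  have hmono : ∀ {ε' u a : ℝ}, ε ≤ ε' → 0 ≤ a → u < (M - ε') * a → u ≤ (M - ε) * a :=
    fun he ha hu => hu.le.trans (mul_le_mul_of_nonneg_right (by linarith) ha)
  have hsmall : ∀ x z : X, ‖x‖ = 1 → ‖z‖ = 1 → x ≠ z → ‖x + z‖ ≤ ρ →
      nf (f x - f z) (f x) - nf (x - z) x ≤ (M - ε) * (1 - nf (x - z) x) ∧
      nf (x - z) x - nf (f x - f z) (f x) ≤ (M - ε) * (1 - nf (f x - f z) (f x)) := by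
    intro x z hx hz hne hs
    have g1 := (abs_le.1 (abs_nf_le (x - z) x)).2
    have g2 := (abs_le.1 (abs_nf_le (f x - f z) (f x))).2
    rw [hx] at g1
    rw [hf.norm x hx] at g2
    rcases eq_or_ne (x + z) 0 with h0 | h0
    · have e : z = -x := eq_neg_of_add_eq_zero_right h0
      have a1 : nf (x - z) x = 1 := by
        rw [e, sub_neg_eq_add, ← two_smul ℝ x,
          hX.nf_smul (fun h => by simp [h] at hx) two_pos, nf_self, hx]
      have a2 : nf (f x - f z) (f x) = 1 := by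
        rw [e, hf.odd x hx, sub_neg_eq_add, ← two_smul ℝ (f x),
          hY.nf_smul (fun h => by have := hf.norm x hx; simp [h] at this) two_pos, nf_self,
          hf.norm x hx]
      simp [a1, a2]
    · obtain ⟨a1, a2⟩ := hanti x z hx hz hne (norm_pos_iff.2 h0)
        ((hs.trans (min_le_right _ _)).trans (min_le_left _ _))
      have hsA : ‖x + z‖ * (64 * (A + 1)) ≤ M * c := (le_div_iff₀ (by positivity)).1
        ((hs.trans (min_le_right _ _)).trans (min_le_right _ _))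
      have k1 := mul_le_mul_of_nonneg_right hsA (sq_nonneg ‖x + z‖)
      have k2 : 0 ≤ ‖x + z‖ * ‖x + z‖ ^ 2 := by positivity
      have k3 : M * c * ‖x + z‖ ^ 2 ≤ 1 * c * ‖x + z‖ ^ 2 := by gcongr
      obtain ⟨a1l, a1r⟩ := abs_le.1 a1
      have k6 : 0 ≤ c * ‖x + z‖ ^ 2 := mul_nonneg hc.le (sq_nonneg _)
      have k4 : M / 2 * (c / 32 * ‖x + z‖ ^ 2) ≤ (M - ε) * (1 - nf (x - z) x) :=
        mul_le_mul (by linarith) (by linarith) (by positivity) (by linarith)
      have k5 : M / 2 * (c / 32 * ‖x + z‖ ^ 2) ≤ (M - ε) * (1 - nf (f x - f z) (f x)) :=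
        mul_le_mul (by linarith) (by linarith) (by positivity) (by linarith)
      constructor <;> linarith
  refine ⟨ε, lt_min (lt_min hε₀ (half_pos hM)) (lt_min hε₁ hε₂), by linarith, ?_, ?_⟩
  · intro x z hx hz hne
    have g1 := (abs_le.1 (abs_nf_le (x - z) x)).2
    rw [hx] at g1
    rcases le_or_gt ‖x + z‖ ρ with hs | hs
    · exact (hsmall x z hx hz hne hs).1
    rcases le_or_gt ‖x - z‖ ρ with hr | hr
    · exact hmono e0 (by linarith) (htan x z hx hz hne (hr.trans (min_le_left _ _))).1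
    · exact hmono e1 (by linarith) (hint x z hx hz hr.le hs.le)
  · intro y w hy hw hne
    have g1 := (abs_le.1 (abs_nf_le (y - w) y)).2
    rw [hy] at g1
    have hx := hf.norm' y hy
    have hz := hf.norm' w hw
    have hne' : g y ≠ g w := hf.symm.ne hy hw hne
    rcases le_or_gt ‖y + w‖ ρ with hs | hs
    · have h := (hsmall (g y) (g w) hx hz hne' (by rwa [hf.symm.sum hy hw])).2
      rwa [hf.right y hy, hf.right w hw] at h
    rcases le_or_gt ‖y - w‖ ρ with hr | hr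
    · have h := (htan (g y) (g w) hx hz hne'
        (by rw [hf.dist' hy hw]; exact hr.trans (min_le_left _ _))).2
      rw [hf.right y hy, hf.right w hw] at h
      exact hmono e0 (by linarith) h
    · exact hmono e2 (by linarith) (hint' y w hy hw hr.le hs.le)

/-- The radial defect vanishes. -/
theorem bd_zero (hD : Sec D) : Bd f 0 ∧ Bd g 0 := by
  set S : Set ℝ := {M | 0 ≤ M ∧ M ≤ 1 ∧ Bd f M ∧ Bd g M}
  have h1 : (1 : ℝ) ∈ S := by
    refine ⟨zero_le_one, le_rfl, fun x z hx hz hne => ?_, fun y w hy hw hne => ?_⟩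
    · have := nf_le (f x - f z) (f x)
      rw [hf.norm x hx] at this
      linarith
    · have := nf_le (g y - g w) (g y)
      rw [hf.norm' y hy] at this
      linarith
  have hbdd : BddBelow S := ⟨0, fun M hM => hM.1⟩
  set M₀ := sInf S
  have hM0 : 0 ≤ M₀ := le_csInf ⟨1, h1⟩ fun M hM => hM.1
  have hM1 : M₀ ≤ 1 := csInf_le hbdd h1
  have hclosed : ∀ u a : ℝ, 0 ≤ a → (∀ M ∈ S, u ≤ M * a) → u ≤ M₀ * a := by
    intro u a ha h
    refine le_of_forall_pos_le_add fun ε hε => ?_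
    obtain ⟨M, hM, hlt⟩ := exists_lt_of_csInf_lt ⟨1, h1⟩
      (show M₀ < M₀ + ε / (a + 1) by linarith [show 0 < ε / (a + 1) by positivity])
    refine (h M hM).trans ((mul_le_mul_of_nonneg_right hlt.le ha).trans ?_)
    rw [add_mul]
    gcongr
    rw [div_mul_eq_mul_div, div_le_iff₀ (by positivity)]
    linarith [mul_nonneg hε.le ha]
  have hB : Bd f M₀ := fun x z hx hz hne => hclosed _ _ (by
    have := nf_le (x - z) x; rw [hx] at this; linarith) fun M hM => hM.2.2.1 x z hx hz hne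
  have hB' : Bd g M₀ := fun y w hy hw hne => hclosed _ _ (by
    have := nf_le (y - w) y; rw [hy] at this; linarith) fun M hM => hM.2.2.2 y w hy hw hne
  rcases hM0.eq_or_lt with h | h
  · rw [← h] at hB hB'; exact ⟨hB, hB'⟩
  · obtain ⟨ε, hε, hεM, b1, b2⟩ := improve hX hY hf hD h hM1 hB hB'
    have : M₀ ≤ M₀ - ε := csInf_le hbdd ⟨by linarith, by linarith, b1, b2⟩
    linarith

/-- The extension is nearly short on small steps from the sphere. -/
lemma radial_step (hB : Bd f 0) {ε : ℝ} (hε : 0 < ε) :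
    ∃ δ : ℝ, 0 < δ ∧ ∀ x h : X, ‖x‖ = 1 → ‖h‖ ≤ δ →
      ‖ext f (x + h) - f x‖ ≤ (1 + ε) * ‖h‖ := by
  have hC := hX.one_le
  set e := min (ε / 8) 1
  have he : 0 < e := lt_min (by positivity) one_pos
  have he1 : e ≤ 1 := min_le_right _ _
  have he8 : e ≤ ε / 8 := min_le_left _ _
  refine ⟨e * e / (1000000 * C ^ 2), by positivity, fun x h hx hh => ?_⟩
  rw [le_div_iff₀ (by positivity)] at hh
  rcases eq_or_ne h 0 with rfl | h0
  · simp [ext_unit f hx]
  set t := ‖h‖ with ht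
  have htpos : 0 < t := norm_pos_iff.2 h0
  have hCC : C ≤ C ^ 2 := le_self_pow₀ hC two_ne_zero
  have htC : t * (1000000 * C) ≤ e * e :=
    le_trans (by gcongr) hh
  have hee : e * e ≤ e := mul_le_of_le_one_left he.le he1
  have ht1 : t ≤ 1 / 1000000 := by
    linarith [mul_le_mul_of_nonneg_left hC (show 0 ≤ 1000000 * t by positivity)]
  set l := nf x h / t with hl
  have hlt : t * l = nf x h := mul_div_cancel₀ _ htpos.ne'
  have hl1 : |l| ≤ 1 := by
    rw [abs_div, abs_of_pos htpos, div_le_one htpos]; exact abs_nf_le x h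
  obtain ⟨hla, hlb⟩ := abs_le.1 hl1
  set q := t⁻¹ • h - l • x with hq
  have hqflat : nf x q = 0 := by
    simp only [hq, map_sub, map_smul, nf_self, hx, smul_eq_mul, mul_one, hl]
    ring
  have hqx : q + l • x = t⁻¹ • h := sub_add_cancel _ _
  have hth : ‖t⁻¹ • h‖ = 1 := by
    rw [norm_smul, norm_inv, Real.norm_of_nonneg htpos.le, ← ht, inv_mul_cancel₀ htpos.ne']
  have hq2 : ‖q‖ ≤ 2 := by
    refine (norm_sub_le _ _).trans ?_
    rw [hth, norm_smul, hx, mul_one, Real.norm_eq_abs]; linarith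
  have hηe : 2000 * C * t ≤ e / 4 := by linarith
  have hTan := tan_quot hX hY hf hx hqflat (hq2.trans (by norm_num)) htpos (by linarith)
  set v₁ := x + t • q with hv₁
  set w := t⁻¹ • (f (nrm v₁) - f x) with hw
  have hmain : ‖w + l • f x‖ ≤ 1 + ε / 2 := by
    have hdiv : ∀ a : ℝ, e ≤ a → 20 * C / a * (2000 * C * t) ≤ e := fun a ha => by
      rw [div_mul_eq_mul_div, div_le_iff₀ (he.trans_le ha)]
      calc 20 * C * (2000 * C * t) ≤ t * (1000000 * C ^ 2) := by
            linarith [show 0 ≤ t * C ^ 2 by positivity]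
        _ ≤ e * e := hh
        _ ≤ e * a := by gcongr
    rcases le_or_gt |l| e with hle | hle
    · refine (norm_add_le _ _).trans ?_
      rw [norm_smul l (f x), hf.norm x hx, mul_one, Real.norm_eq_abs]
      have : ‖q‖ ≤ 1 + |l| := by
        refine (norm_sub_le _ _).trans ?_
        rw [hth, norm_smul, hx, mul_one, Real.norm_eq_abs]
      linarith [hTan.len]
    · rcases lt_abs.1 hle with hpos | hneg
      · have h5 := norm_tan_le hX hY hf hB hx hTan (hq2.trans (by norm_num)) (he.trans hpos)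
          (by linarith) (by linarith)
        rw [sub_zero, one_mul, hqx, hth, zero_mul, add_zero] at h5
        linarith [hdiv l hpos.le]
      · have h5 := norm_tan_le hX hY hf hB hx hTan.neg (show ‖-q‖ ≤ 5 by rw [norm_neg]; linarith)
          (show 0 < -l by linarith) (by linarith) (by linarith)
        rw [sub_zero, one_mul, show -q + -l • x = -(q + l • x) by module, norm_neg, hqx, hth,
          zero_mul, add_zero, show -w + -l • f x = -(w + l • f x) by module, norm_neg] at h5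
        linarith [hdiv (-l) hneg.le]
  -- the remaining error is of second order
  have hn1 : |‖x + h‖ - (1 + t * l)| ≤ 16 * C * t ^ 2 := by
    have u1 := hX.norm_add_le_unit hx h
    have u2 := nf_le x (x + h)
    rw [map_add, nf_self, hx] at u2
    rw [hlt, abs_le]
    constructor <;> linarith [show 0 ≤ C * t ^ 2 by positivity]
  have hlt1 : |t * l| ≤ t := by
    rw [abs_mul, abs_of_pos htpos]; exact mul_le_of_le_one_right htpos.le hl1
  obtain ⟨hl3, hl4⟩ := abs_le.1 hlt1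
  have hxh : 3 / 4 ≤ ‖x + h‖ := by
    have := norm_sub_le (x + h) h
    rw [add_sub_cancel_right, hx] at this
    linarith
  have hxh0 : x + h ≠ 0 := fun h' => by rw [h', norm_zero] at hxh; linarith
  have hv1n : v₁ ≠ 0 := fun h' => by
    have := congrArg (nf x) h'
    simp [hv₁, nf_self, hx, hqflat] at this
  set y := nrm (x + h) with hy
  set y' := nrm v₁ with hy'
  have hyn : ‖y‖ = 1 := norm_nrm hxh0
  have hy'n : ‖y'‖ = 1 := norm_nrm hv1n
  have hyy : ‖y - y'‖ ≤ 6 * t ^ 2 := by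
    have hsc : (0 : ℝ) < 1 + t * l := by linarith
    have h6 := norm_nrm_sub_le hxh0 (smul_ne_zero hsc.ne' hv1n)
    rw [nrm_smul hsc, ← hy, ← hy'] at h6
    have e2 : t • q = h - (t * l) • x := by
      rw [hq, smul_sub, smul_smul, smul_smul, mul_inv_cancel₀ htpos.ne', one_smul]
    have e1 : x + h - (1 + t * l) • v₁ = -((t * l * t) • q) := by
      rw [hv₁, mul_smul _ t q, e2]; module
    rw [e1, norm_neg, norm_smul, Real.norm_eq_abs, abs_mul, abs_of_pos htpos] at h6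
    have h7 : |t * l| * t * ‖q‖ ≤ t * t * 2 := by gcongr
    have h8 := mul_le_mul_of_nonneg_left hxh (norm_nonneg (y - y'))
    linarith [sq_nonneg t]
  have hyx : ‖y - x‖ ≤ 3 * t := by
    have h6 := norm_nrm_sub_le hxh0 (show x ≠ 0 from fun h' => by simp [h'] at hx)
    rw [add_sub_cancel_left, show nrm x = x by simp [nrm, hx], ← hy, ← ht] at h6
    have h8 := mul_le_mul_of_nonneg_left hxh (norm_nonneg (y - x))
    linarith
  have hdec : ext f (x + h) - f x = t • (w + l • f x) + ((‖x + h‖ - (1 + t * l)) • f y +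
      (f y - f y') + (t * l) • (f y - f x)) := by
    rw [ext, ← hy, smul_add, hw, smul_smul t t⁻¹, mul_inv_cancel₀ htpos.ne', one_smul]
    module
  rw [hdec]
  refine (norm_add_le _ _).trans ((add_le_add le_rfl norm_add₃_le).trans ?_)
  rw [norm_smul, norm_smul, norm_smul, Real.norm_of_nonneg htpos.le, Real.norm_eq_abs,
    Real.norm_eq_abs, hf.norm y hyn, hf.dist y y' hyn hy'n, hf.dist y x hyn hx, mul_one]
  have a1 := mul_le_mul_of_nonneg_left hmain htpos.le
  have a2 : |t * l| * ‖y - x‖ ≤ t * (3 * t) :=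
    mul_le_mul hlt1 hyx (norm_nonneg _) htpos.le
  have a3 := mul_le_mul_of_nonneg_left hC (sq_nonneg t)
  have a4 := mul_le_mul_of_nonneg_left (htC.trans hee) htpos.le
  have a5 := mul_le_mul_of_nonneg_left he8 htpos.le
  linarith [mul_pos htpos hε]

/-- The extension does not increase distances. -/
lemma ext_lipschitz (hB : Bd f 0) (a b : X) : ‖ext f a - ext f b‖ ≤ ‖a - b‖ := by
  by_cases h0 : ∃ s ∈ Icc (0 : ℝ) 1, a + s • (b - a) = 0
  · obtain ⟨s, ⟨hs0, hs1⟩, hs⟩ := h0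
    refine (norm_sub_le _ _).trans ?_
    rw [norm_ext hX hY hf, norm_ext hX hY hf]
    have ea : a = s • (a - b) := by
      calc a = (a + s • (b - a)) + s • (a - b) := by module
        _ = _ := by rw [hs, zero_add]
    have eb : b = (1 - s) • -(a - b) := by
      calc b = b - (a + s • (b - a)) := by rw [hs, sub_zero]
        _ = _ := by module
    have n1 := congrArg (fun v : X => ‖v‖) ea
    have n2 := congrArg (fun v : X => ‖v‖) eb
    simp only [norm_smul, norm_neg, Real.norm_eq_abs, abs_of_nonneg hs0,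
      abs_of_nonneg (sub_nonneg.2 hs1)] at n1 n2
    linarith
  push Not at h0
  obtain ⟨s₀, hs₀, hmin⟩ := isCompact_Icc.exists_isMinOn
    (f := fun s : ℝ => ‖a + s • (b - a)‖) (nonempty_Icc.2 zero_le_one)
    (by fun_prop)
  have hm : 0 < ‖a + s₀ • (b - a)‖ := norm_pos_iff.2 (h0 s₀ hs₀)
  set m := ‖a + s₀ • (b - a)‖
  refine le_of_forall_pos_le_add fun ε hε => ?_
  have hε' : 0 < ε / (‖a - b‖ + 1) := by positivity
  obtain ⟨δ, hδ, hstep⟩ := radial_step hX hY hf hB hε'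
  obtain ⟨N, hN⟩ := exists_nat_gt (‖a - b‖ / (δ * m))
  have hN0 : (0 : ℝ) < N := lt_of_le_of_lt (by positivity) hN
  have hNs : (N : ℝ)⁻¹ * ‖a - b‖ ≤ δ * m := by
    rw [inv_mul_le_iff₀ hN0]
    rw [div_lt_iff₀ (by positivity)] at hN
    linarith
  set γ : ℕ → X := fun i => a + ((i : ℝ) / N) • (b - a) with hγ
  have hind : ∀ i : ℕ, i ≤ N → ‖ext f (γ i) - ext f a‖ ≤
      (i : ℝ) / N * ((1 + ε / (‖a - b‖ + 1)) * ‖a - b‖) := by
    intro i
    induction i with
    | zero => intro _; simp [hγ]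
    | succ i ih =>
      intro hi
      have hih := ih (Nat.le_of_succ_le hi)
      have hv : m ≤ ‖γ i‖ := hmin
        (show (i : ℝ) / N ∈ Icc (0 : ℝ) 1 from ⟨by positivity, (div_le_one hN0).2
          (by exact_mod_cast Nat.le_of_succ_le hi)⟩)
      have hv0 : 0 < ‖γ i‖ := hm.trans_le hv
      set k := (‖γ i‖)⁻¹ • ((N : ℝ)⁻¹ • (b - a)) with hk
      have hnext : γ (i + 1) = ‖γ i‖ • (nrm (γ i) + k) := by
        rw [smul_add, smul_nrm, hk, smul_smul, mul_inv_cancel₀ hv0.ne', one_smul]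
        simp only [hγ, Nat.cast_succ, add_div, add_smul, one_div]
        abel
      have hkn : ‖γ i‖ * ‖k‖ = (N : ℝ)⁻¹ * ‖a - b‖ := by
        rw [hk, norm_smul, norm_inv, norm_norm, ← mul_assoc, mul_inv_cancel₀ hv0.ne', one_mul,
          norm_smul, norm_inv, RCLike.norm_natCast, norm_sub_rev]
      have hkδ : ‖k‖ ≤ δ := by
        refine le_of_mul_le_mul_left ?_ hv0
        rw [hkn]
        exact hNs.trans ((mul_le_mul_of_nonneg_left hv hδ.le).trans_eq (mul_comm _ _))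
      have h1 := hstep (nrm (γ i)) k (norm_nrm (norm_pos_iff.1 hv0)) hkδ
      have h2 := mul_le_mul_of_nonneg_left h1 hv0.le
      have e : ‖γ i‖ * ‖ext f (nrm (γ i) + k) - f (nrm (γ i))‖ =
          ‖ext f (γ (i + 1)) - ext f (γ i)‖ := by
        rw [hnext, ext_smul f hv0.le, show ext f (γ i) = ‖γ i‖ • f (nrm (γ i)) from rfl,
          ← smul_sub, norm_smul, norm_norm]
      rw [e, mul_left_comm, hkn] at h2
      have h3 := norm_sub_le_norm_sub_add_norm_sub (ext f (γ (i + 1))) (ext f (γ i)) (ext f a)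
      rw [Nat.cast_succ, add_div, add_mul, one_div]
      linarith
  have h := hind N le_rfl
  rw [show γ N = b by simp [hγ, div_self hN0.ne'], div_self hN0.ne', one_mul, add_mul, one_mul,
    norm_sub_rev] at h
  refine h.trans (add_le_add le_rfl ?_)
  rw [div_mul_eq_mul_div, div_le_iff₀ (by positivity)]
  linarith [mul_nonneg hε.le (norm_nonneg (a - b))]

/-- The isometry extends linearly. -/
theorem exists_extension (hD : Sec D) :
    ∃ T : X ≃ₗᵢ[ℝ] Y, ∀ x, ‖x‖ = 1 → T x = f x := by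
  obtain ⟨hB, hB'⟩ := bd_zero hX hY hf hD
  have hdist : Isometry (ext f) := Isometry.of_dist_eq fun a b => by
    rw [dist_eq_norm, dist_eq_norm]
    refine le_antisymm (ext_lipschitz hX hY hf hB a b) ?_
    conv_lhs => rw [← ext_left hX hY hf a, ← ext_left hX hY hf b]
    exact ext_lipschitz hY hX hf.symm hB' _ _
  let e : X ≃ᵢ Y :=
    ⟨⟨ext f, ext g, ext_left hX hY hf, ext_left hY hX hf.symm⟩, hdist⟩
  refine ⟨e.toRealLinearIsometryEquivOfMapZero (by simp [e, ext]), fun x hx => ?_⟩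
  rw [IsometryEquiv.coe_toRealLinearIsometryEquivOfMapZero]
  exact ext_unit f hx

omit hX hY hf in
/-- Uniform second-order expansions with positive second term give quadratic moduli. -/
lemma mod_of_expansion {J : X → X →L[ℝ] ℝ} {Q : X → X →L[ℝ] X →L[ℝ] ℝ} (hc : 0 < c)
    (hpos : ∀ p : X, ‖p‖ = 1 → ∀ h, c * ‖h‖ ^ 2 ≤ Q p h h)
    (hexp : ∀ ε : ℝ, 0 < ε → ∃ δ : ℝ, 0 < δ ∧ ∀ p h : X, ‖p‖ = 1 → ‖h‖ ≤ δ →
      |‖p + h‖ ^ 2 - 1 - J p h - Q p h h| ≤ ε * ‖h‖ ^ 2) :
    (∀ p : X, ‖p‖ = 1 → ∀ h, J p h = 2 * nf p h) ∧ ∃ c' C', Mod X c' C' := by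
  have hline : ∀ p h : X, ‖p‖ = 1 → ∀ s : ℝ,
      Q p (s • h) (s • h) = s ^ 2 * Q p h h := fun p h _ s => by
    simp only [map_smul, ContinuousLinearMap.smul_apply, smul_eq_mul]; ring
  have hJ : ∀ p : X, ‖p‖ = 1 → ∀ h, J p h = 2 * nf p h := by
    intro p hp
    suffices key : ∀ h, 2 * nf p h ≤ J p h by
      intro h
      refine le_antisymm ?_ (key h)
      have := key (-h)
      simp only [map_neg, mul_neg] at this
      linarith
    intro h
    obtain ⟨δ, hδ, he⟩ := hexp 1 one_pos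
    refine le_of_forall_pos_le_add fun η hη => ?_
    set K := |Q p h h| + ‖h‖ ^ 2 + 1
    have hK : 0 < K := by positivity
    set s := min (η / K) (min (1 / (‖h‖ + 1)) (δ / (‖h‖ + 1)))
    have hs : 0 < s := lt_min (by positivity) (lt_min (by positivity) (by positivity))
    have hs1 : s * K ≤ η := (le_div_iff₀ hK).1 (min_le_left _ _)
    have hs2 : s * (‖h‖ + 1) ≤ 1 :=
      (le_div_iff₀ (by positivity)).1 ((min_le_right _ _).trans (min_le_left _ _))
    have hs3 : s * (‖h‖ + 1) ≤ δ :=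
      (le_div_iff₀ (by positivity)).1 ((min_le_right _ _).trans (min_le_right _ _))
    have e := (abs_le.1 (he p (s • h) hp (by
      rw [norm_smul, Real.norm_of_nonneg hs.le]; linarith))).2
    rw [hline p h hp, map_smul, smul_eq_mul, norm_smul, Real.norm_of_nonneg hs.le] at e
    have hn := nf_le p (p + s • h)
    rw [map_add, map_smul, nf_self, hp, smul_eq_mul] at hn
    have hpos1 : 0 ≤ 1 + s * nf p h := by
      have := mul_le_mul_of_nonneg_left (abs_nf_le p h) hs.le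
      linarith [mul_le_mul_of_nonneg_left (neg_abs_le (nf p h)) hs.le]
    have hsq := pow_le_pow_left₀ hpos1 hn 2
    refine le_of_mul_le_mul_left ?_ hs
    linarith [mul_le_mul_of_nonneg_left hs1 hs.le,
      mul_le_mul_of_nonneg_left (le_abs_self (Q p h h)) (sq_nonneg s),
      sq_nonneg (s * nf p h), sq_nonneg s]
  refine ⟨hJ, ?_⟩
  obtain ⟨δ₁, hδ₁, he₁⟩ := hexp (c / 2) (half_pos hc)
  set δ := min δ₁ 1
  have hδ : 0 < δ := lt_min hδ₁ one_pos
  have hδ1 : δ ≤ 1 := min_le_right _ _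
  set K := 6 / δ + c / 2
  have hQ : ∀ p : X, ‖p‖ = 1 → ∀ h, Q p h h ≤ K * ‖h‖ ^ 2 := by
    intro p hp h
    rcases eq_or_ne h 0 with rfl | h0
    · simp
    have hh : 0 < ‖h‖ := norm_pos_iff.2 h0
    set s := δ / ‖h‖
    have hs : 0 < s := by positivity
    have hn : ‖s • h‖ = δ := by
      rw [norm_smul, Real.norm_of_nonneg hs.le, div_mul_cancel₀ _ hh.ne']
    have e := (abs_le.1 (he₁ p (s • h) hp (by rw [hn]; exact min_le_left _ _))).1
    rw [hline p h hp, hn, map_smul, hJ p hp, smul_eq_mul] at e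
    have h1 : ‖p + s • h‖ ≤ 1 + δ := (norm_add_le _ _).trans (by rw [hp, hn])
    have h2 : -δ ≤ s * nf p h := by
      have := abs_le.1 (abs_nf_le p (s • h))
      rw [map_smul, smul_eq_mul, hn] at this
      linarith
    have h3 : ‖p + s • h‖ ^ 2 ≤ (1 + δ) ^ 2 := pow_le_pow_left₀ (norm_nonneg _) h1 2
    have h4 : δ * δ ≤ δ := mul_le_of_le_one_left hδ.le hδ1
    refine le_of_mul_le_mul_left ?_ (pow_pos hs 2)
    have e2 : s ^ 2 * (K * ‖h‖ ^ 2) = 6 * δ + c / 2 * δ ^ 2 := by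
      simp only [K, s]; field_simp
    linarith
  refine ⟨c / 8 * δ, K + 2 / δ + c, by positivity, ?_, fun p q hp hq => ?_, fun p q hp hq => ?_⟩
  · have h6 : 1 ≤ 6 / δ := (one_le_div hδ).2 (by linarith)
    simp only [K]
    linarith [show 0 ≤ 2 / δ by positivity]
  · set h := q - p with hh
    rw [norm_sub_rev, ← hh, show p - q = -h from (neg_sub q p).symm, map_neg]
    have hh2 : ‖h‖ ≤ 2 := by linarith [norm_sub_le q p]
    rcases le_or_gt ‖h‖ δ with hb | hb
    · have e := (abs_le.1 (he₁ p h hp (hb.trans (min_le_left _ _)))).1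
      rw [hJ p hp, hh, add_sub_cancel, hq, ← hh] at e
      have := hpos p hp h
      linarith [mul_le_mul_of_nonneg_left hδ1 (show 0 ≤ c / 8 * ‖h‖ ^ 2 by positivity),
        show 0 ≤ c * ‖h‖ ^ 2 by positivity]
    · set s := δ / ‖h‖
      have hh0 : 0 < ‖h‖ := hδ.trans hb
      have hs : 0 < s := by positivity
      have hs1 : s ≤ 1 := (div_le_one hh0).2 hb.le
      have hn : ‖s • h‖ = δ := by
        rw [norm_smul, Real.norm_of_nonneg hs.le, div_mul_cancel₀ _ hh0.ne']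
      have e := (abs_le.1 (he₁ p (s • h) hp (by rw [hn]; exact min_le_left _ _))).1
      rw [hline p h hp, hn, map_smul, hJ p hp, smul_eq_mul] at e
      have h1 : ‖p + s • h‖ ≤ 1 := by
        rw [show p + s • h = (1 - s) • p + s • q by rw [hh]; module]
        refine (norm_add_le _ _).trans ?_
        rw [norm_smul, norm_smul, hp, hq, Real.norm_of_nonneg (by linarith : 0 ≤ 1 - s),
          Real.norm_of_nonneg hs.le]
        linarith
      have h2 : ‖p + s • h‖ ^ 2 ≤ 1 := pow_le_one₀ (norm_nonneg _) h1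
      have h3 := mul_le_mul_of_nonneg_left (hpos p hp h) (sq_nonneg s)
      have hsn : s * ‖h‖ = δ := div_mul_cancel₀ _ hh0.ne'
      have h4 : s ^ 2 * (c * ‖h‖ ^ 2) = c * δ ^ 2 := by rw [← hsn]; ring
      refine le_of_mul_le_mul_left ?_ hs
      have h5 : s * (c / 8 * δ * ‖h‖ ^ 2) = c / 8 * δ ^ 2 * ‖h‖ := by rw [← hsn]; ring
      rw [h5]
      linarith [mul_le_mul_of_nonneg_left hh2 (show 0 ≤ c / 8 * δ ^ 2 by positivity)]
  · set h := q - p with hh
    rw [norm_sub_rev, ← hh, show p - q = -h from (neg_sub q p).symm, map_neg]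
    rcases le_or_gt ‖h‖ δ with hb | hb
    · have e := (abs_le.1 (he₁ p h hp (hb.trans (min_le_left _ _)))).2
      rw [hJ p hp, hh, add_sub_cancel, hq, ← hh] at e
      have := hQ p hp h
      linarith [show 0 ≤ K * ‖h‖ ^ 2 by positivity, show 0 ≤ 2 / δ * ‖h‖ ^ 2 by positivity,
        show 0 ≤ c * ‖h‖ ^ 2 by positivity]
    · have h1 := neg_le_of_abs_le (abs_nf_le p h)
      have h2 : ‖h‖ ≤ 2 / δ * ‖h‖ ^ 2 := by
        rw [div_mul_eq_mul_div, le_div_iff₀ hδ]
        linarith [mul_le_mul_of_nonneg_left hb.le (norm_nonneg h), sq_nonneg ‖h‖]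
      linarith [show 0 ≤ K * ‖h‖ ^ 2 by positivity, show 0 ≤ c * ‖h‖ ^ 2 by positivity]

omit hY hf in
lemma sec_of_expansion {J : X → X →L[ℝ] ℝ} {Q : X → X →L[ℝ] X →L[ℝ] ℝ}
    (hJ : ∀ p : X, ‖p‖ = 1 → ∀ h, J p h = 2 * nf p h)
    (hexp : ∀ ε : ℝ, 0 < ε → ∃ δ : ℝ, 0 < δ ∧ ∀ p h : X, ‖p‖ = 1 → ‖h‖ ≤ δ →
      |‖p + h‖ ^ 2 - 1 - J p h - Q p h h| ≤ ε * ‖h‖ ^ 2) :
    Sec fun p h => (Q p h h - nf p h ^ 2) / 2 := by
  constructor
  · intro p h t
    simp only [map_smul, ContinuousLinearMap.smul_apply, smul_eq_mul]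
    ring
  intro ε hε
  obtain ⟨δ, hδ, he⟩ := hexp ε hε
  have hC := hX.one_le
  refine ⟨min δ (min 1 (ε / (48 * C))), lt_min hδ (lt_min one_pos (by positivity)),
    fun p h hp hh => ?_⟩
  have h2 : ‖h‖ ≤ 1 := hh.trans ((min_le_right _ _).trans (min_le_left _ _))
  have h3 : ‖h‖ * (48 * C) ≤ ε := (le_div_iff₀ (by positivity)).1
    (hh.trans ((min_le_right _ _).trans (min_le_right _ _)))
  obtain ⟨e1, e2⟩ := abs_le.1 (he p h hp (hh.trans (min_le_left _ _)))
  rw [hJ p hp] at e1 e2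
  set j := nf p h
  set m := ‖p + h‖ - 1 with hm
  have a1 := hX.norm_add_le_unit hp h
  have a2 := nf_le p (p + h)
  rw [map_add, nf_self, hp] at a2
  have a0 : 0 ≤ C * ‖h‖ ^ 2 := by positivity
  have a3 : |m - j| ≤ 16 * C * ‖h‖ ^ 2 := by
    rw [abs_le]; constructor <;> linarith
  have a4 : |m + j| ≤ 3 * ‖h‖ := by
    have b1 := abs_le.1 (abs_nf_le p h)
    have b2 := abs_le.1 (abs_norm_sub_norm_le (p + h) p)
    rw [add_sub_cancel_left, hp] at b2
    rw [abs_le]; constructor <;> linarith [norm_nonneg h]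
  have a5 : |m ^ 2 - j ^ 2| ≤ ε * ‖h‖ ^ 2 := by
    rw [show m ^ 2 - j ^ 2 = (m - j) * (m + j) by ring, abs_mul]
    calc |m - j| * |m + j| ≤ 16 * C * ‖h‖ ^ 2 * (3 * ‖h‖) := by gcongr
      _ = ‖h‖ * (48 * C) * ‖h‖ ^ 2 := by ring
      _ ≤ _ := by gcongr
  have e3 : ‖p + h‖ ^ 2 = (1 + m) ^ 2 := by rw [hm]; ring
  rw [e3] at e1 e2
  have a6 := abs_le.1 a5
  rw [abs_le]
  constructor <;> linarith [sq_nonneg ‖h‖]

omit hX hY hf in
/-- The Mazur-Ulam property for uniformly second-order smooth, uniformly convex norms. -/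
theorem mazurUlam_of_expansion {J : X → X →L[ℝ] ℝ} {Q : X → X →L[ℝ] X →L[ℝ] ℝ} (hc : 0 < c)
    (hpos : ∀ p : X, ‖p‖ = 1 → ∀ h, c * ‖h‖ ^ 2 ≤ Q p h h)
    (hexp : ∀ ε : ℝ, 0 < ε → ∃ δ : ℝ, 0 < δ ∧ ∀ p h : X, ‖p‖ = 1 → ‖h‖ ≤ δ →
      |‖p + h‖ ^ 2 - 1 - J p h - Q p h h| ≤ ε * ‖h‖ ^ 2)
    (φ : sphere (0 : X) 1 → sphere (0 : Y) 1) (hφ : Isometry φ) (hsurj : Function.Surjective φ) :
    ∃ T : X ≃ₗᵢ[ℝ] Y, ∀ x : sphere (0 : X) 1, T x = φ x := by
  classical
  obtain ⟨hJ, c₁, C₁, hX₁⟩ := mod_of_expansion hc hpos hexp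
  set e := Equiv.ofBijective φ ⟨hφ.injective, hsurj⟩
  set F : X → Y := fun u => if h : ‖u‖ = 1 then φ ⟨u, mem_sphere_zero_iff_norm.2 h⟩ else 0
    with hF
  set G : Y → X := fun v => if h : ‖v‖ = 1 then e.symm ⟨v, mem_sphere_zero_iff_norm.2 h⟩ else 0
    with hG
  have hFu : ∀ u (h : ‖u‖ = 1), F u = φ ⟨u, mem_sphere_zero_iff_norm.2 h⟩ := fun u h => dif_pos h
  have hGv : ∀ v (h : ‖v‖ = 1), G v = e.symm ⟨v, mem_sphere_zero_iff_norm.2 h⟩ :=
    fun v h => dif_pos h
  have n1 : ∀ u, ‖u‖ = 1 → ‖F u‖ = 1 := fun u h => by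
    rw [hFu u h]; exact norm_eq_of_mem_sphere _
  have n2 : ∀ v, ‖v‖ = 1 → ‖G v‖ = 1 := fun v h => by
    rw [hGv v h]; exact norm_eq_of_mem_sphere _
  have n3 : ∀ v, ‖v‖ = 1 → F (G v) = v := fun v h => by
    have := e.apply_symm_apply ⟨v, mem_sphere_zero_iff_norm.2 h⟩
    rw [hFu _ (n2 v h)]
    simp only [hGv v h, Subtype.coe_eta]
    exact congrArg Subtype.val this
  have n4 : ∀ u, ‖u‖ = 1 → G (F u) = u := fun u h => by
    rw [hGv _ (n1 u h)]
    simp only [hFu u h, Subtype.coe_eta]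
    exact congrArg Subtype.val (e.symm_apply_apply _)
  have n5 : ∀ u v, ‖u‖ = 1 → ‖v‖ = 1 → ‖F u - F v‖ = ‖u - v‖ := fun u v hu hv => by
    rw [hFu u hu, hFu v hv, ← dist_eq_norm, ← dist_eq_norm, ← Subtype.dist_eq, hφ.dist_eq]
    rfl
  have hf : Iso F G := ⟨n1, n2, n4, n3, n5, odd_of_mod hX₁ n1 n2 n3 n5⟩
  obtain ⟨c₂, C₂, hY₂⟩ := hf.transfer hX₁
  have hmin : 0 < min c₁ c₂ := lt_min hX₁.c_pos hY₂.c_pos
  have hX := hX₁.mono hmin (min_le_left _ _) (le_max_left C₁ C₂)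
  have hY := hY₂.mono hmin (min_le_right _ _) (le_max_right C₁ C₂)
  obtain ⟨T, hT⟩ := exists_extension hX hY hf (sec_of_expansion hX₁ hJ hexp)
  refine ⟨T, fun x => ?_⟩
  rw [hT x (norm_eq_of_mem_sphere x), hFu (x : X) (norm_eq_of_mem_sphere x)]

end Vale.Agent.P084.Smooth
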