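import Vale.Agent.P084.Smooth.Mod

/-!
Invariants of short chords under a sphere isometry between norms with quadratic moduli, and
approximate images of tangent vectors.
-/

open Set Filter Topology

set_option linter.unusedSectionVars false

namespace Vale.Agent.P084.Smooth

variable {X Y : Type*} [NormedAddCommGroup X] [NormedSpace ℝ X]
  [NormedAddCommGroup Y] [NormedSpace ℝ Y] {c C : ℝ}

/-- The normalised midpoint of a short chord. -/
lemma mid_hat (hX : Mod X c C) {x z : X} (hx : ‖x‖ = 1) (hz : ‖z‖ = 1) (hne : x ≠ z)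
    (hr : C * ‖x - z‖ ≤ 1 / 4) :
    1 ≤ ‖x + z‖ ∧ ‖nrm (x + z)‖ = 1 ∧
    nrm (x + z) - (2 : ℝ)⁻¹ • (x + z) = ((2 - ‖x + z‖) / 2) • nrm (x + z) ∧
    0 ≤ 2 - ‖x + z‖ ∧
    ‖nrm (x + z) - (2 : ℝ)⁻¹ • (x + z)‖ ≤ C * ‖x - z‖ ^ 2 ∧
    ‖x - nrm (x + z)‖ ≤ ‖x - z‖ / 2 + 9 * C ^ 3 * ‖x - z‖ ^ 2 ∧
    ‖nrm (x + z) - z‖ ≤ ‖x - z‖ / 2 + 9 * C ^ 3 * ‖x - z‖ ^ 2 ∧
    ‖x - nrm (x + z)‖ + ‖nrm (x + z) - z‖ ≤ ‖x - z‖ + 64 * C ^ 3 * ‖x - z‖ ^ 3 := by
  set r := ‖x - z‖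
  have hC := hX.one_le
  have hr0 : 0 < r := norm_pos_iff.2 (sub_ne_zero.2 hne)
  have hr1 : r ≤ 1 / 4 := by nlinarith
  have hs := hX.two_sub_le hx hz
  have hCr : C * r ^ 2 ≤ 1 / 4 := by nlinarith
  have hs2 : ‖x + z‖ ≤ 2 := by linarith [norm_add_le x z]
  have hs1 : 1 ≤ ‖x + z‖ := by linarith
  have hne' : x + z ≠ 0 := fun e => by rw [e, norm_zero] at hs1; linarith
  set mh := nrm (x + z) with hmh
  have hmn : ‖mh‖ = 1 := norm_nrm hne'
  have he : mh - (2 : ℝ)⁻¹ • (x + z) = ((2 - ‖x + z‖) / 2) • mh := by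
    conv_lhs => arg 2; rw [← smul_nrm (x + z)]
    rw [← hmh]; module
  have hη : ‖mh - (2 : ℝ)⁻¹ • (x + z)‖ ≤ C * r ^ 2 := by
    rw [he, norm_smul, hmn, mul_one, Real.norm_of_nonneg (by linarith)]
    nlinarith [sq_nonneg r]
  set η := mh - (2 : ℝ)⁻¹ • (x + z) with hηdef
  set v := (2 : ℝ)⁻¹ • (x - z) with hv
  have hvn : ‖v‖ = r / 2 := by rw [hv, norm_smul]; norm_num; ring
  have hv0 : v ≠ 0 := fun e => by rw [e, norm_zero] at hvn; linarith
  have h1 := hX.norm_add_le hv0 (-η)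
  have h2 := hX.norm_add_le hv0 η
  rw [show v + -η = x - mh by rw [hv, hηdef]; module, map_neg, norm_neg, hvn] at h1
  rw [show v + η = mh - z by rw [hv, hηdef]; module, hvn] at h2
  have hq : 16 * C * ‖η‖ ^ 2 / (r / 2) ≤ 32 * C ^ 3 * r ^ 3 := by
    rw [div_le_iff₀ (by linarith)]
    nlinarith [mul_le_mul_of_nonneg_left (pow_le_pow_left₀ (norm_nonneg η) hη 2) hX.C_pos.le]
  have h32 : 32 * C ^ 3 * r ^ 3 ≤ 8 * C ^ 3 * r ^ 2 := by
    nlinarith [mul_le_mul_of_nonneg_left hr1 (by positivity : 0 ≤ 32 * C ^ 3 * r ^ 2)]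
  have hn := abs_le.1 (abs_nf_le v η)
  have hC3 : C ≤ C ^ 3 := le_self_pow₀ hC (by norm_num)
  have := mul_le_mul_of_nonneg_right hC3 (sq_nonneg r)
  refine ⟨hs1, hmn, he, by linarith, hη, ?_, ?_, ?_⟩ <;> linarith

/-- A point nearly between the ends of a short chord is near its midpoint. -/
lemma near_mid (hX : Mod X c C) {x y z : X} (hne : x ≠ z) {K : ℝ}
    (hK : 0 ≤ K) (hr : K * ‖x - z‖ ≤ 1 / 2)
    (h1 : ‖x - y‖ ≤ ‖x - z‖ / 2 + K * ‖x - z‖ ^ 2) (h2 : ‖y - z‖ ≤ ‖x - z‖ / 2 + K * ‖x - z‖ ^ 2)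
    (h3 : ‖x - y‖ + ‖y - z‖ ≤ ‖x - z‖ + K * ‖x - z‖ ^ 3) :
    ‖y - (2 : ℝ)⁻¹ • (x + z)‖ ≤ (K + 4 * K / c + 1) * ‖x - z‖ ^ 2 := by
  set r := ‖x - z‖
  have hc := hX.c_pos
  have hr0 : 0 < r := norm_pos_iff.2 (sub_ne_zero.2 hne)
  have hxz : x - z ≠ 0 := sub_ne_zero.2 hne
  set p := nrm (x - z) with hp
  have hpn : ‖p‖ = 1 := norm_nrm hxz
  set u := x - y with hu
  have hnf : ∀ w, nf p w = nf (x - z) w := hX.nf_nrm hxz
  have hsum : nf p u + nf p (y - z) = r := by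
    rw [← map_add, hu, sub_add_sub_cancel, hnf, nf_self]
  have b1 := nf_le p u
  have b2 := nf_le p (y - z)
  have hd := hX.dev_le hpn u
  have hr2 : K * r ^ 2 ≤ r / 2 := by nlinarith
  have hlen : ‖u‖ ≤ r := by linarith
  have hgap : ‖u‖ - nf p u ≤ K * r ^ 3 := by linarith
  have hdev : ‖u - nf p u • p‖ ≤ (4 * K / c + 1) * r ^ 2 := by
    set D := ‖u - nf p u • p‖
    have hD : c * D ^ 2 ≤ 4 * r * (K * r ^ 3) :=
      hd.trans (mul_le_mul (by linarith) hgap (by linarith) (by positivity))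
    have hD2 : D ^ 2 ≤ 4 * K / c * (r ^ 2) ^ 2 := by
      rw [div_mul_eq_mul_div, le_div_iff₀ hc]; nlinarith
    by_contra hcon
    push Not at hcon
    have ha : 0 ≤ 4 * K / c := by positivity
    nlinarith [mul_le_mul hcon.le hcon.le (by positivity) (norm_nonneg _),
      mul_nonneg ha (sq_nonneg (r ^ 2)), mul_nonneg (mul_nonneg ha ha) (sq_nonneg (r ^ 2)),
      pow_pos hr0 4]
  have hmid : |nf p u - r / 2| ≤ K * r ^ 2 := abs_le.2 ⟨by linarith, by linarith⟩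
  have e : y - (2 : ℝ)⁻¹ • (x + z) = (r / 2 - nf p u) • p - (u - nf p u • p) := by
    have : r • p = x - z := smul_nrm _
    rw [sub_smul, show (r / 2) • p = (2 : ℝ)⁻¹ • (r • p) by rw [smul_smul]; congr 1; ring, this, hu]
    module
  rw [e]
  refine (norm_sub_le _ _).trans ?_
  rw [norm_smul, hpn, mul_one, Real.norm_eq_abs, abs_sub_comm]
  linarith

/-- The height of a point near the midpoint of a short chord. -/
lemma nf_mid (hX : Mod X c C) {x y z : X} (hx : ‖x‖ = 1) (hy : ‖y‖ = 1) (hz : ‖z‖ = 1)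
    (hne : x ≠ z) {L : ℝ} (hL : 0 ≤ L) (hr : C * ‖x - z‖ ≤ 1 / 4) (hrL : L * ‖x - z‖ ≤ 1)
    (hym : ‖y - (2 : ℝ)⁻¹ • (x + z)‖ ≤ L * ‖x - z‖ ^ 2) :
    |nf x (y - (2 : ℝ)⁻¹ • (x + z)) - (2 - ‖x + z‖) / 2| ≤
      20 * C ^ 2 * (L + C + 1) ^ 2 * ‖x - z‖ ^ 3 := by
  obtain ⟨-, hmn, he, hs0, hη, hl1, -, -⟩ := mid_hat hX hx hz hne hr
  set r := ‖x - z‖
  set mh := nrm (x + z)
  set m := (2 : ℝ)⁻¹ • (x + z)
  have hC := hX.one_le
  have hr0 : 0 < r := norm_pos_iff.2 (sub_ne_zero.2 hne)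
  have hr1 : r ≤ 1 / 4 := by nlinarith
  have hym' : ‖y - mh‖ ≤ (L + C) * r ^ 2 := by
    have := norm_sub_le_norm_sub_add_norm_sub y m mh
    rw [norm_sub_rev m mh] at this
    linarith
  have hxm : ‖x - mh‖ ≤ r := by
    have h := norm_sub_le_norm_sub_add_norm_sub x m mh
    rw [norm_sub_rev m mh, show x - m = (2 : ℝ)⁻¹ • (x - z) by simp only [m]; module,
      norm_smul] at h
    norm_num at h
    nlinarith
  have a1 := hX.high x mh hx hmn
  have a2 := nf_le x mh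
  rw [map_sub, nf_self, hx] at a1
  rw [hmn] at a2
  have a3 := hX.low mh y hmn hy
  have a4 := hX.high mh y hmn hy
  have a5 := abs_le.1 (hX.abs_nf_sub_le hx hmn (y - mh))
  have e : nf x (y - m) = nf x (y - mh) + (2 - ‖x + z‖) / 2 * nf x mh := by
    rw [← smul_eq_mul ((2 - ‖x + z‖) / 2), ← map_smul, ← he, ← map_add]
    congr 1; abel
  rw [e]
  have hP1 : ‖x - mh‖ * ‖y - mh‖ ≤ r * ((L + C) * r ^ 2) :=
    mul_le_mul hxm hym' (norm_nonneg _) hr0.le
  have hP1' := mul_le_mul_of_nonneg_left hP1 (by positivity : (0 : ℝ) ≤ 17 * C)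
  have hneg : mh - y = -(y - mh) := by abel
  rw [hneg, map_neg, norm_neg] at a3 a4
  have hsq : ‖y - mh‖ ^ 2 ≤ (L + C) ^ 2 * r ^ 4 := by
    calc ‖y - mh‖ ^ 2 ≤ ((L + C) * r ^ 2) ^ 2 := pow_le_pow_left₀ (norm_nonneg _) hym' 2
      _ = _ := by ring
  have hsq' := mul_le_mul_of_nonneg_left hsq hX.C_pos.le
  have hcq : 0 ≤ c * ‖y - mh‖ ^ 2 := mul_nonneg hX.c_pos.le (sq_nonneg _)
  have hs : (2 - ‖x + z‖) / 2 ≤ C * r ^ 2 := by
    have := hX.two_sub_le hx hz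
    nlinarith [sq_nonneg r]
  have hxm2 : ‖x - mh‖ ^ 2 ≤ r ^ 2 := pow_le_pow_left₀ (norm_nonneg _) hxm 2
  have hP2 : (2 - ‖x + z‖) / 2 * (1 - nf x mh) ≤ C * r ^ 2 * (C * r ^ 2) :=
    mul_le_mul hs (a1.trans (mul_le_mul_of_nonneg_left hxm2 hX.C_pos.le)) (by linarith)
      (by positivity)
  have hP3 : 0 ≤ (2 - ‖x + z‖) / 2 * (1 - nf x mh) := mul_nonneg (by linarith) (by linarith)
  set D := (L + C + 1) ^ 2 with hD
  have hD1 : L + C ≤ D := by nlinarith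
  have hD2 : (L + C) ^ 2 ≤ D := pow_le_pow_left₀ (by linarith) (by linarith) 2
  have hD3 : 1 ≤ D := one_le_pow₀ (by linarith)
  have hC2 : C ≤ C ^ 2 := le_self_pow₀ hC (by norm_num)
  have hr3 : 0 ≤ r ^ 3 := pow_nonneg hr0.le 3
  have q1 : 17 * C * (r * ((L + C) * r ^ 2)) ≤ 17 * (C ^ 2 * D * r ^ 3) := by
    calc 17 * C * (r * ((L + C) * r ^ 2)) = 17 * (C * (L + C) * r ^ 3) := by ring
      _ ≤ _ := by gcongr
  have q2 : C * ((L + C) ^ 2 * r ^ 4) ≤ C ^ 2 * D * r ^ 3 := by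
    calc C * ((L + C) ^ 2 * r ^ 4) = C * (L + C) ^ 2 * r ^ 3 * r := by ring
      _ ≤ C ^ 2 * D * r ^ 3 * 1 := by gcongr; linarith
      _ = _ := mul_one _
  have q3 : C * r ^ 2 * (C * r ^ 2) ≤ C ^ 2 * D * r ^ 3 := by
    calc C * r ^ 2 * (C * r ^ 2) = C ^ 2 * r * r ^ 3 := by ring
      _ ≤ _ := by gcongr; linarith
  rw [abs_le]
  constructor <;> linarith

/-- The height of a chord in terms of half of it. -/
lemma height_eq (x y z : X) :
    nf x (x - z) = 2 * nf x (x - y) + 2 * nf x (y - (2 : ℝ)⁻¹ • (x + z)) := by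
  simp only [map_sub, map_smul, map_add, smul_eq_mul]; ring

lemma third_order {a b e d s : ℝ} (ha : 0 ≤ a) (he0 : 0 ≤ e) (he : e ≤ b * s ^ 2) (hd0 : 0 ≤ d)
    (hd : d ≤ s) (hs : s ≤ 1) :
    17 * a * e * d ≤ 17 * a * b * s ^ 3 ∧ a * e ^ 2 ≤ a * b ^ 2 * s ^ 3 := by
  have hb := he0.trans he
  have hs0 := hd0.trans hd
  constructor
  · calc 17 * a * e * d ≤ 17 * a * (b * s ^ 2) * s :=
          mul_le_mul (mul_le_mul_of_nonneg_left he (by linarith)) hd hd0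
            (mul_nonneg (by linarith) hb)
      _ = _ := by ring
  · calc a * e ^ 2 ≤ a * (b * s ^ 2) ^ 2 :=
          mul_le_mul_of_nonneg_left (pow_le_pow_left₀ he0 he 2) ha
      _ = a * b ^ 2 * s ^ 3 * s := by ring
      _ ≤ a * b ^ 2 * s ^ 3 * 1 := mul_le_mul_of_nonneg_left hs (by positivity)
      _ = _ := mul_one _

section

variable {f : X → Y} {g : Y → X} (hX : Mod X c C) (hY : Mod Y c C) (hf : Iso f g)

include hX hY hf

/-- The preimage of the normalised midpoint of the image of a short chord is near the midpoint. -/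
lemma image_mid : ∃ K δ : ℝ, 1 ≤ K ∧ 0 < δ ∧ ∀ x z : X, ‖x‖ = 1 → ‖z‖ = 1 → x ≠ z →
    ‖x - z‖ ≤ δ →
    C * ‖x - z‖ ≤ 1 / 4 ∧ K * ‖x - z‖ ≤ 1 / 10 ∧ ‖nrm (f x + f z)‖ = 1 ∧
    ‖g (nrm (f x + f z)) - (2 : ℝ)⁻¹ • (x + z)‖ ≤ K * ‖x - z‖ ^ 2 ∧
    ‖x - g (nrm (f x + f z))‖ ≤ ‖x - z‖ / 2 + K * ‖x - z‖ ^ 2 := by
  set K₀ := 64 * C ^ 3
  set K := K₀ + 4 * K₀ / c + 1
  have hc := hX.c_pos
  have hC := hX.C_pos
  have hK₀ : 0 ≤ K₀ := by positivity
  have hK : 1 ≤ K := by have : 0 ≤ 4 * K₀ / c := by positivity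
                        linarith
  refine ⟨K, min (1 / (4 * C)) (1 / (10 * K)), hK, lt_min (by positivity) (by positivity),
    fun x z hx hz hne hr => ?_⟩
  have hr1 : C * ‖x - z‖ ≤ 1 / 4 := by
    have h := hr.trans (min_le_left _ _)
    rw [le_div_iff₀ (by positivity)] at h
    linarith
  have hr2 : K * ‖x - z‖ ≤ 1 / 10 := by
    have h := hr.trans (min_le_right _ _)
    rw [le_div_iff₀ (by positivity)] at h
    linarith
  obtain ⟨-, hmn, -, -, -, l1, l2, l3⟩ := mid_hat hY (hf.norm x hx) (hf.norm z hz)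
    (hf.ne hx hz hne) (by rwa [hf.dist x z hx hz])
  set mh := nrm (f x + f z)
  have hy := hf.norm' mh hmn
  rw [← hf.right mh hmn, hf.dist x _ hx hy, hf.dist _ z hy hz, hf.dist x z hx hz] at l3
  rw [← hf.right mh hmn, hf.dist x _ hx hy, hf.dist x z hx hz] at l1
  rw [← hf.right mh hmn, hf.dist _ z hy hz, hf.dist x z hx hz] at l2
  have h9 : 9 * C ^ 3 * ‖x - z‖ ^ 2 ≤ K₀ * ‖x - z‖ ^ 2 :=
    mul_le_mul_of_nonneg_right (by simp only [K₀]; nlinarith [pow_pos hC 3]) (sq_nonneg _)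
  have hKK : K₀ ≤ K := by have : 0 ≤ 4 * K₀ / c := by positivity
                          linarith
  refine ⟨hr1, hr2, hmn, near_mid hX hne hK₀ ?_ (by linarith) (by linarith) l3, ?_⟩
  · nlinarith [norm_nonneg (x - z)]
  · nlinarith [sq_nonneg ‖x - z‖]

/-- Heights of short chords are preserved to third order. -/
lemma height_invariant : ∃ A δ : ℝ, 0 ≤ A ∧ 0 < δ ∧ ∀ x z : X, ‖x‖ = 1 → ‖z‖ = 1 →
    ‖x - z‖ ≤ δ → |nf (f x) (f x - f z) - nf x (x - z)| ≤ A * ‖x - z‖ ^ 3 := by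
  obtain ⟨K, δ, hK, hδ, hmid⟩ := image_mid hX hY hf
  set B := 20 * C ^ 2 * (K + C + 1) ^ 2 with hB
  set A := 20 * B with hA
  have hC := hX.one_le
  have hB0 : 0 ≤ B := by positivity
  refine ⟨A, δ, by positivity, hδ, fun x z hx hz hr => ?_⟩
  suffices key : ∀ n : ℕ, ∀ z : X, ‖z‖ = 1 → ‖x - z‖ ≤ δ →
      |nf (f x) (f x - f z) - nf x (x - z)| ≤
        A * ‖x - z‖ ^ 3 + C * (18 / 25) ^ n * ‖x - z‖ ^ 2 by
    refine le_of_forall_pos_le_add fun ε hε => ?_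
    obtain ⟨n, hn⟩ := exists_pow_lt_of_lt_one
      (show 0 < ε / (C * ‖x - z‖ ^ 2 + 1) by positivity) (show (18 / 25 : ℝ) < 1 by norm_num)
    refine (key n z hz hr).trans (add_le_add le_rfl ?_)
    calc C * (18 / 25 : ℝ) ^ n * ‖x - z‖ ^ 2
        ≤ C * (ε / (C * ‖x - z‖ ^ 2 + 1)) * ‖x - z‖ ^ 2 := by gcongr
      _ = ε * (C * ‖x - z‖ ^ 2 / (C * ‖x - z‖ ^ 2 + 1)) := by ring
      _ ≤ ε := mul_le_of_le_one_right hε.le (by
          rw [div_le_one (by positivity)]; linarith)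
  intro n
  induction n with
  | zero =>
    intro z hz _
    have h1 := hX.high x z hx hz
    have h2 := hY.high (f x) (f z) (hf.norm x hx) (hf.norm z hz)
    have h3 := (mul_nonneg hX.c_pos.le (sq_nonneg _)).trans (hX.low x z hx hz)
    have h4 := (mul_nonneg hY.c_pos.le (sq_nonneg _)).trans
      (hY.low (f x) (f z) (hf.norm x hx) (hf.norm z hz))
    rw [hf.dist x z hx hz] at h2
    have : 0 ≤ A * ‖x - z‖ ^ 3 := by positivity
    rw [pow_zero, mul_one, abs_le]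
    constructor <;> linarith
  | succ n ih =>
    intro z hz hr
    rcases eq_or_ne x z with rfl | hne
    · simp
    obtain ⟨hr1, hr2, hmn, hym, hxy⟩ := hmid x z hx hz hne hr
    set y := g (nrm (f x + f z)) with hydef
    have hyn : ‖y‖ = 1 := hf.norm' _ hmn
    have hfy : f y = nrm (f x + f z) := hf.right _ hmn
    set r := ‖x - z‖ with hrdef
    have hr0 : 0 ≤ r := norm_nonneg _
    have h1 := nf_mid hX hx hyn hz hne (L := K) (by linarith) hr1 (by rw [← hrdef]; linarith) hym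
    have hymY : ‖f y - (2 : ℝ)⁻¹ • (f x + f z)‖ ≤ C * ‖f x - f z‖ ^ 2 := by
      rw [hfy]
      exact (mid_hat hY (hf.norm x hx) (hf.norm z hz) (hf.ne hx hz hne)
        (by rwa [hf.dist x z hx hz])).2.2.2.2.1
    have h2 := nf_mid hY (hf.norm x hx) (hf.norm y hyn) (hf.norm z hz) (hf.ne hx hz hne)
      (L := C) (by linarith) (by rwa [hf.dist x z hx hz])
      (by rw [hf.dist x z hx hz, ← hrdef]; linarith) hymY
    rw [hf.dist x z hx hz, hf.sum hx hz] at h2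
    have hB2 : 20 * C ^ 2 * (C + C + 1) ^ 2 ≤ 4 * B := by
      rw [hB, show 4 * (20 * C ^ 2 * (K + C + 1) ^ 2) = 20 * C ^ 2 * (2 * (K + C + 1)) ^ 2 by
        ring]
      gcongr
      linarith
    have hsmall : ‖x - y‖ ≤ 3 / 5 * r := by nlinarith
    have hih := ih y hyn (by linarith)
    have p2 : ‖x - y‖ ^ 2 ≤ 9 / 25 * r ^ 2 := by
      calc ‖x - y‖ ^ 2 ≤ (3 / 5 * r) ^ 2 := pow_le_pow_left₀ (norm_nonneg _) hsmall 2
        _ = _ := by ring
    have p3 : ‖x - y‖ ^ 3 ≤ 27 / 125 * r ^ 3 := by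
      calc ‖x - y‖ ^ 3 ≤ (3 / 5 * r) ^ 3 := pow_le_pow_left₀ (norm_nonneg _) hsmall 3
        _ = _ := by ring
    have hr3 : 0 ≤ r ^ 3 := by positivity
    have p2' := mul_le_mul_of_nonneg_left p2
      (by positivity : 0 ≤ C * (18 / 25 : ℝ) ^ n)
    have p3' := mul_le_mul_of_nonneg_left p3 (by positivity : 0 ≤ A)
    have hB2' := mul_le_mul_of_nonneg_right hB2 hr3
    have hAB : B * r ^ 3 * 20 = A * r ^ 3 := by rw [hA]; ring
    have hAr : 0 ≤ A * r ^ 3 := by positivity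
    rw [← hB, ← hrdef] at h1
    rw [← hrdef] at h2
    rw [height_eq x y z, height_eq (f x) (f y) (f z), pow_succ (18 / 25 : ℝ) n]
    rw [abs_le] at h1 h2 hih ⊢
    constructor <;> linarith

/-- The chord direction between near antipodes, as a point, and the preimage of its image. -/
lemma antipodal_pts : ∃ K δ : ℝ, 0 ≤ K ∧ 0 < δ ∧ ∀ x z : X, ‖x‖ = 1 → ‖z‖ = 1 → x ≠ z →
    0 < ‖x + z‖ → ‖x + z‖ ≤ δ →
    ‖x + z‖ ≤ 1 ∧ ∃ q, ‖q‖ = 1 ∧ f q = nrm (f x - f z) ∧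
      ‖q - nrm (x - z)‖ ≤ K * ‖x + z‖ ^ 2 ∧ ‖q - x‖ ≤ ‖x + z‖ ∧
      ‖nrm (x - z) - x‖ ≤ ‖x + z‖ ∧ ‖x + z‖ / 4 ≤ ‖nrm (x - z) - x‖ := by
  obtain ⟨K, δ, hK, hδ, hmid⟩ := image_mid hX hY hf
  have hC := hX.one_le
  refine ⟨K + C, δ, by linarith, hδ, fun x z hx hz hne hs0 hs => ?_⟩
  have hwn : ‖-z‖ = 1 := by rw [norm_neg, hz]
  have hxw : ‖x - -z‖ = ‖x + z‖ := by rw [sub_neg_eq_add]
  have hne' : x ≠ -z := fun e => by rw [← hxw, e, sub_self, norm_zero] at hs0; linarith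
  obtain ⟨hs1, hs2, hmn, hym, hxy⟩ := hmid x (-z) hx hwn hne' (hxw.trans_le hs)
  obtain ⟨-, hpn, -, -, hpm, -, -, -⟩ := mid_hat hX hx hwn hne' hs1
  rw [show x + -z = x - z from (sub_eq_add_neg x z).symm, hxw] at hpm hym
  rw [hf.odd z hz, ← sub_eq_add_neg] at hmn hym hxy
  rw [hxw] at hs1 hs2 hxy
  have hsmall : (K + C) * ‖x + z‖ ^ 2 ≤ 7 / 20 * ‖x + z‖ := by nlinarith
  have e : ‖x - (2 : ℝ)⁻¹ • (x - z)‖ = ‖x + z‖ / 2 := by
    rw [show x - (2 : ℝ)⁻¹ • (x - z) = (2 : ℝ)⁻¹ • (x + z) by module, norm_smul]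
    norm_num; ring
  have t1 := norm_sub_le_norm_sub_add_norm_sub (g (nrm (f x - f z))) ((2 : ℝ)⁻¹ • (x - z))
    (nrm (x - z))
  rw [norm_sub_rev ((2 : ℝ)⁻¹ • (x - z)) (nrm (x - z))] at t1
  have t2 := norm_sub_le_norm_sub_add_norm_sub x (nrm (x - z)) ((2 : ℝ)⁻¹ • (x - z))
  have t3 := norm_sub_le_norm_sub_add_norm_sub (nrm (x - z)) ((2 : ℝ)⁻¹ • (x - z)) x
  rw [norm_sub_rev ((2 : ℝ)⁻¹ • (x - z)) x, e] at t3
  rw [e, norm_sub_rev x (nrm (x - z))] at t2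
  refine ⟨by nlinarith, g (nrm (f x - f z)), hf.norm' _ hmn, hf.right _ hmn, by linarith,
    ?_, by nlinarith, by nlinarith⟩
  rw [norm_sub_rev]; nlinarith

/-- Near antipodes the radial derivatives agree to third order and differ from one to second
order. -/
lemma antipodal : ∃ A δ : ℝ, 0 ≤ A ∧ 0 < δ ∧ ∀ x z : X, ‖x‖ = 1 → ‖z‖ = 1 → x ≠ z →
    0 < ‖x + z‖ → ‖x + z‖ ≤ δ →
    |nf (f x - f z) (f x) - nf (x - z) x| ≤ A * ‖x + z‖ ^ 3 ∧
      c / 16 * ‖x + z‖ ^ 2 ≤ 1 - nf (x - z) x := by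
  obtain ⟨K, δ, hK, hδ, hpts⟩ := antipodal_pts hX hY hf
  obtain ⟨A, δ', hA, hδ', hH⟩ := height_invariant hX hY hf
  have hC := hX.C_pos
  have hc := hX.c_pos
  refine ⟨A + C * K ^ 2 + 17 * C * K, min δ δ', by positivity, lt_min hδ hδ',
    fun x z hx hz hne hs0 hs => ?_⟩
  obtain ⟨hs1, q, hqn, hfq, hqp, hqx, hpx, hlow⟩ :=
    hpts x z hx hz hne hs0 (hs.trans (min_le_left _ _))
  have hxz := sub_ne_zero.2 hne
  have hfxz := sub_ne_zero.2 (hf.ne hx hz hne)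
  have hpn : ‖nrm (x - z)‖ = 1 := norm_nrm hxz
  have hp1 : 1 - nf (x - z) x = nf (nrm (x - z)) (nrm (x - z) - x) := by
    rw [map_sub, nf_self, hpn, hX.nf_nrm hxz]
  constructor
  · have hp2 : 1 - nf (f x - f z) (f x) = nf (f q) (f q - f x) := by
      rw [hfq, map_sub, nf_self, norm_nrm hfxz, hY.nf_nrm hfxz]
    have hH' := abs_le.1 (hH q x hqn hx (hqx.trans (hs.trans (min_le_right _ _))))
    have a1 := abs_le.1 (hX.abs_nf_sub_le hpn hqn (nrm (x - z) - x))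
    have a2 := hX.high q (nrm (x - z)) hqn hpn
    have a3 := (mul_nonneg hc.le (sq_nonneg _)).trans (hX.low q (nrm (x - z)) hqn hpn)
    have hA' : A * ‖q - x‖ ^ 3 ≤ A * ‖x + z‖ ^ 3 :=
      mul_le_mul_of_nonneg_left (pow_le_pow_left₀ (norm_nonneg _) hqx 3) hA
    obtain ⟨b1, b2⟩ := third_order hC.le (norm_nonneg _) hqp (norm_nonneg _) hpx hs1
    rw [norm_sub_rev (nrm (x - z)) q] at a1
    have e : nf q (q - x) = nf q (q - nrm (x - z)) + nf q (nrm (x - z) - x) := by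
      rw [← map_add, sub_add_sub_cancel]
    rw [abs_le]
    constructor <;> linarith
  · rw [hp1]
    calc c / 16 * ‖x + z‖ ^ 2 = c * (‖x + z‖ / 4) ^ 2 := by ring
      _ ≤ c * ‖nrm (x - z) - x‖ ^ 2 :=
        mul_le_mul_of_nonneg_left (pow_le_pow_left₀ (by linarith) hlow 2) hc.le
      _ ≤ _ := hX.low _ x hpn hx

end

/-- An approximate image of the tangent vector `q` at `x`. -/
structure Tan (f : X → Y) (x q : X) (w : Y) (η : ℝ) : Prop where
  flat : |nf (f x) w| ≤ η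
  len : ‖w‖ ≤ ‖q‖ + η
  eq : ∀ z, ‖z‖ = 1 → x ≠ z → |nf (f x - f z) w - nf (x - z) q| * ‖x - z‖ ≤ η

lemma Tan.neg {f : X → Y} {x q : X} {w : Y} {η : ℝ} (h : Tan f x q w η) :
    Tan f x (-q) (-w) η :=
  ⟨by rw [map_neg, abs_neg]; exact h.flat, by rw [norm_neg, norm_neg]; exact h.len,
    fun z hz hne => by
      rw [map_neg, map_neg, neg_sub_neg, abs_sub_comm]; exact h.eq z hz hne⟩

/-- The derivative bound with constant `M`. -/
def Bd (f : X → Y) (M : ℝ) : Prop :=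
  ∀ x z : X, ‖x‖ = 1 → ‖z‖ = 1 → x ≠ z →
    nf (f x - f z) (f x) - nf (x - z) x ≤ M * (1 - nf (x - z) x)

section

variable {f : X → Y} {g : Y → X} (hX : Mod X c C) (hY : Mod Y c C) (hf : Iso f g)

include hX hY hf

/-- Difference quotients give approximate images of tangent vectors. -/
lemma tan_quot {x q : X} (hx : ‖x‖ = 1) (hq : nf x q = 0) (hq5 : ‖q‖ ≤ 5) {t : ℝ} (ht : 0 < t)
    (htC : 400 * C * t ≤ 1) :
    Tan f x q (t⁻¹ • (f (nrm (x + t • q)) - f x)) (2000 * C * t) := by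
  have hC := hX.one_le
  have hht : ‖t • q‖ ≤ 5 * t := by
    rw [norm_smul, Real.norm_of_nonneg ht.le]; nlinarith
  have n1 : 1 ≤ ‖x + t • q‖ := by
    have := nf_le x (x + t • q)
    rwa [map_add, map_smul, hq, smul_zero, add_zero, nf_self, hx] at this
  have n2 : ‖x + t • q‖ ≤ 1 + 400 * C * t ^ 2 := by
    have h := hX.norm_add_le_unit hx (t • q)
    rw [map_smul, hq, smul_zero, add_zero] at h
    nlinarith [mul_le_mul_of_nonneg_left (pow_le_pow_left₀ (norm_nonneg _) hht 2) hX.C_pos.le]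
  set y := nrm (x + t • q)
  have hy : ‖y‖ = 1 := norm_nrm fun e => by rw [e, norm_zero] at n1; linarith
  have hyerr : ‖y - (x + t • q)‖ ≤ 400 * C * t ^ 2 := by
    rw [show y - (x + t • q) = (1 - ‖x + t • q‖) • y by
      conv_lhs => arg 2; rw [← smul_nrm (x + t • q)]
      simp only [y]; module, norm_smul, hy, Real.norm_eq_abs, abs_of_nonpos (by linarith)]
    linarith
  have hyx : ‖y - x‖ ≤ t * ‖q‖ + 400 * C * t ^ 2 := by
    have := norm_sub_le_norm_sub_add_norm_sub y (x + t • q) x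
    rw [add_sub_cancel_left, norm_smul, Real.norm_of_nonneg ht.le] at this
    linarith
  have hyx6 : ‖y - x‖ ≤ 6 * t := by nlinarith
  have hsq : ‖y - x‖ ^ 2 ≤ 36 * t ^ 2 := by
    calc ‖y - x‖ ^ 2 ≤ (6 * t) ^ 2 := pow_le_pow_left₀ (norm_nonneg _) hyx6 2
      _ = _ := by ring
  refine ⟨?_, ?_, fun z hz hne => ?_⟩
  · have h1 := hY.high (f x) (f y) (hf.norm x hx) (hf.norm y hy)
    have h2 := (mul_nonneg hY.c_pos.le (sq_nonneg _)).trans
      (hY.low (f x) (f y) (hf.norm x hx) (hf.norm y hy))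
    rw [hf.dist x y hx hy, norm_sub_rev] at h1
    have e : nf (f x) (f y - f x) = -nf (f x) (f x - f y) := by rw [← map_neg, neg_sub]
    rw [map_smul, smul_eq_mul, abs_mul, abs_inv, abs_of_pos ht, inv_mul_le_iff₀ ht, e, abs_neg,
      abs_le]
    have := mul_le_mul_of_nonneg_left hsq hX.C_pos.le
    have : 0 ≤ C * t ^ 2 := by positivity
    constructor <;> linarith
  · rw [norm_smul, norm_inv, Real.norm_of_nonneg ht.le, hf.dist y x hy hx, inv_mul_le_iff₀ ht]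
    have : 0 ≤ C * t ^ 2 := by positivity
    linarith
  · set r := ‖x - z‖ with hr
    have hr0 : 0 < r := norm_pos_iff.2 (sub_ne_zero.2 hne)
    have hr2 : r ≤ 2 := by linarith [norm_sub_le x z]
    set K := nf (x - z) with hK
    set K' := nf (f x - f z) with hK'
    have u1 := hX.norm_add_le (sub_ne_zero.2 hne) (y - x)
    have u2 := hY.norm_add_le (sub_ne_zero.2 (hf.ne hx hz hne)) (f y - f x)
    rw [show x - z + (y - x) = y - z by abel, ← hK, ← hr] at u1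
    rw [show f x - f z + (f y - f x) = f y - f z by abel, ← hK', hf.dist x z hx hz,
      hf.dist y z hy hz, hf.dist y x hy hx, ← hr] at u2
    have l1 := nf_le (x - z) (y - z)
    have l2 := nf_le (f x - f z) (f y - f z)
    rw [show y - z = x - z + (y - x) by abel, map_add, nf_self, ← hK, ← hr,
      show x - z + (y - x) = y - z by abel] at l1
    rw [show f y - f z = f x - f z + (f y - f x) by abel, map_add, nf_self, ← hK',
      show f x - f z + (f y - f x) = f y - f z by abel, hf.dist x z hx hz,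
      hf.dist y z hy hz, ← hr] at l2
    have eK : |K (y - x) - t * K q| ≤ 400 * C * t ^ 2 := by
      have : K (y - x) - t * K q = K (y - (x + t • q)) := by
        simp only [map_sub, map_add, map_smul, smul_eq_mul]; ring
      rw [this]; exact (abs_nf_le _ _).trans hyerr
    have key : |K' (f y - f x) - K (y - x)| * r ≤ 600 * C * t ^ 2 := by
      have hd : |K' (f y - f x) - K (y - x)| ≤ 16 * C * ‖y - x‖ ^ 2 / r :=
        abs_le.2 ⟨by linarith, by linarith⟩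
      calc |K' (f y - f x) - K (y - x)| * r ≤ 16 * C * ‖y - x‖ ^ 2 / r * r := by gcongr
        _ = 16 * C * ‖y - x‖ ^ 2 := div_mul_cancel₀ _ hr0.ne'
        _ ≤ _ := by nlinarith [mul_le_mul_of_nonneg_left hsq hX.C_pos.le, sq_nonneg t]
    rw [map_smul, smul_eq_mul,
      show t⁻¹ * K' (f y - f x) - K q = t⁻¹ * (K' (f y - f x) - t * K q) by field_simp,
      abs_mul, abs_inv, abs_of_pos ht, mul_assoc, inv_mul_le_iff₀ ht]
    calc |K' (f y - f x) - t * K q| * r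
        ≤ (|K' (f y - f x) - K (y - x)| + |K (y - x) - t * K q|) * r := by
          gcongr; exact abs_sub_le _ _ _
      _ ≤ 600 * C * t ^ 2 + 400 * C * t ^ 2 * 2 := by
          rw [add_mul]; gcongr
      _ ≤ t * (2000 * C * t) := by nlinarith [mul_nonneg hX.C_pos.le (sq_nonneg t)]

lemma exists_tan {x q : X} (hx : ‖x‖ = 1) (hq : nf x q = 0) (hq5 : ‖q‖ ≤ 5) {η : ℝ} (hη : 0 < η) :
    ∃ w, Tan f x q w η := by
  have hC := hX.C_pos
  set t := min (η / (2000 * C)) (1 / (400 * C))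
  have ht : 0 < t := lt_min (by positivity) (by positivity)
  have h1 : 400 * C * t ≤ 1 := by
    have := (le_div_iff₀ (by positivity)).1 (min_le_right (η / (2000 * C)) (1 / (400 * C)))
    linarith
  have h2 : 2000 * C * t ≤ η := by
    have := (le_div_iff₀ (by positivity)).1 (min_le_left (η / (2000 * C)) (1 / (400 * C)))
    linarith
  have h := tan_quot hX hY hf hx hq hq5 ht h1
  exact ⟨_, h.flat.trans h2, h.len.trans (by linarith), fun z hz hne => (h.eq z hz hne).trans h2⟩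

/-- The bound on the image of a vector with positive height. -/
lemma norm_tan_le {M : ℝ} (hM : Bd f M) {x q : X} {w : Y} {η l : ℝ} (hx : ‖x‖ = 1)
    (ht : Tan f x q w η) (hq5 : ‖q‖ ≤ 5) (hl : 0 < l) (hl4 : l ≤ 4) (hη : η ≤ l / 4) :
    ‖w + l • f x‖ ≤ ‖q + ((1 - M) * l) • x‖ + M * l + 20 * C / l * η := by
  set d := w + l • f x with hd
  have hfx := hf.norm x hx
  have hη0 : 0 ≤ η := (abs_nonneg _).trans ht.flat
  have hC := hX.C_pos
  have hφ : l / 2 ≤ nf (f x) d := by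
    rw [hd, map_add, map_smul, nf_self, hfx, smul_eq_mul, mul_one]
    linarith [abs_le.1 ht.flat]
  obtain ⟨lam, hlam, hz'⟩ := hY.exists_chord hfx (lt_of_lt_of_le (by positivity) hφ)
  have hd0 : d ≠ 0 := fun e => by rw [e, map_zero] at hφ; linarith
  set z := g (f x - lam • d) with hzdef
  have hz : ‖z‖ = 1 := hf.norm' _ hz'
  have hfz : f z = f x - lam • d := hf.right _ hz'
  have hne : x ≠ z := fun e => by
    rw [← e] at hfz
    exact smul_ne_zero hlam.ne' hd0 (by rw [← sub_eq_self]; exact hfz.symm)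
  have e : f x - f z = lam • d := by rw [hfz]; abel
  have hr : ‖x - z‖ = lam * ‖d‖ := by
    rw [← hf.dist x z hx hz, e, norm_smul, Real.norm_of_nonneg hlam.le]
  have hdn : ‖d‖ ≤ 10 := by
    refine (norm_add_le _ _).trans ?_
    rw [norm_smul, Real.norm_of_nonneg hl.le, hfx]
    linarith [ht.len]
  have hrlow : l ≤ 20 * C * ‖x - z‖ := by
    have h := hY.high (f x) (f z) hfx (hf.norm z hz)
    rw [e, map_smul, smul_eq_mul, norm_smul, Real.norm_of_nonneg hlam.le] at h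
    have h1 : lam * nf (f x) d ≤ lam * (C * ‖d‖ * (lam * ‖d‖)) := h.trans (le_of_eq (by ring))
    have h2 := le_of_mul_le_mul_left h1 hlam
    rw [← hr] at h2
    nlinarith [mul_le_mul_of_nonneg_left hdn (mul_nonneg hC.le (norm_nonneg (x - z)))]
  have hK := ht.eq z hz hne
  have hM' := hM x z hx hz hne
  set K := nf (x - z) with hKdef
  have hd' : ‖d‖ = nf (f x - f z) w + l * nf (f x - f z) (f x) := by
    rw [e, hY.nf_smul hd0 hlam, hY.nf_smul hd0 hlam]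
    conv_lhs => rw [← nf_self d, hd, map_add, map_smul, smul_eq_mul]
  have herr : nf (f x - f z) w ≤ K q + 20 * C / l * η := by
    rw [← sub_le_iff_le_add', div_mul_eq_mul_div, le_div_iff₀ hl]
    nlinarith [mul_le_mul_of_nonneg_left hrlow (abs_nonneg (nf (f x - f z) w - K q)),
      le_abs_self (nf (f x - f z) w - K q),
      mul_le_mul_of_nonneg_left hK (by positivity : (0 : ℝ) ≤ 20 * C)]
  have hKv := nf_le (x - z) (q + ((1 - M) * l) • x)
  rw [map_add, map_smul, smul_eq_mul, ← hKdef] at hKv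
  nlinarith [mul_le_mul_of_nonneg_left hM' hl.le]

end

end Vale.Agent.P084.Smooth
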