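import Vale.Agent.P084.Smooth.Geom

/-!
A pair away from the diagonal and the antidiagonal cannot nearly attain the largest radial defect.
-/

set_option linter.unusedSectionVars false

namespace Vale.Agent.P084.Smooth

/-- The linear certificate at a pair nearly attaining the defect `M`. -/
lemma defect_alg {M α r s k u e : ℝ} (hM : 0 < M) (hM1 : M ≤ 1) (hα : 0 ≤ α) (hα1 : α ≤ 1)
    (hr : 0 ≤ r) (hr2 : r ≤ 2) (hs2 : s ≤ 2) (h2s : 2 - s ≤ r * α) (hrs : 2 ≤ r + s)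
    (he : |u * (2 * (1 - M + M * α) - r * α) - M * α * (s - k * (2 - r))| ≤ e)
    (h1 : u ≤ M * (1 - k)) (h2 : (1 - M) * u ≤ M * (1 + k - s)) :
    M * (α * (r + s - 2)) * (2 * (1 - M + M * α) - r * α) ≤ 8 * (e / M) := by
  set G := 2 * (1 - M + M * α) - r * α with hG
  set A := α * (s - k * (2 - r)) with hA
  have hG0 : 0 ≤ G := by
    linarith [mul_nonneg (by linarith : 0 ≤ 1 - M) (by linarith : 0 ≤ 1 - α),
      mul_nonneg hα (by linarith : 0 ≤ 2 - r)]
  obtain ⟨he1, he2⟩ := abs_le.1 he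
  have heM : M * (e / M) = e := mul_div_cancel₀ e hM.ne'
  have he0 : 0 ≤ e := (abs_nonneg _).trans he
  have he0' : 0 ≤ e / M := div_nonneg he0 hM.le
  have hA1 : A ≤ (1 - k) * G + e / M := by
    refine le_of_mul_le_mul_left ?_ hM
    rw [mul_add, heM]
    linarith [mul_le_mul_of_nonneg_right h1 hG0]
  have hA2 : (1 - M) * A ≤ (1 + k - s) * G + e / M := by
    refine le_of_mul_le_mul_left ?_ hM
    rw [mul_add, heM]
    linarith [mul_le_mul_of_nonneg_right h2 hG0, mul_nonneg hM.le he0,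
      mul_le_mul_of_nonneg_left he1 (by linarith : 0 ≤ 1 - M)]
  have hS : (2 - M) * A ≤ (2 - s) * G + 2 * (e / M) := by linarith
  have hαr : 0 ≤ α * (2 - r) ∧ α * (2 - r) ≤ 2 :=
    ⟨mul_nonneg hα (by linarith),
      (mul_le_mul hα1 (by linarith : 2 - r ≤ 2) (by linarith) zero_le_one).trans (one_mul _).le⟩
  have hk : α * (2 - r) * A ≤ α * (2 - r) * ((1 - k) * G + e / M) :=
    mul_le_mul_of_nonneg_left hA1 hαr.1
  have hAG : A * G = α * (r + s - 2) * G + α * (2 - r) * (1 - k) * G := by rw [hA]; ring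
  have hkey : α * (r + s - 2) * G ≤ 2 * (1 - M) * (1 - α) * A + 2 * (e / M) := by
    have e1 : 2 * (1 - M) * (1 - α) * A = A * G - α * (2 - r) * A := by rw [hG]; ring
    have := mul_le_mul_of_nonneg_right hαr.2 he0'
    rw [mul_add (α * (2 - r)), ← mul_assoc (α * (2 - r))] at hk
    linarith
  have hB0 : 0 ≤ 2 * (1 - M) * (1 - α) := mul_nonneg (by linarith) (by linarith)
  have hB2 : 2 * (1 - M) * (1 - α) ≤ 2 :=
    (mul_le_mul (by linarith : 2 * (1 - M) ≤ 2) (by linarith : 1 - α ≤ 1) (by linarith)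
      zero_le_two).trans (mul_one _).le
  have hsα : (1 - α) * (2 - s) ≤ α * (r + s - 2) := by linarith
  have t1 := mul_le_mul_of_nonneg_left hS hB0
  have t2 := mul_le_mul_of_nonneg_left hkey (by linarith : 0 ≤ 2 - M)
  have t3 := mul_le_mul_of_nonneg_left hsα
    (mul_nonneg (by linarith : 0 ≤ 2 * (1 - M)) hG0)
  have t4 := mul_le_mul_of_nonneg_right hB2 he0'
  linarith [mul_nonneg hM.le he0']

variable {X Y : Type*} [NormedAddCommGroup X] [NormedSpace ℝ X]
  [NormedAddCommGroup Y] [NormedSpace ℝ Y] {c C : ℝ} {f : X → Y} {g : Y → X}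
  (hX : Mod X c C) (hY : Mod Y c C) (hf : Iso f g)

include hX hY hf

/-- The fundamental identity at a pair, with errors. -/
lemma pair_identity {x z : X} {w : Y} {η ρ ζ M : ℝ} (hx : ‖x‖ = 1) (hz : ‖z‖ = 1) (hρ : 0 < ρ)
    (hr : ρ ≤ ‖x - z‖) (hs : ρ ≤ ‖x + z‖)
    (hw : Tan f x ((1 - M) • (nrm (x - z) - nf x (nrm (x - z)) • x)) w η)
    (hζ : ‖w + nf x (nrm (x - z)) • f x -
      (1 - M + M * nf x (nrm (x - z))) • nrm (f x - f z)‖ ≤ ζ) :
    |(nf (f x + f z) (f x) - nf (x + z) x) * (2 * (1 - M + M * nf x (nrm (x - z))) -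
        ‖x - z‖ * nf x (nrm (x - z))) -
      M * nf x (nrm (x - z)) * (‖x + z‖ - nf (x + z) x * (2 - ‖x - z‖))| ≤
      2 * (ζ + η / ρ) := by
  have hzn : ‖-z‖ = 1 := by rw [norm_neg, hz]
  have hr2 : ‖x - z‖ ≤ 2 := by linarith [norm_sub_le x z]
  have hne' : x ≠ -z := fun e => by rw [e, neg_add_cancel, norm_zero] at hs; linarith
  have e0 := hw.eq (-z) hzn hne'
  rw [hf.odd z hz, sub_neg_eq_add, sub_neg_eq_add] at e0
  set r := ‖x - z‖
  set α := nf x (nrm (x - z))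
  set N := 1 - M + M * α
  set K₂ := nf (x + z) with hK₂
  set K₂' := nf (f x + f z) with hK₂'
  set k := K₂ x with hk
  set k' := K₂' (f x) with hk'
  set q := (1 - M) • (nrm (x - z) - α • x)
  have hr0 : 0 < r := hρ.trans_le hr
  have hzk : K₂ z = ‖x + z‖ - k := by
    have := nf_self (x + z); rw [map_add, ← hK₂] at this; linarith
  have hzk' : K₂' (f z) = ‖x + z‖ - k' := by
    have := nf_self (f x + f z); rw [map_add, ← hK₂', hf.sum hx hz] at this; linarith
  have hp : r * K₂ (nrm (x - z)) = 2 * k - ‖x + z‖ := by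
    rw [← smul_eq_mul, ← map_smul, smul_nrm, map_sub, hzk, ← hk]; ring
  have hp' : r * K₂' (nrm (f x - f z)) = 2 * k' - ‖x + z‖ := by
    rw [← smul_eq_mul, ← map_smul, show r = ‖f x - f z‖ from (hf.dist x z hx hz).symm, smul_nrm,
      map_sub, hzk', ← hk']
    ring
  have hq : r * K₂ q = (1 - M) * (2 * k - ‖x + z‖ - r * (α * k)) := by
    simp only [q, map_smul, map_sub, smul_eq_mul, ← hk]
    rw [← hp]; ring
  have e1 : |K₂' w - K₂ q| ≤ η / ρ := by
    rw [le_div_iff₀ hρ]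
    exact le_trans (mul_le_mul_of_nonneg_left hs (abs_nonneg _)) e0
  have e2 : |K₂' w + α * k' - N * K₂' (nrm (f x - f z))| ≤ ζ := by
    refine le_of_eq_of_le ?_ ((abs_nf_le (f x + f z) _).trans hζ)
    simp only [map_sub, map_add, map_smul, smul_eq_mul, ← hK₂', ← hk']
  have key : (k' - k) * (2 * N - r * α) - M * α * (‖x + z‖ - k * (2 - r)) =
      r * ((K₂' w - K₂ q) - (K₂' w + α * k' - N * K₂' (nrm (f x - f z)))) := by
    rw [mul_sub r, mul_sub r, mul_sub r (_ + _), mul_left_comm r N, hp', hq]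
    simp only [N]; ring
  rw [key, abs_mul, abs_of_pos hr0]
  calc r * |K₂' w - K₂ q - (K₂' w + α * k' - N * K₂' (nrm (f x - f z)))|
      ≤ 2 * (η / ρ + ζ) := by
        refine mul_le_mul hr2 ?_ (abs_nonneg _) (by norm_num)
        exact (abs_sub _ _).trans (add_le_add e1 e2)
    _ = _ := by ring

/-- A nearly extremal pair determines the direction of the image of the extremal vector. -/
lemma extremal_direction {x z : X} {w : Y} {η ρ ζ δ M : ℝ} (hM : 0 < M) (hM1 : M ≤ 1)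
    (hB : Bd f M) (hx : ‖x‖ = 1) (hz : ‖z‖ = 1) (hρ : 0 < ρ) (hr : ρ ≤ ‖x - z‖) (hne : x ≠ z)
    (hη : η ≤ c * ρ / 4) (hη1 : η ≤ 1) (hδ : 0 ≤ δ) (hζ : 0 ≤ ζ)
    (hgap : 2 * δ + η / ρ + 20 * C / (c * ρ) * η ≤ min (ζ / 2) (min 1 (c * ζ ^ 2 / 64)))
    (hcon : (M - δ) * (1 - nf (x - z) x) ≤ nf (f x - f z) (f x) - nf (x - z) x)
    (hw : Tan f x ((1 - M) • (nrm (x - z) - nf x (nrm (x - z)) • x)) w η) :
    ‖w + nf x (nrm (x - z)) • f x -
      (1 - M + M * nf x (nrm (x - z))) • nrm (f x - f z)‖ ≤ ζ := by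
  have hc := hX.c_pos
  have hxz := sub_ne_zero.2 hne
  have hfxz := sub_ne_zero.2 (hf.ne hx hz hne)
  obtain ⟨g1, g2, g3⟩ : 2 * δ + η / ρ + 20 * C / (c * ρ) * η ≤ ζ / 2 ∧
      2 * δ + η / ρ + 20 * C / (c * ρ) * η ≤ 1 ∧
      2 * δ + η / ρ + 20 * C / (c * ρ) * η ≤ c * ζ ^ 2 / 64 :=
    ⟨hgap.trans (min_le_left _ _), hgap.trans ((min_le_right _ _).trans (min_le_left _ _)),
      hgap.trans ((min_le_right _ _).trans (min_le_right _ _))⟩
  have hpn : ‖nrm (x - z)‖ = 1 := norm_nrm hxz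
  have hp'n : ‖nrm (f x - f z)‖ = 1 := norm_nrm hfxz
  have hKp : nf (x - z) (nrm (x - z)) = 1 := by
    rw [← hX.nf_nrm hxz, nf_self, hpn]
  have hαlow : c * ρ ≤ nf x (nrm (x - z)) := by
    have hlow := hX.low x z hx hz
    rw [← smul_nrm (x - z), map_smul, smul_eq_mul, norm_smul, norm_norm, hpn, mul_one] at hlow
    refine le_of_mul_le_mul_left ?_ (hρ.trans_le hr)
    calc ‖x - z‖ * (c * ρ) ≤ ‖x - z‖ * (c * ‖x - z‖) := by gcongr
      _ = c * ‖x - z‖ ^ 2 := by ring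
      _ ≤ _ := hlow
  have hα1 : nf x (nrm (x - z)) ≤ 1 := (nf_le x _).trans hpn.le
  generalize hαdef : nf x (nrm (x - z)) = α at hαlow hα1 hw ⊢
  have hα0 : 0 < α := lt_of_lt_of_le (by positivity) hαlow
  have hq2 : ‖(1 - M) • (nrm (x - z) - α • x)‖ ≤ 2 := by
    rw [norm_smul, Real.norm_of_nonneg (by linarith)]
    have h := norm_sub_le (nrm (x - z)) (α • x)
    rw [norm_smul, hpn, hx, Real.norm_of_nonneg hα0.le] at h
    calc (1 - M) * ‖nrm (x - z) - α • x‖ ≤ 1 * 2 :=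
          mul_le_mul (by linarith) (by linarith) (norm_nonneg _) zero_le_one
      _ = 2 := one_mul 2
  have hd := norm_tan_le hX hY hf hB hx hw (hq2.trans (by norm_num)) hα0 (by linarith)
    (by linarith)
  have hqx : (1 - M) • (nrm (x - z) - α • x) + ((1 - M) * α) • x = (1 - M) • nrm (x - z) := by
    module
  rw [hqx, norm_smul, hpn, mul_one, Real.norm_of_nonneg (by linarith : (0:ℝ) ≤ 1 - M)] at hd
  have hdiv : 20 * C / α * η ≤ 20 * C / (c * ρ) * η :=
    mul_le_mul_of_nonneg_right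
      (div_le_div_of_nonneg_left (by have := hX.C_pos; linarith) (by positivity) hαlow)
      ((abs_nonneg _).trans hw.flat)
  have hd4 : ‖w + α • f x‖ ≤ 4 := by
    refine (norm_add_le _ _).trans ?_
    rw [norm_smul, hf.norm x hx, Real.norm_of_nonneg hα0.le]
    linarith [hw.len]
  have hKd : nf (nrm (f x - f z)) (w + α • f x) =
      nf (f x - f z) w + α * nf (f x - f z) (f x) := by
    rw [hY.nf_nrm hfxz, map_add, map_smul, smul_eq_mul]
  have hKw : |nf (f x - f z) w - (1 - M) * (1 - α * nf (x - z) x)| ≤ η / ρ := by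
    have he := hw.eq z hz hne
    rw [map_smul, map_sub, map_smul, hKp, smul_eq_mul, smul_eq_mul] at he
    rw [le_div_iff₀ hρ]
    exact le_trans (mul_le_mul_of_nonneg_left hr (abs_nonneg _)) he
  have hh := abs_le.1 (abs_nf_le (x - z) x)
  rw [hx] at hh
  have t1 := mul_le_mul_of_nonneg_left hcon hα0.le
  have t2 : α * (δ * (1 - nf (x - z) x)) ≤ 1 * (δ * 2) :=
    mul_le_mul hα1 (mul_le_mul_of_nonneg_left (by linarith) hδ) (mul_nonneg hδ (by linarith))
      zero_le_one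
  have hKlow : 1 - M + M * α - 2 * δ - η / ρ ≤ nf (nrm (f x - f z)) (w + α • f x) := by
    rw [hKd]; linarith [abs_le.1 hKw]
  have hη0 : 0 ≤ η := (abs_nonneg _).trans hw.flat
  have h20 : 0 ≤ 20 * C / (c * ρ) * η := by have := hX.C_pos; positivity
  have hg0 := nf_le (nrm (f x - f z)) (w + α • f x)
  have hdev := hY.dev_le hp'n (w + α • f x)
  generalize nf (nrm (f x - f z)) (w + α • f x) = κ at hdev hKlow hg0
  generalize w + α • f x = d at hdev hg0 hd hd4 ⊢
  have hD : ‖d - κ • nrm (f x - f z)‖ ≤ ζ / 2 := by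
    refine le_of_pow_le_pow_left₀ two_ne_zero (by positivity) (le_of_mul_le_mul_left ?_ hc)
    have := mul_le_mul hd4 (show ‖d‖ - κ ≤ c * ζ ^ 2 / 64 by linarith) (by linarith)
      (by norm_num : (0:ℝ) ≤ 4)
    linarith
  have e : d - (1 - M + M * α) • nrm (f x - f z) =
      (d - κ • nrm (f x - f z)) + (κ - (1 - M + M * α)) • nrm (f x - f z) := by module
  rw [e]
  refine (norm_add_le _ _).trans ?_
  rw [norm_smul, hp'n, mul_one, Real.norm_eq_abs]
  have : |κ - (1 - M + M * α)| ≤ ζ / 2 := by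
    have := div_nonneg hη0 hρ.le
    rw [abs_le]; constructor <;> linarith
  linarith

/-- The two bounds at the complementary chord. -/
lemma sum_bounds {M : ℝ} (hB : Bd f M) (hB' : Bd g M) {x z : X} (hx : ‖x‖ = 1) (hz : ‖z‖ = 1)
    (hne' : x ≠ -z) :
    nf (f x + f z) (f x) - nf (x + z) x ≤ M * (1 - nf (x + z) x) ∧
      nf (f x + f z) (f x) - nf (x + z) x ≤
        M * (1 + nf (f x + f z) (f x) - ‖x + z‖) := by
  have hzn : ‖-z‖ = 1 := by rw [norm_neg, hz]
  constructor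
  · have h := hB x (-z) hx hzn hne'
    rwa [hf.odd z hz, sub_neg_eq_add, sub_neg_eq_add] at h
  · have hne'' : f z ≠ -f x := fun e => hne' (by
      have := congrArg g (show f x = -f z by rw [e, neg_neg])
      rwa [hf.left x hx, hf.odd' (hf.norm z hz), hf.left z hz] at this)
    have h := hB' (f z) (-f x) (hf.norm z hz) (by rw [norm_neg, hf.norm x hx]) hne''
    rw [hf.left z hz, hf.odd' (hf.norm x hx), hf.left x hx, sub_neg_eq_add, sub_neg_eq_add,
      add_comm z, add_comm (f z)] at h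
    have e1 := nf_self (x + z)
    have e2 := nf_self (f x + f z)
    rw [map_add] at e1 e2
    rw [hf.sum hx hz] at e2
    rw [show nf (x + z) z = ‖x + z‖ - nf (x + z) x by linarith,
      show nf (f x + f z) (f z) = ‖x + z‖ - nf (f x + f z) (f x) by linarith] at h
    linarith

/-- Quantitative strict triangle inequality for the two chords. -/
lemma sum_margin {x z : X} {ρ : ℝ} (hx : ‖x‖ = 1) (hz : ‖z‖ = 1) (hρ : 0 < ρ)
    (hr : ρ ≤ ‖x - z‖) (hs : ρ ≤ ‖x + z‖) :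
    c ^ 3 * ρ ^ 4 / 4 ≤ ‖x - z‖ + ‖x + z‖ - 2 ∧ c / 2 * ρ ^ 2 ≤ 2 - ‖x - z‖ ∧
      2 - ‖x + z‖ ≤ nf x (x - z) := by
  have hc := hX.c_pos
  have hzn : ‖-z‖ = 1 := by rw [norm_neg, hz]
  have e : nf x (x + z) = 2 - nf x (x - z) := by
    rw [map_sub, map_add, nf_self, hx]; ring
  have hlow := hX.low x z hx hz
  have hlow2 := hX.low x (-z) hx hzn
  rw [sub_neg_eq_add, e] at hlow2
  have g1 := nf_le x (x - z)
  have g2 := nf_le x (x + z)
  rw [e] at g2
  have h2r : c / 2 * ρ ^ 2 ≤ 2 - ‖x - z‖ := by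
    have h := hX.le_two_sub hx hzn
    rw [sub_neg_eq_add, ← sub_eq_add_neg] at h
    refine le_trans ?_ h
    gcongr
  refine ⟨?_, h2r, by linarith⟩
  have d1 := hX.dev_le hx (x - z)
  have d2 := hX.dev_le hx (x + z)
  rw [e, show x + z - (2 - nf x (x - z)) • x = -(x - z - nf x (x - z) • x) by module,
    norm_neg] at d2
  have hn : 1 - |1 - nf x (x - z)| ≤ ‖x - z - nf x (x - z) • x‖ := by
    have h := norm_sub_norm_le z ((1 - nf x (x - z)) • x)
    rw [norm_smul, hx, hz, mul_one, Real.norm_eq_abs] at h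
    refine h.trans (le_of_eq ?_)
    rw [← norm_neg]; congr 1; module
  generalize nf x (x - z) = a at *
  generalize ‖x - z - a • x‖ = D at *
  have hD : c * ρ ^ 2 ≤ D := by
    have q1 : c * ρ ^ 2 ≤ c * ‖x - z‖ ^ 2 := by gcongr
    have q2 : c * ρ ^ 2 ≤ c * ‖x + z‖ ^ 2 := by gcongr
    rcases abs_cases (1 - a) with ⟨h1, -⟩ | ⟨h1, -⟩ <;> rw [h1] at hn <;> linarith
  have hr2 : ‖x - z‖ ≤ 2 := by linarith [norm_sub_le x z]
  have hs2 : ‖x + z‖ ≤ 2 := by linarith [norm_add_le x z]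
  have i1 : c * D ^ 2 ≤ 8 * (‖x - z‖ - a) :=
    d1.trans (mul_le_mul_of_nonneg_right (by linarith) (by linarith))
  have i2 : c * D ^ 2 ≤ 8 * (‖x + z‖ - (2 - a)) :=
    d2.trans (mul_le_mul_of_nonneg_right (by linarith) (by linarith))
  calc c ^ 3 * ρ ^ 4 / 4 = c * (c * ρ ^ 2) ^ 2 / 4 := by ring
    _ ≤ c * D ^ 2 / 4 := by gcongr
    _ ≤ _ := by linarith

/-- Pairs away from the diagonal and the antidiagonal are not nearly extremal. -/
theorem interior_excluded {M ρ : ℝ} (hM : 0 < M) (hM1 : M ≤ 1) (hB : Bd f M) (hB' : Bd g M)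
    (hρ : 0 < ρ) :
    ∃ ε : ℝ, 0 < ε ∧ ∀ x z : X, ‖x‖ = 1 → ‖z‖ = 1 → ρ ≤ ‖x - z‖ → ρ ≤ ‖x + z‖ →
      nf (f x - f z) (f x) - nf (x - z) x < (M - ε) * (1 - nf (x - z) x) := by
  have hc := hX.c_pos
  have hC := hX.C_pos
  set T := M ^ 2 * (c * ρ) ^ 2 * (c / 2 * ρ ^ 2) * (c ^ 3 * ρ ^ 4 / 4) with hT
  have hT0 : 0 < T := by positivity
  set ζ := T / 64 with hζ
  set G₀ := min (ζ / 2) (min 1 (c * ζ ^ 2 / 64)) with hG₀
  have hG00 : 0 < G₀ := lt_min (by positivity) (lt_min one_pos (by positivity))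
  set η := min (min (c * ρ / 4) 1)
    (min (ρ * T / 64) (G₀ / 2 / (1 / ρ + 20 * C / (c * ρ))))
  have hη0 : 0 < η := lt_min (lt_min (by positivity) one_pos)
    (lt_min (by positivity) (by positivity))
  have hη1 : η ≤ c * ρ / 4 := (min_le_left _ _).trans (min_le_left _ _)
  have hη1' : η ≤ 1 := (min_le_left _ _).trans (min_le_right _ _)
  have hη2 : η / ρ ≤ T / 64 := by
    rw [div_le_iff₀ hρ]
    exact (show η ≤ ρ * T / 64 from (min_le_right _ _).trans (min_le_left _ _)).trans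
      (le_of_eq (by ring))
  have hη3 : η * (1 / ρ + 20 * C / (c * ρ)) ≤ G₀ / 2 :=
    (le_div_iff₀ (by positivity)).1 ((min_le_right _ _).trans (min_le_right _ _))
  rw [mul_add, mul_one_div] at hη3
  refine ⟨G₀ / 4, by positivity, fun x z hx hz hr hs => ?_⟩
  by_contra hcon
  push Not at hcon
  have hne : x ≠ z := fun e => by rw [e, sub_self, norm_zero] at hr; linarith
  have hne' : x ≠ -z := fun e => by rw [e, neg_add_cancel, norm_zero] at hs; linarith
  obtain ⟨m1, m2, m3⟩ := sum_margin hX hY hf hx hz hρ hr hs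
  obtain ⟨b1, b2⟩ := sum_bounds hX hY hf hB hB' hx hz hne'
  have hpn : ‖nrm (x - z)‖ = 1 := norm_nrm (sub_ne_zero.2 hne)
  have hrα : ‖x - z‖ * nf x (nrm (x - z)) = nf x (x - z) := by
    rw [← smul_eq_mul, ← map_smul, smul_nrm]
  have hαlow : c * ρ ≤ nf x (nrm (x - z)) := by
    refine le_of_mul_le_mul_left ?_ (hρ.trans_le hr)
    calc ‖x - z‖ * (c * ρ) ≤ ‖x - z‖ * (c * ‖x - z‖) := by gcongr
      _ = c * ‖x - z‖ ^ 2 := by ring
      _ ≤ _ := (hX.low x z hx hz).trans_eq hrα.symm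
  have hα1 : nf x (nrm (x - z)) ≤ 1 := (nf_le x _).trans hpn.le
  have hqflat : nf x ((1 - M) • (nrm (x - z) - nf x (nrm (x - z)) • x)) = 0 := by
    simp [map_smul, map_sub, nf_self, hx]
  have hq5 : ‖(1 - M) • (nrm (x - z) - nf x (nrm (x - z)) • x)‖ ≤ 5 := by
    rw [norm_smul, Real.norm_of_nonneg (by linarith)]
    have h := norm_sub_le (nrm (x - z)) (nf x (nrm (x - z)) • x)
    rw [norm_smul, hpn, hx, Real.norm_of_nonneg (le_trans (by positivity) hαlow)] at h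
    calc (1 - M) * _ ≤ 1 * 5 :=
          mul_le_mul (by linarith) (h.trans (by linarith)) (norm_nonneg _) zero_le_one
      _ = 5 := one_mul 5
  obtain ⟨w, hw⟩ := exists_tan hX hY hf hx hqflat hq5 hη0
  have hζ' := extremal_direction hX hY hf hM hM1 hB hx hz hρ hr hne hη1 hη1'
    (by positivity : 0 ≤ G₀ / 4) (by positivity : 0 ≤ ζ) (by rw [← hG₀]; linarith) hcon hw
  have hid := pair_identity hX hY hf hx hz hρ hr hs hw hζ'
  generalize nf x (nrm (x - z)) = α at *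
  have hα0 : 0 < α := lt_of_lt_of_le (by positivity) hαlow
  have hr2 : ‖x - z‖ ≤ 2 := by linarith [norm_sub_le x z]
  have hs2 : ‖x + z‖ ≤ 2 := by linarith [norm_add_le x z]
  have hrs0 : 2 ≤ ‖x - z‖ + ‖x + z‖ := by
    linarith [show 0 ≤ c ^ 3 * ρ ^ 4 / 4 by positivity]
  have halg := defect_alg hM hM1 hα0.le hα1 (norm_nonneg _) hr2 hs2 (by linarith) hrs0 hid b1
    (by linarith)
  have hG : α * (c / 2 * ρ ^ 2) ≤ 2 * (1 - M + M * α) - ‖x - z‖ * α := by
    have h1 := mul_le_mul_of_nonneg_left m2 hα0.le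
    have h2 := mul_nonneg (by linarith : 0 ≤ 1 - M) (by linarith : 0 ≤ 1 - α)
    linarith
  have h1 : M * (c * ρ * (c ^ 3 * ρ ^ 4 / 4)) * (c * ρ * (c / 2 * ρ ^ 2)) ≤
      8 * (2 * (ζ + η / ρ) / M) := by
    refine le_trans (mul_le_mul ?_ ?_ (by positivity)
      (mul_nonneg hM.le (mul_nonneg hα0.le (by linarith)))) halg
    · gcongr
    · exact le_trans (by gcongr) hG
  have hfin : T ≤ 8 * (2 * (ζ + η / ρ)) := by
    have h2 := mul_le_mul_of_nonneg_right h1 hM.le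
    rw [mul_assoc 8, div_mul_cancel₀ _ hM.ne'] at h2
    rw [hT]; linarith
  linarith

end Vale.Agent.P084.Smooth
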