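import Mathlib

/-!
Norms with two-sided quadratic moduli: norming functionals, their Lipschitz bound, chords, and the
transfer of the moduli along a surjective isometry of unit spheres.
-/

open Set

set_option linter.unusedSectionVars false

namespace Vale.Agent.P084.Smooth

variable {X Y : Type*} [NormedAddCommGroup X] [NormedSpace ℝ X]
  [NormedAddCommGroup Y] [NormedSpace ℝ Y]

/-- A functional of norm at most one norming `v`. -/
noncomputable def nf (v : X) : StrongDual ℝ X := Classical.choose (exists_dual_vector'' ℝ v)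

lemma nf_norm (v : X) : ‖nf v‖ ≤ 1 := (Classical.choose_spec (exists_dual_vector'' ℝ v)).1

lemma nf_self (v : X) : nf v v = ‖v‖ := (Classical.choose_spec (exists_dual_vector'' ℝ v)).2

lemma abs_nf_le (v w : X) : |nf v w| ≤ ‖w‖ := by
  have := (nf v).le_of_opNorm_le (nf_norm v) w
  simpa using this

lemma nf_le (v w : X) : nf v w ≤ ‖w‖ := (le_abs_self _).trans (abs_nf_le v w)

/-- The unit vector in the direction of `v`. -/
noncomputable def nrm (v : X) : X := ‖v‖⁻¹ • v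

lemma norm_nrm {v : X} (hv : v ≠ 0) : ‖nrm v‖ = 1 := by simp [nrm, norm_smul, hv]

lemma smul_nrm (v : X) : ‖v‖ • nrm v = v := by
  rcases eq_or_ne v 0 with rfl | h
  · simp [nrm]
  · rw [nrm, smul_smul, mul_inv_cancel₀ (norm_ne_zero_iff.2 h), one_smul]

/-- Two-sided quadratic moduli: for unit `p`, `q` the height of `q` below the tangent plane at `p`
is comparable to the square of the distance. -/
structure Mod (X : Type*) [NormedAddCommGroup X] [NormedSpace ℝ X] (c C : ℝ) : Prop where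
  c_pos : 0 < c
  one_le : 1 ≤ C
  low : ∀ p q : X, ‖p‖ = 1 → ‖q‖ = 1 → c * ‖p - q‖ ^ 2 ≤ nf p (p - q)
  high : ∀ p q : X, ‖p‖ = 1 → ‖q‖ = 1 → nf p (p - q) ≤ C * ‖p - q‖ ^ 2

namespace Mod

variable {c C : ℝ} (hX : Mod X c C)

include hX

lemma C_pos : 0 < C := zero_lt_one.trans_le hX.one_le

lemma mono {c' C' : ℝ} (hc : 0 < c') (hcc : c' ≤ c) (hCC : C ≤ C') : Mod X c' C' :=
  ⟨hc, hX.one_le.trans hCC,
    fun p q hp hq => (mul_le_mul_of_nonneg_right hcc (sq_nonneg _)).trans (hX.low p q hp hq),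
    fun p q hp hq => (hX.high p q hp hq).trans (mul_le_mul_of_nonneg_right hCC (sq_nonneg _))⟩

/-- The quadratic upper bound of the norm. -/
lemma norm_add_le_unit {p : X} (hp : ‖p‖ = 1) (h : X) :
    ‖p + h‖ ≤ 1 + nf p h + 16 * C * ‖h‖ ^ 2 := by
  have hC := hX.one_le
  have hh := abs_le.1 (abs_nf_le p h)
  rcases le_or_gt (1 / 2 : ℝ) ‖h‖ with hb | hb
  · have := norm_add_le p h
    nlinarith [mul_le_mul_of_nonneg_right hC (sq_nonneg ‖h‖), mul_le_mul_of_nonneg_right hb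
      (norm_nonneg h)]
  have hn : |‖p + h‖ - 1| ≤ ‖h‖ := by
    have := abs_norm_sub_norm_le (p + h) p
    rwa [add_sub_cancel_left, hp] at this
  obtain ⟨hn1, hn2⟩ := abs_le.1 hn
  have hne : p + h ≠ 0 := fun e => by rw [e, norm_zero] at hn1; linarith
  set n := ‖p + h‖ with hndef
  set q := nrm (p + h) with hqdef
  have hq : ‖q‖ = 1 := norm_nrm hne
  have e1 : n • q = p + h := smul_nrm _
  have hd : ‖p - q‖ ≤ 2 * ‖h‖ := by
    have e2 : p - q = (p - (p + h)) + (n - 1) • q := by rw [sub_smul, one_smul, e1]; abel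
    rw [e2]
    refine (norm_add_le _ _).trans ?_
    rw [norm_smul, hq, mul_one, Real.norm_eq_abs, sub_add_cancel_left, norm_neg]
    linarith
  have h4 := hX.high p q hp hq
  have e3 : n * nf p q = 1 + nf p h := by
    have := congrArg (nf p) e1
    simpa [nf_self, hp] using this
  rw [map_sub, nf_self, hp] at h4
  have h5 : ‖p - q‖ ^ 2 ≤ 4 * ‖h‖ ^ 2 := by nlinarith [norm_nonneg (p - q)]
  have h6 : n * (C * ‖p - q‖ ^ 2) ≤ 2 * (C * (4 * ‖h‖ ^ 2)) :=
    mul_le_mul (by linarith) (mul_le_mul_of_nonneg_left h5 hX.C_pos.le)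
      (mul_nonneg hX.C_pos.le (sq_nonneg _)) (by norm_num)
  nlinarith [mul_le_mul_of_nonneg_left h4 (hndef ▸ norm_nonneg (p + h)), mul_nonneg hX.C_pos.le
    (sq_nonneg ‖h‖)]

lemma eq_nf_unit {p : X} (hp : ‖p‖ = 1) {g : StrongDual ℝ X} (hg : ∀ w, g w ≤ ‖w‖)
    (hgp : g p = 1) (w : X) : g w = nf p w := by
  suffices key : ∀ w, g w ≤ nf p w by
    refine le_antisymm (key w) ?_
    have := key (-w)
    simp only [map_neg] at this
    linarith
  intro w
  refine le_of_forall_pos_le_add fun ε hε => ?_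
  have hC := hX.C_pos
  obtain ⟨t, ht, hte⟩ : ∃ t : ℝ, 0 < t ∧ 16 * C * t * ‖w‖ ^ 2 ≤ ε := by
    refine ⟨ε / (16 * C * ‖w‖ ^ 2 + 1), by positivity, ?_⟩
    have h : ε / (16 * C * ‖w‖ ^ 2 + 1) * (16 * C * ‖w‖ ^ 2 + 1) = ε :=
      div_mul_cancel₀ ε (by positivity)
    nlinarith [show 0 < ε / (16 * C * ‖w‖ ^ 2 + 1) by positivity]
  have h := (hg (p + t • w)).trans (hX.norm_add_le_unit hp (t • w))
  rw [map_add, map_smul, map_smul, hgp, norm_smul, Real.norm_of_nonneg ht.le] at h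
  simp only [smul_eq_mul] at h
  refine le_of_mul_le_mul_left ?_ ht
  nlinarith [mul_le_mul_of_nonneg_left hte ht.le]

lemma nf_nrm {v : X} (hv : v ≠ 0) (w : X) : nf (nrm v) w = nf v w :=
  (hX.eq_nf_unit (norm_nrm hv) (nf_le v) (by
    rw [nrm, map_smul, nf_self, smul_eq_mul, inv_mul_cancel₀ (norm_ne_zero_iff.2 hv)]) w).symm

lemma nf_smul {v : X} (hv : v ≠ 0) {t : ℝ} (ht : 0 < t) (w : X) : nf (t • v) w = nf v w := by
  have h : nrm (t • v) = nrm v := by
    rw [nrm, nrm, norm_smul, Real.norm_of_nonneg ht.le, smul_smul]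
    congr 1
    field_simp
  rw [← hX.nf_nrm (smul_ne_zero ht.ne' hv), h, hX.nf_nrm hv]

/-- The quadratic upper bound of the norm at any nonzero point. -/
lemma norm_add_le {v : X} (hv : v ≠ 0) (h : X) :
    ‖v + h‖ ≤ ‖v‖ + nf v h + 16 * C * ‖h‖ ^ 2 / ‖v‖ := by
  have hn : 0 < ‖v‖ := norm_pos_iff.2 hv
  have h0 := mul_le_mul_of_nonneg_left
    (hX.norm_add_le_unit (norm_nrm hv) (‖v‖⁻¹ • h)) hn.le
  rw [hX.nf_nrm hv, map_smul, smul_eq_mul] at h0
  have e : ‖v‖ * ‖nrm v + ‖v‖⁻¹ • h‖ = ‖v + h‖ := by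
    rw [nrm, ← smul_add, norm_smul, norm_inv, norm_norm, ← mul_assoc, mul_inv_cancel₀ hn.ne',
      one_mul]
  rw [e, norm_smul, norm_inv, norm_norm] at h0
  refine h0.trans (le_of_eq ?_)
  field_simp

/-- The norming functional is Lipschitz on the sphere. -/
lemma abs_nf_sub_le {p q : X} (hp : ‖p‖ = 1) (hq : ‖q‖ = 1) (w : X) :
    |nf q w - nf p w| ≤ 17 * C * ‖p - q‖ * ‖w‖ := by
  rcases eq_or_ne p q with rfl | hpq
  · simp
  rcases eq_or_ne w 0 with rfl | hw
  · simp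
  set r := ‖p - q‖
  have hr : 0 < r := norm_pos_iff.2 (sub_ne_zero.2 hpq)
  have hwn : 0 < ‖w‖ := norm_pos_iff.2 hw
  have key : ∀ v : X, ‖v‖ = r → nf q v - nf p v ≤ 17 * C * r ^ 2 := by
    intro v hv
    have h1 := (nf_le q (p + v)).trans (hX.norm_add_le_unit hp v)
    have h2 := hX.high q p hq hp
    rw [map_sub, nf_self, hq, norm_sub_rev] at h2
    rw [map_add, hv] at h1
    linarith
  set v := (r / ‖w‖) • w with hv
  have hvn : ‖v‖ = r := by
    rw [hv, norm_smul, Real.norm_of_nonneg (by positivity), div_mul_cancel₀ _ hwn.ne']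
  have k1 := key v hvn
  have k2 := key (-v) (by rw [norm_neg, hvn])
  have e : ∀ g : StrongDual ℝ X, r * g w = ‖w‖ * g v := fun g => by
    rw [hv, map_smul, smul_eq_mul]; field_simp
  simp only [map_neg] at k2
  rw [abs_le]
  constructor <;> refine le_of_mul_le_mul_left ?_ hr <;> nlinarith [e (nf q), e (nf p)]

/-- A vector with small defect is close to the line through `p`. -/
lemma dev_le {p : X} (hp : ‖p‖ = 1) (d : X) :
    c * ‖d - nf p d • p‖ ^ 2 ≤ 4 * ‖d‖ * (‖d‖ - nf p d) := by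
  rcases eq_or_ne d 0 with rfl | hd
  · simp
  have hn : 0 < ‖d‖ := norm_pos_iff.2 hd
  have h := hX.low p (nrm d) hp (norm_nrm hd)
  rw [map_sub, nf_self, hp] at h
  have e1 : ‖d‖ * nf p (nrm d) = nf p d := by
    rw [← smul_eq_mul, ← map_smul, smul_nrm]
  have e2 : ‖‖d‖ • p - d‖ = ‖d‖ * ‖p - nrm d‖ := by
    conv_lhs => arg 1; arg 2; rw [← smul_nrm d]
    rw [← smul_sub, norm_smul, norm_norm]
  have e3 : ‖d - nf p d • p‖ ≤ 2 * ‖‖d‖ • p - d‖ := by
    have e : d - nf p d • p = -(‖d‖ • p - d) + nf p (‖d‖ • p - d) • p := by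
      rw [map_sub, map_smul, nf_self, hp, sub_smul, smul_eq_mul, mul_one]; abel
    rw [e]
    refine (_root_.norm_add_le _ _).trans ?_
    rw [norm_neg, norm_smul, hp, mul_one, Real.norm_eq_abs, two_mul]
    gcongr
    exact abs_nf_le _ _
  calc c * ‖d - nf p d • p‖ ^ 2 ≤ c * (2 * ‖‖d‖ • p - d‖) ^ 2 := by
        gcongr
        exact hX.c_pos.le
    _ = 4 * ‖d‖ ^ 2 * (c * ‖p - nrm d‖ ^ 2) := by rw [e2]; ring
    _ ≤ 4 * ‖d‖ ^ 2 * (1 - nf p (nrm d)) := by gcongr
    _ = 4 * ‖d‖ * (‖d‖ - nf p d) := by rw [← e1]; ring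

/-- Sums of norms near the diagonal: the midpoint of a short chord is high. -/
lemma two_sub_le {x z : X} (hx : ‖x‖ = 1) (hz : ‖z‖ = 1) :
    2 - ‖x + z‖ ≤ C * ‖x - z‖ ^ 2 := by
  have h := hX.high x z hx hz
  have h2 := nf_le x (x + z)
  rw [map_sub, nf_self, hx] at h
  rw [map_add, nf_self, hx] at h2
  linarith

lemma le_two_sub {x z : X} (hx : ‖x‖ = 1) (hz : ‖z‖ = 1) :
    c / 2 * ‖x - z‖ ^ 2 ≤ 2 - ‖x + z‖ := by
  rcases eq_or_ne (x + z) 0 with h0 | h0
  · have e : z = -x := eq_neg_of_add_eq_zero_right h0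
    have h1 := hX.low x z hx hz
    have h2 := nf_le x (x - z)
    rw [h0, norm_zero, sub_zero]
    rw [e, sub_neg_eq_add, ← two_smul ℝ x, norm_smul, hx] at h1 h2 ⊢
    norm_num at h1 h2 ⊢
    linarith
  set w := nrm (x + z) with hw
  have hwn : ‖w‖ = 1 := norm_nrm h0
  have h1 := hX.low w x hwn hx
  have h2 := hX.low w z hwn hz
  have e : nf w x + nf w z = ‖x + z‖ := by
    rw [← map_add, hw, hX.nf_nrm h0, nf_self]
  rw [map_sub, nf_self, hwn] at h1 h2
  have h3 : ‖x - z‖ ≤ ‖w - x‖ + ‖w - z‖ := by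
    rw [norm_sub_rev w x]; exact norm_sub_le_norm_sub_add_norm_sub x w z
  nlinarith [mul_le_mul_of_nonneg_left (pow_le_pow_left₀ (norm_nonneg _) h3 2) hX.c_pos.le,
    mul_nonneg hX.c_pos.le (sq_nonneg (‖w - x‖ - ‖w - z‖))]

/-- A line entering the ball at a point of the sphere leaves it again. -/
lemma exists_chord {x d : X} (hx : ‖x‖ = 1) (hd : 0 < nf x d) :
    ∃ l : ℝ, 0 < l ∧ ‖x - l • d‖ = 1 := by
  have hd0 : d ≠ 0 := fun e => by simp [e] at hd
  have hn : 0 < ‖d‖ := norm_pos_iff.2 hd0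
  have hC := hX.C_pos
  set l₀ := nf x d / (32 * C * ‖d‖ ^ 2) with hl₀
  have hl₀pos : 0 < l₀ := by positivity
  have h0 : ‖x - l₀ • d‖ ≤ 1 := by
    have h := hX.norm_add_le_unit hx (-(l₀ • d))
    rw [← sub_eq_add_neg, map_neg, map_smul, norm_neg, norm_smul, Real.norm_of_nonneg hl₀pos.le,
      smul_eq_mul] at h
    have : 16 * C * (l₀ * ‖d‖) ^ 2 = l₀ * nf x d / 2 := by rw [hl₀]; field_simp; ring
    have := mul_pos hl₀pos hd
    linarith
  set l₁ := max l₀ (2 / ‖d‖) with hl₁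
  have h1 : 1 ≤ ‖x - l₁ • d‖ := by
    have h := norm_sub_norm_le (l₁ • d) x
    rw [norm_sub_rev, norm_smul, Real.norm_of_nonneg (hl₀pos.le.trans (le_max_left _ _)), hx] at h
    have : 2 ≤ l₁ * ‖d‖ := by
      calc (2 : ℝ) = 2 / ‖d‖ * ‖d‖ := (div_mul_cancel₀ _ hn.ne').symm
        _ ≤ _ := by gcongr; exact le_max_right _ _
    linarith
  have hcont : Continuous fun l : ℝ => ‖x - l • d‖ := by fun_prop
  obtain ⟨l, hl, hl'⟩ := intermediate_value_Icc (le_max_left l₀ (2 / ‖d‖)) hcont.continuousOn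
    ⟨h0, h1⟩
  exact ⟨l, hl₀pos.trans_le hl.1, hl'⟩

end Mod

/-- A surjective isometry of unit spheres, with its inverse, extended arbitrarily. -/
structure Iso (f : X → Y) (g : Y → X) : Prop where
  norm : ∀ u, ‖u‖ = 1 → ‖f u‖ = 1
  norm' : ∀ v, ‖v‖ = 1 → ‖g v‖ = 1
  left : ∀ u, ‖u‖ = 1 → g (f u) = u
  right : ∀ v, ‖v‖ = 1 → f (g v) = v
  dist : ∀ u v, ‖u‖ = 1 → ‖v‖ = 1 → ‖f u - f v‖ = ‖u - v‖
  odd : ∀ u, ‖u‖ = 1 → f (-u) = -f u

namespace Iso

variable {f : X → Y} {g : Y → X} (hf : Iso f g)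

include hf

lemma dist' {u v : Y} (hu : ‖u‖ = 1) (hv : ‖v‖ = 1) : ‖g u - g v‖ = ‖u - v‖ := by
  rw [← hf.dist _ _ (hf.norm' u hu) (hf.norm' v hv), hf.right u hu, hf.right v hv]

lemma odd' {v : Y} (hv : ‖v‖ = 1) : g (-v) = -g v := by
  have h := hf.odd (g v) (hf.norm' v hv)
  rw [hf.right v hv] at h
  rw [← h, hf.left _ (by rw [norm_neg, hf.norm' v hv])]

lemma symm : Iso g f :=
  ⟨hf.norm', hf.norm, hf.right, hf.left, fun _ _ => hf.dist', fun _ => hf.odd'⟩

lemma sum {u v : X} (hu : ‖u‖ = 1) (hv : ‖v‖ = 1) : ‖f u + f v‖ = ‖u + v‖ := by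
  have h := hf.dist u (-v) hu (by rw [norm_neg, hv])
  rwa [hf.odd v hv, sub_neg_eq_add, sub_neg_eq_add] at h

lemma ne {u v : X} (hu : ‖u‖ = 1) (hv : ‖v‖ = 1) (h : u ≠ v) : f u ≠ f v := fun e => h (by
  rw [← hf.left u hu, e, hf.left v hv])

/-- The moduli pass to the target. -/
lemma transfer {c C : ℝ} (hX : Mod X c C) : ∃ c' C', Mod Y c' C' := by
  have hC := hX.one_le
  have hs : ∀ a b : Y, ‖a‖ = 1 → ‖b‖ = 1 →
      c / 2 * ‖a - b‖ ^ 2 ≤ 2 - ‖a + b‖ ∧ 2 - ‖a + b‖ ≤ C * ‖a - b‖ ^ 2 := by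
    intro a b ha hb
    have hx := hf.norm' a ha
    have hz := hf.norm' b hb
    rw [← hf.dist' ha hb, ← hf.symm.sum ha hb]
    exact ⟨hX.le_two_sub hx hz, hX.two_sub_le hx hz⟩
  refine ⟨c / 2, 40 * C, half_pos hX.c_pos, by linarith, fun p q hp hq => ?_, fun p q hp hq => ?_⟩
  · have h := nf_le p (p + q)
    rw [map_add, nf_self, hp] at h
    rw [map_sub, nf_self, hp]
    linarith [(hs p q hp hq).1]
  · set h := q - p with hh
    have e0 : ‖p - q‖ = ‖h‖ := norm_sub_rev p q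
    rw [e0]
    rcases le_or_gt (1 / 4 : ℝ) ‖h‖ with hb | hb
    · have := nf_le p (p - q)
      rw [e0] at this
      nlinarith [mul_le_mul_of_nonneg_left hb (norm_nonneg h),
        mul_le_mul_of_nonneg_right hC (sq_nonneg ‖h‖)]
    · have hl : |‖p + h‖ - 1| ≤ ‖h‖ := by
        have := abs_norm_sub_norm_le (p + h) p
        rwa [add_sub_cancel_left, hp] at this
      have hm : |‖p - h‖ - 1| ≤ ‖h‖ := by
        have := abs_norm_sub_norm_le (p - h) p
        rwa [sub_sub_cancel_left, norm_neg, hp] at this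
      rw [abs_le] at hl hm
      set a := nrm (p + h)
      set b := nrm (p - h)
      set l := ‖p + h‖ with hl_def
      set m := ‖p - h‖ with hm_def
      have ha : ‖a‖ = 1 := norm_nrm fun e => by rw [hl_def, e, norm_zero] at hl; linarith
      have hb' : ‖b‖ = 1 := norm_nrm fun e => by rw [hm_def, e, norm_zero] at hm; linarith
      have e1 : l • a = p + h := smul_nrm _
      have e2 : m • b = p - h := smul_nrm _
      have hab : ‖a - b‖ ≤ 4 * ‖h‖ := by
        have e : a - b = (p + h) - (p - h) - (l - 1) • a + (m - 1) • b := by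
          rw [sub_smul, sub_smul, one_smul, one_smul, e1, e2]; abel
        rw [e]
        refine (norm_add_le _ _).trans ((add_le_add_left (norm_sub_le _ _) _).trans ?_)
        rw [norm_smul, norm_smul, ha, hb', Real.norm_eq_abs, Real.norm_eq_abs,
          show p + h - (p - h) = h + h by abel]
        have := norm_add_le h h
        have : |l - 1| ≤ ‖h‖ := abs_le.2 hl
        have : |m - 1| ≤ ‖h‖ := abs_le.2 hm
        linarith
      have hsum : (l + m) / 2 * ‖a + b‖ ≤ 2 + |l - m| / 2 * ‖a - b‖ := by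
        have e : ((l + m) / 2) • (a + b) = (p + h) + (p - h) - ((l - m) / 2) • (a - b) := by
          rw [← e1, ← e2]; module
        have := congrArg (fun v : Y => ‖v‖) e
        rw [norm_smul, Real.norm_of_nonneg (by linarith), show p + h + (p - h) = (2 : ℝ) • p by
          module] at this
        rw [this]
        refine (norm_sub_le _ _).trans ?_
        rw [norm_smul, norm_smul, hp, Real.norm_eq_abs, Real.norm_eq_abs, abs_div]
        norm_num
      have h2 := (hs a b ha hb').2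
      have h3 : ‖a - b‖ ^ 2 ≤ 16 * ‖h‖ ^ 2 := by nlinarith [norm_nonneg (a - b)]
      have h4 : |l - m| ≤ 2 * ‖h‖ := abs_le.2 ⟨by linarith, by linarith⟩
      have hlm : l + m ≤ 2 + (40 * C) * ‖h‖ ^ 2 := by
        nlinarith [mul_le_mul_of_nonneg_left h2 (by linarith : 0 ≤ (l + m) / 2),
          mul_le_mul h4 hab (norm_nonneg _) (by positivity),
          mul_le_mul_of_nonneg_left h3 hX.C_pos.le,
          mul_le_mul_of_nonneg_right hC (sq_nonneg ‖h‖)]
      have h5 := nf_le p (p - h)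
      rw [map_sub, nf_self, hp] at h5
      have h6 : l = 1 := by rw [hl_def, hh, add_sub_cancel, hq]
      rw [show p - q = -h by rw [hh]; abel, map_neg]
      linarith [hm_def]

end Iso

/-- A surjective isometry of spheres preserves antipodes if the source has quadratic moduli. -/
lemma odd_of_mod {c C : ℝ} (hX : Mod X c C) {f : X → Y} {g : Y → X}
    (h1 : ∀ u, ‖u‖ = 1 → ‖f u‖ = 1) (h2 : ∀ v, ‖v‖ = 1 → ‖g v‖ = 1)
    (h3 : ∀ v, ‖v‖ = 1 → f (g v) = v)
    (h4 : ∀ u v, ‖u‖ = 1 → ‖v‖ = 1 → ‖f u - f v‖ = ‖u - v‖) (u : X) (hu : ‖u‖ = 1) :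
    f (-u) = -f u := by
  have hv : ‖-f u‖ = 1 := by rw [norm_neg, h1 u hu]
  set w := g (-f u)
  have hd : ‖u - w‖ = 2 := by
    rw [← h4 u w hu (h2 _ hv), h3 _ hv, sub_neg_eq_add, ← two_smul ℝ (f u), norm_smul, h1 u hu]
    norm_num
  have h := hX.le_two_sub hu (show ‖-w‖ = 1 by rw [norm_neg]; exact h2 _ hv)
  rw [← sub_eq_add_neg, hd, sub_self] at h
  have h0 : ‖u - -w‖ ^ 2 ≤ 0 :=
    nonpos_of_mul_nonpos_right h (half_pos hX.c_pos)
  have e : u = -w := sub_eq_zero.1 (norm_eq_zero.1 (by nlinarith [norm_nonneg (u - -w)]))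
  rw [show -u = w by rw [e, neg_neg]]
  exact h3 _ hv

end Vale.Agent.P084.Smooth
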