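import Vale.Agent.P084.Smooth.Geom

/-!
Uniform second-order expansions of the norm on the sphere, and the least second-order term among
the directions of unit height.
-/

set_option linter.unusedSectionVars false

namespace Vale.Agent.P084.Smooth

variable {X Y : Type*} [NormedAddCommGroup X] [NormedSpace ℝ X]
  [NormedAddCommGroup Y] [NormedSpace ℝ Y] {c C : ℝ}

/-- The norm has a uniform second-order expansion on the sphere, with second term `D`. -/
structure Sec (D : X → X → ℝ) : Prop where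
  homog : ∀ p h, ∀ t : ℝ, D p (t • h) = t ^ 2 * D p h
  exp : ∀ ε : ℝ, 0 < ε → ∃ δ : ℝ, 0 < δ ∧ ∀ p h : X, ‖p‖ = 1 → ‖h‖ ≤ δ →
    |‖p + h‖ - 1 - nf p h - D p h| ≤ ε * ‖h‖ ^ 2

namespace Sec

variable {D : X → X → ℝ} (hX : Mod X c C) (hD : Sec D)

include hX hD

/-- The expansion along a line. -/
lemma exp_line {ε : ℝ} (hε : 0 < ε) :
    ∃ δ : ℝ, 0 < δ ∧ ∀ p h : X, ‖p‖ = 1 → ∀ t : ℝ, |t| * ‖h‖ ≤ δ →
      |‖p + t • h‖ - 1 - t * nf p h - t ^ 2 * D p h| ≤ ε * t ^ 2 * ‖h‖ ^ 2 := by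
  obtain ⟨δ, hδ, h⟩ := hD.exp ε hε
  refine ⟨δ, hδ, fun p v hp t ht => ?_⟩
  have hn : ‖t • v‖ = |t| * ‖v‖ := by rw [norm_smul, Real.norm_eq_abs]
  have := h p (t • v) hp (hn.trans_le ht)
  rw [map_smul, smul_eq_mul, hD.homog, hn, mul_pow, sq_abs] at this
  linarith

lemma exists_small {δ B : ℝ} (hδ : 0 < δ) (hB : 0 ≤ B) :
    ∃ t : ℝ, 0 < t ∧ t * B ≤ δ ∧ t * B ≤ 1 ∧ t ≤ δ := by
  refine ⟨min δ (min δ 1 / (B + 1)), lt_min hδ (by positivity), ?_, ?_, min_le_left _ _⟩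
  all_goals
    have h1 : min δ (min δ 1 / (B + 1)) * B ≤ min δ 1 / (B + 1) * (B + 1) :=
      mul_le_mul (min_le_right _ _) (by linarith) hB (by positivity)
    rw [div_mul_cancel₀ _ (by positivity : B + 1 ≠ 0)] at h1
  · exact h1.trans (min_le_left _ _)
  · exact h1.trans (min_le_right _ _)

lemma nonneg {p : X} (hp : ‖p‖ = 1) (h : X) : 0 ≤ D p h := by
  refine le_of_forall_pos_le_add fun ε hε => ?_
  obtain ⟨δ, hδ, he⟩ := exp_line hX hD (show 0 < ε / (‖h‖ ^ 2 + 1) by positivity)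
  obtain ⟨t, ht, htB, -, -⟩ := exists_small hX hD hδ (norm_nonneg h)
  have h1 := (abs_le.1 (he p h hp t (by rwa [abs_of_pos ht]))).2
  have h2 := nf_le p (p + t • h)
  rw [map_add, map_smul, nf_self, hp, smul_eq_mul] at h2
  have h3 : ε / (‖h‖ ^ 2 + 1) * ‖h‖ ^ 2 ≤ ε := by
    rw [div_mul_eq_mul_div, div_le_iff₀ (by positivity)]; nlinarith
  refine le_of_mul_le_mul_left ?_ (pow_pos ht 2)
  linarith [mul_le_mul_of_nonneg_left h3 (sq_nonneg t)]

lemma le_sq {p : X} (hp : ‖p‖ = 1) (h : X) : D p h ≤ 16 * C * ‖h‖ ^ 2 := by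
  refine le_of_forall_pos_le_add fun ε hε => ?_
  obtain ⟨δ, hδ, he⟩ := exp_line hX hD (show 0 < ε / (‖h‖ ^ 2 + 1) by positivity)
  obtain ⟨t, ht, htB, -, -⟩ := exists_small hX hD hδ (norm_nonneg h)
  have h1 := (abs_le.1 (he p h hp t (by rwa [abs_of_pos ht]))).1
  have h2 := hX.norm_add_le_unit hp (t • h)
  rw [map_smul, smul_eq_mul, norm_smul, Real.norm_of_nonneg ht.le] at h2
  have h3 : ε / (‖h‖ ^ 2 + 1) * ‖h‖ ^ 2 ≤ ε := by
    rw [div_mul_eq_mul_div, div_le_iff₀ (by positivity)]; nlinarith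
  refine le_of_mul_le_mul_left ?_ (pow_pos ht 2)
  linarith [mul_le_mul_of_nonneg_left h3 (sq_nonneg t)]

lemma dev_sq_le {p : X} (hp : ‖p‖ = 1) (h : X) :
    c / 4 * ‖h - nf p h • p‖ ^ 2 ≤ D p h := by
  refine le_of_forall_pos_le_add fun ε hε => ?_
  have hD0 := hD.nonneg hX hp h
  set ε₁ := min 1 (ε / (4 * (‖h‖ ^ 2 + 1) * (D p h + 2)))
  have hε₁ : 0 < ε₁ := lt_min one_pos (by positivity)
  obtain ⟨δ, hδ, he⟩ := exp_line hX hD hε₁
  obtain ⟨t, ht, htB, htB1, -⟩ := exists_small hX hD (show 0 < min δ ε₁ from lt_min hδ hε₁)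
    (norm_nonneg h)
  have h1 := (abs_le.1 (he p h hp t (by
    rw [abs_of_pos ht]; exact htB.trans (min_le_left _ _)))).2
  have hd := hX.dev_le hp (p + t • h)
  rw [map_add, map_smul, nf_self, hp, smul_eq_mul,
    show p + t • h - (1 + t * nf p h) • p = t • (h - nf p h • p) by module, norm_smul,
    Real.norm_of_nonneg ht.le, mul_pow] at hd
  have hlen : ‖p + t • h‖ ≤ 1 + ε₁ := by
    refine (norm_add_le _ _).trans ?_
    rw [hp, norm_smul, Real.norm_of_nonneg ht.le]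
    linarith [min_le_right δ ε₁]
  have hgap : ‖p + t • h‖ - (1 + t * nf p h) ≤ t ^ 2 * (D p h + ε₁ * ‖h‖ ^ 2) := by linarith
  have h0 := nf_le p (p + t • h)
  rw [map_add, map_smul, nf_self, hp, smul_eq_mul] at h0
  have h2 := mul_le_mul hlen hgap (by linarith) (by positivity)
  have key : c * ‖h - nf p h • p‖ ^ 2 ≤ 4 * (1 + ε₁) * (D p h + ε₁ * ‖h‖ ^ 2) := by
    refine le_of_mul_le_mul_left ?_ (pow_pos ht 2)
    linarith
  have hε2 : ε₁ ≤ ε / (4 * (‖h‖ ^ 2 + 1) * (D p h + 2)) := min_le_right _ _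
  rw [le_div_iff₀ (by positivity)] at hε2
  nlinarith [mul_nonneg hε₁.le hD0, mul_nonneg hε₁.le (sq_nonneg ‖h‖),
    mul_nonneg (mul_nonneg hε₁.le (sq_nonneg ‖h‖)) hD0,
    mul_le_mul_of_nonneg_left (min_le_left 1 (ε / (4 * (‖h‖ ^ 2 + 1) * (D p h + 2))))
      (mul_nonneg hε₁.le (sq_nonneg ‖h‖))]

/-- The second term ignores multiples of the base point. -/
lemma shift {p : X} (hp : ‖p‖ = 1) (h : X) (z : ℝ) : D p (h + z • p) = D p h := by
  suffices key : ∀ h z, D p (h + z • p) ≤ D p h by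
    refine le_antisymm (key h z) ?_
    have := key (h + z • p) (-z)
    rwa [show h + z • p + (-z) • p = h by module] at this
  intro h z
  refine le_of_forall_pos_le_add fun ε hε => ?_
  set h₂ := h + z • p
  have hD0 := hD.nonneg hX hp h
  set ε₁ := min (1 / 2) (ε / (4 * (‖h‖ ^ 2 + ‖h₂‖ ^ 2 + D p h + 1)))
  have hε₁ : 0 < ε₁ := lt_min (by norm_num) (by positivity)
  obtain ⟨δ, hδ, he⟩ := exp_line hX hD hε₁
  obtain ⟨t, ht, htB, -, -⟩ := exists_small hX hD (show 0 < min (δ / 2) (ε₁ / 2) by positivity)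
    (show 0 ≤ ‖h‖ + ‖h₂‖ + |z| + 1 by positivity)
  have hb : ∀ a, a ≤ ‖h‖ + ‖h₂‖ + |z| + 1 → t * a ≤ δ / 2 ∧ t * a ≤ ε₁ / 2 := fun a ha => by
    have := (mul_le_mul_of_nonneg_left ha ht.le).trans htB
    exact ⟨this.trans (min_le_left _ _), this.trans (min_le_right _ _)⟩
  have hnn := norm_nonneg h
  have hnn₂ := norm_nonneg h₂
  have hz := abs_nonneg z
  obtain ⟨-, hzs⟩ := hb |z| (by linarith)
  have hε₁2 : ε₁ ≤ 1 / 2 := min_le_left _ _
  have hm : |t * z| ≤ ε₁ / 2 := by rw [abs_mul, abs_of_pos ht]; exact hzs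
  set m := 1 + t * z with hmdef
  have hm1 : 1 - ε₁ / 2 ≤ m := by linarith [abs_le.1 hm]
  have hm0 : 0 < m := by linarith
  set s := t / m with hs
  have hs0 : 0 < s := by positivity
  have hs2 : s ≤ 2 * t := by rw [hs, div_le_iff₀ hm0]; nlinarith
  have hsδ : |s| * ‖h‖ ≤ δ := by
    rw [abs_of_pos hs0]
    linarith [mul_le_mul_of_nonneg_right hs2 hnn, (hb ‖h‖ (by linarith)).1]
  have htδ : |t| * ‖h₂‖ ≤ δ := by
    rw [abs_of_pos ht]; linarith [(hb ‖h₂‖ (by linarith)).1]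
  have e1 := (abs_le.1 (he p h hp s hsδ)).2
  have e2 := (abs_le.1 (he p h₂ hp t htδ)).1
  have ev : p + t • h₂ = m • (p + s • h) := by
    simp only [h₂, hs, smul_add, smul_smul, hmdef]
    rw [mul_div_cancel₀ _ (hmdef ▸ hm0.ne')]
    module
  rw [ev, norm_smul, Real.norm_of_nonneg hm0.le] at e2
  have hK : nf p h₂ = nf p h + z := by simp [h₂, map_add, map_smul, nf_self, hp]
  rw [hK] at e2
  have hms : m * s = t := by rw [hs]; field_simp
  have key : t ^ 2 * D p h₂ ≤ t ^ 2 * (ε₁ * ‖h₂‖ ^ 2 + D p h / m + ε₁ * ‖h‖ ^ 2 / m) := by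
    have e1' := mul_le_mul_of_nonneg_left e1 hm0.le
    have i1 : m * (s ^ 2 * D p h) = t ^ 2 * (D p h / m) := by rw [hs]; field_simp
    have i2 : m * (ε₁ * s ^ 2 * ‖h‖ ^ 2) = t ^ 2 * (ε₁ * ‖h‖ ^ 2 / m) := by
      rw [hs]; field_simp
    have i3 : m * (s * nf p h) = t * nf p h := by rw [← mul_assoc, hms]
    rw [hmdef] at i3 e1' e2 ⊢
    linarith
  have key' := le_of_mul_le_mul_left key (pow_pos ht 2)
  have hinv : 1 / m ≤ 1 + ε₁ := by rw [div_le_iff₀ hm0]; nlinarith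
  have hε2 : ε₁ ≤ ε / (4 * (‖h‖ ^ 2 + ‖h₂‖ ^ 2 + D p h + 1)) := min_le_right _ _
  rw [le_div_iff₀ (by positivity)] at hε2
  have j1 := mul_le_mul_of_nonneg_left hinv hD0
  have j2 := mul_le_mul_of_nonneg_left hinv (mul_nonneg hε₁.le (sq_nonneg ‖h‖))
  rw [mul_one_div] at j1 j2
  nlinarith [mul_le_mul_of_nonneg_left hε₁2 (mul_nonneg hε₁.le (sq_nonneg ‖h‖))]

/-- The second term is uniformly continuous in the base point. -/
lemma near {η : ℝ} (hη : 0 < η) :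
    ∃ τ : ℝ, 0 < τ ∧ ∀ p P h : X, ‖p‖ = 1 → ‖P‖ = 1 → ‖P - p‖ ≤ τ →
      |D P h - D p h| ≤ η * ‖h‖ ^ 2 := by
  obtain ⟨δ, hδ, he⟩ := hD.exp (η / 6) (by positivity)
  refine ⟨η * δ ^ 2 / 6, by positivity, fun p P h hp hP hPp => ?_⟩
  rcases eq_or_ne h 0 with rfl | hh
  · have : ∀ q : X, D q 0 = 0 := fun q => by
      have := hD.homog q 0 0; simpa using this
    simp [this]
  set t := δ / ‖h‖ with ht
  have hn : ‖t • h‖ = δ := by
    rw [norm_smul, Real.norm_of_nonneg (by positivity), ht,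
      div_mul_cancel₀ _ (norm_ne_zero_iff.2 hh)]
  have hneg : ∀ q, D q (-(t • h)) = D q (t • h) := fun q => by
    have := hD.homog q (t • h) (-1); simpa using this
  have a1 := abs_le.1 (he p (t • h) hp hn.le)
  have a2 := abs_le.1 (he p (-(t • h)) hp (by rw [norm_neg, hn]))
  have a3 := abs_le.1 (he P (t • h) hP hn.le)
  have a4 := abs_le.1 (he P (-(t • h)) hP (by rw [norm_neg, hn]))
  rw [map_neg, hneg, norm_neg, hn] at a2 a4
  rw [hn] at a1 a3
  have b : ∀ v : X, |‖P + v‖ - ‖p + v‖| ≤ η * δ ^ 2 / 6 := fun v => by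
    refine (abs_norm_sub_norm_le _ _).trans ?_
    rwa [add_sub_add_right_eq_sub]
  have b1 := abs_le.1 (b (t • h))
  have b2 := abs_le.1 (b (-(t • h)))
  have hkey : |D P (t • h) - D p (t • h)| ≤ η * δ ^ 2 := by
    rw [abs_le]; constructor <;> linarith
  rw [hD.homog, hD.homog, ← mul_sub, abs_mul, abs_of_pos (by positivity : 0 < t ^ 2)] at hkey
  refine le_of_mul_le_mul_left (hkey.trans (le_of_eq ?_)) (by positivity : 0 < t ^ 2)
  rw [ht]; field_simp

/-- Half chords have a quarter of the height, to second order. -/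
lemma half_height {ε : ℝ} (hε : 0 < ε) :
    ∃ δ : ℝ, 0 < δ ∧ ∀ x z : X, ‖x‖ = 1 → ‖z‖ = 1 → ‖x - z‖ ≤ δ →
      |2 - ‖x + z‖ - nf x (x - z) / 2| ≤ ε * ‖x - z‖ ^ 2 := by
  obtain ⟨δ, hδ, he⟩ := exp_line hX hD hε
  refine ⟨δ, hδ, fun x z hx hz hr => ?_⟩
  have hzx : ‖z - x‖ = ‖x - z‖ := norm_sub_rev z x
  have e1 := abs_le.1 (he x (z - x) hx 1 (by rw [abs_one, one_mul, hzx]; exact hr))
  have e2 := abs_le.1 (he x (z - x) hx (1 / 2) (by
    rw [hzx]; norm_num; linarith [norm_nonneg (x - z)]))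
  have i1 : x + (1 : ℝ) • (z - x) = z := by module
  have i2 : x + (1 / 2 : ℝ) • (z - x) = (1 / 2 : ℝ) • (x + z) := by module
  have i3 : nf x (z - x) = -nf x (x - z) := by rw [← map_neg, neg_sub]
  rw [i1, hz, hzx, i3] at e1
  rw [i2, norm_smul, hzx, i3] at e2
  norm_num at e2
  rw [map_sub]
  rw [map_sub] at e1
  rw [abs_le]
  constructor <;> linarith [mul_nonneg hε.le (sq_nonneg ‖x - z‖)]

end Sec

/-- The values of the second term at directions of unit height normal to `p`. -/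
def curvSet (D : X → X → ℝ) (x p : X) : Set ℝ :=
  {v | ∃ d, nf x d = 1 ∧ nf p d = 0 ∧ D p d = v}

/-- The least second term among directions of unit height. -/
noncomputable def curv (D : X → X → ℝ) (x p : X) : ℝ := sInf (curvSet D x p)

section

variable {D : X → X → ℝ} (hX : Mod X c C) (hD : Sec D) {x p : X} (hx : ‖x‖ = 1) (hp : ‖p‖ = 1)
  (hα : |nf x p| ≤ 1 / 2)

include hX hD hx hp hα

lemma curvSet_witness : ∃ d, nf x d = 1 ∧ nf p d = 0 ∧ ‖d‖ ≤ 4 := by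
  have hh := abs_nf_le p x
  rw [hx] at hh
  have hden : 1 / 2 ≤ 1 - nf p x * nf x p := by
    have : |nf p x * nf x p| ≤ 1 * (1 / 2) := by
      rw [abs_mul]; exact mul_le_mul hh hα (abs_nonneg _) zero_le_one
    linarith [le_abs_self (nf p x * nf x p)]
  refine ⟨(1 - nf p x * nf x p)⁻¹ • (x - nf p x • p), ?_, ?_, ?_⟩
  · rw [map_smul, map_sub, map_smul, nf_self, hx, smul_eq_mul, smul_eq_mul,
      inv_mul_cancel₀ (by linarith)]
  · rw [map_smul, map_sub, map_smul, nf_self, hp, smul_eq_mul, smul_eq_mul]; ring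
  · rw [norm_smul, Real.norm_of_nonneg (inv_nonneg.2 (by linarith)), inv_mul_le_iff₀ (by linarith)]
    refine (norm_sub_le _ _).trans ?_
    rw [norm_smul, hp, hx, mul_one, Real.norm_eq_abs]
    linarith

lemma curvSet_nonempty : (curvSet D x p).Nonempty :=
  let ⟨d, h1, h2, _⟩ := curvSet_witness hX hD hx hp hα
  ⟨_, d, h1, h2, rfl⟩

lemma curvSet_bddBelow : BddBelow (curvSet D x p) :=
  ⟨0, by rintro v ⟨d, -, -, rfl⟩; exact hD.nonneg hX hp d⟩

lemma curv_le : curv D x p ≤ 256 * C := by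
  obtain ⟨d, h1, h2, h3⟩ := curvSet_witness hX hD hx hp hα
  refine (csInf_le (curvSet_bddBelow hX hD hx hp hα) ⟨d, h1, h2, rfl⟩).trans
    ((hD.le_sq hX hp d).trans ?_)
  nlinarith [pow_le_pow_left₀ (norm_nonneg d) h3 2, hX.C_pos]

lemma le_curv : c / 4 ≤ curv D x p := by
  refine le_csInf (curvSet_nonempty hX hD hx hp hα) ?_
  rintro v ⟨d, h1, h2, rfl⟩
  refine le_trans ?_ (hD.dev_sq_le hX hp d)
  rw [h2, zero_smul, sub_zero]
  have h := nf_le x d
  rw [h1] at h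
  exact le_mul_of_one_le_right (div_nonneg hX.c_pos.le (by norm_num)) (one_le_pow₀ h)

lemma exists_curv {η : ℝ} (hη : 0 < η) (hη1 : η ≤ 1) :
    ∃ d, nf x d = 1 ∧ nf p d = 0 ∧ D p d ≤ curv D x p + η ∧
      ‖d‖ ≤ 4 * (256 * C + 1) / c + 1 := by
  obtain ⟨v, ⟨d, h1, h2, rfl⟩, hv⟩ := exists_lt_of_csInf_lt (curvSet_nonempty hX hD hx hp hα)
    (show curv D x p < curv D x p + η by linarith)
  refine ⟨d, h1, h2, hv.le, ?_⟩
  have hc := hX.c_pos
  have h := hD.dev_sq_le hX hp d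
  rw [h2, zero_smul, sub_zero] at h
  have hC := curv_le hX hD hx hp hα
  have h' : ‖d‖ ^ 2 ≤ 4 * (256 * C + 1) / c := by
    rw [le_div_iff₀ hc]; linarith
  nlinarith [sq_nonneg (‖d‖ - 1)]

/-- The lower bound by the height. -/
lemma curv_mul_sq_le (e : X) : curv D x p * (nf x e - nf x p * nf p e) ^ 2 ≤ D p e := by
  set σ := nf x e - nf x p * nf p e
  rcases eq_or_ne σ 0 with h0 | h0
  · rw [h0]; simpa using hD.nonneg hX hp e
  set e₀ := e + (-nf p e) • p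
  have h1 : nf x e₀ = σ := by simp [e₀, σ]; ring
  have h2 : nf p e₀ = 0 := by simp [e₀, nf_self, hp]
  have h := csInf_le (curvSet_bddBelow hX hD hx hp hα)
    (show D p (σ⁻¹ • e₀) ∈ curvSet D x p from ⟨_, by simp [h1, h0], by simp [h2], rfl⟩)
  rw [hD.homog, hD.shift hX hp, inv_pow, le_inv_mul_iff₀ (by positivity)] at h
  exact (mul_comm _ _).trans_le h

end

end Vale.Agent.P084.Smooth
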